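import Mathlib

/-!
# A periodic positive function with two prescribed moments

For `(X, Y)` in the open upper half of the disc `|z - 1/2| < 1/2` we find a non-constant smooth
periodic `K` with `∫ T1 (K) = X`, `∫ T2 (K) = Y`, where `T1 + i T2 = (1 + i√r)/(1+r)`, `√r = e^{-K}`.
-/

noncomputable section

open scoped ContDiff Topology
open MeasureTheory Filter Real intervalIntegral

namespace Vale.Agent.P205

/-- real part -/
def T1 (K : ℝ) : ℝ := 1 / (1 + exp (-K) ^ 2)
/-- imaginary part -/
def T2 (K : ℝ) : ℝ := exp (-K) / (1 + exp (-K) ^ 2)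
/-- the shape -/
def Kf (a L : ℝ) (w : ℝ) : ℝ := a + L * sin (2 * π * w)

lemma den_pos (K : ℝ) : 0 < 1 + exp (-K) ^ 2 := by positivity

lemma T1_pos (K : ℝ) : 0 < T1 K := by unfold T1; positivity

lemma T1_lt_one (K : ℝ) : T1 K < 1 := by
  rw [T1, div_lt_one (den_pos K)]
  have := exp_pos (-K)
  nlinarith

lemma T2_pos (K : ℝ) : 0 < T2 K := by unfold T2; positivity

lemma T2_le_half (K : ℝ) : T2 K ≤ 1 / 2 := by
  rw [T2, div_le_iff₀ (den_pos K)]
  nlinarith [sq_nonneg (exp (-K) - 1)]

lemma T2_sq (K : ℝ) : T2 K ^ 2 = T1 K * (1 - T1 K) := by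
  have := den_pos K
  unfold T1 T2
  field_simp
  ring

lemma T1_strictMono : StrictMono T1 := fun a b h => by
  unfold T1
  have h1 : exp (-b) < exp (-a) := exp_lt_exp.2 (by linarith)
  have := exp_pos (-b)
  apply one_div_lt_one_div_of_lt (den_pos b)
  nlinarith

lemma contDiff_T1 : ContDiff ℝ ∞ T1 := by
  unfold T1
  exact contDiff_const.div (contDiff_const.add ((contDiff_id.neg.exp).pow 2)) fun K => (den_pos K).ne'

lemma contDiff_T2 : ContDiff ℝ ∞ T2 := by
  unfold T2
  exact (contDiff_id.neg.exp).div (contDiff_const.add ((contDiff_id.neg.exp).pow 2))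
    fun K => (den_pos K).ne'

lemma contDiff_Kf (a L : ℝ) : ContDiff ℝ ∞ (Kf a L) := by
  unfold Kf
  fun_prop

lemma Kf_periodic (a L w : ℝ) : Kf a L (w + 1) = Kf a L w := by
  simp [Kf, mul_add, sin_add_two_pi]

/-- first moment -/
def G1 (L a : ℝ) : ℝ := ∫ w in (0 : ℝ)..1, T1 (Kf a L w)
/-- second moment -/
def G2 (L a : ℝ) : ℝ := ∫ w in (0 : ℝ)..1, T2 (Kf a L w)

lemma cont_T1K (a L : ℝ) : Continuous fun w => T1 (Kf a L w) :=
  (contDiff_T1.comp (contDiff_Kf a L)).continuous

lemma cont_T2K (a L : ℝ) : Continuous fun w => T2 (Kf a L w) :=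
  (contDiff_T2.comp (contDiff_Kf a L)).continuous

lemma continuous_G1 : Continuous fun p : ℝ × ℝ => G1 p.1 p.2 := by
  unfold G1
  apply intervalIntegral.continuous_parametric_intervalIntegral_of_continuous'
  have := contDiff_T1.continuous
  unfold Kf
  simp only [Function.uncurry_def]
  fun_prop

lemma continuous_G2 : Continuous fun p : ℝ × ℝ => G2 p.1 p.2 := by
  unfold G2
  apply intervalIntegral.continuous_parametric_intervalIntegral_of_continuous'
  have := contDiff_T2.continuous
  unfold Kf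
  simp only [Function.uncurry_def]
  fun_prop

lemma G1_strictMono (L : ℝ) : StrictMono (G1 L) := fun a b h => by
  refine integral_lt_integral_of_continuousOn_of_le_of_exists_lt one_pos
    (cont_T1K a L).continuousOn (cont_T1K b L).continuousOn
    (fun w _ => (T1_strictMono (by simp [Kf, h])).le)
    ⟨0, by norm_num, T1_strictMono (by simp [Kf, h])⟩

lemma T1_big {X : ℝ} (hX0 : 0 < X) (hX1 : X < 1) : ∃ R, ∀ K, R ≤ K → X < T1 K := by
  obtain ⟨c, hc, hc2⟩ : ∃ c : ℝ, 0 < c ∧ c ^ 2 < (1 - X) / X := by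
    refine ⟨min 1 ((1 - X) / X / 2), lt_min one_pos (by have := sub_pos.2 hX1; positivity), ?_⟩
    have h1 : 0 < (1 - X) / X := div_pos (by linarith) hX0
    nlinarith [min_le_left 1 ((1 - X) / X / 2), min_le_right 1 ((1 - X) / X / 2),
      lt_min one_pos (half_pos h1)]
  refine ⟨-log c, fun K hK => ?_⟩
  have h1 : exp (-K) ≤ c := by
    calc exp (-K) ≤ exp (log c) := exp_le_exp.2 (by linarith)
      _ = c := exp_log hc
  rw [T1, lt_div_iff₀ (den_pos K)]
  have h2 : exp (-K) ^ 2 ≤ c ^ 2 := pow_le_pow_left₀ (exp_pos _).le h1 2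
  rw [lt_div_iff₀ hX0] at hc2
  nlinarith

lemma T1_neg (K : ℝ) : T1 (-K) = 1 - T1 K := by
  unfold T1
  rw [neg_neg, exp_neg]
  have := (exp_pos K).ne'
  field_simp
  ring

lemma exists_a {X : ℝ} (hX0 : 0 < X) (hX1 : X < 1) (L : ℝ) : ∃ a, G1 L a = X := by
  obtain ⟨R, hR⟩ := T1_big hX0 hX1
  obtain ⟨R', hR'⟩ := T1_big (X := 1 - X) (by linarith) (by linarith)
  have hb : ∀ w, |L * sin (2 * π * w)| ≤ |L| := fun w => by
    rw [abs_mul]; exact mul_le_of_le_one_right (abs_nonneg _) (abs_sin_le_one _)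
  have hconst : ∀ c : ℝ, ∫ _ in (0 : ℝ)..1, c = c := fun c => by simp
  have hhi : X ≤ G1 L (R + |L|) := by
    conv_lhs => rw [← hconst X]
    exact integral_mono_on (by norm_num) intervalIntegrable_const
      ((cont_T1K _ _).intervalIntegrable _ _) fun w _ => (hR _ (by
        have := (abs_le.1 (hb w)).1; simp only [Kf]; linarith)).le
  have hlo : G1 L (-(R' + |L|)) ≤ X := by
    conv_rhs => rw [← hconst X]
    exact integral_mono_on (by norm_num) ((cont_T1K _ _).intervalIntegrable _ _)
      intervalIntegrable_const fun w _ => by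
        have h2 := hR' (-(Kf (-(R' + |L|)) L w)) (by
          have := (abs_le.1 (hb w)).2; simp only [Kf]; linarith)
        rw [T1_neg] at h2
        linarith
  have hc : Continuous (G1 L) := continuous_G1.comp (continuous_const.prodMk continuous_id)
  exact mem_range_of_exists_le_of_exists_ge hc ⟨_, hlo⟩ ⟨_, hhi⟩

lemma hasDerivAt_arctan_exp (K : ℝ) : HasDerivAt (fun K => arctan (exp K)) (T2 K) K := by
  refine (hasDerivAt_exp K).arctan.congr_deriv ?_
  unfold T2
  rw [exp_neg]
  have := (exp_pos K).ne'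
  field_simp
  ring

lemma weighted_T2_le (a : ℝ) {L : ℝ} (hL : 0 < L) :
    ∫ w in (0 : ℝ)..1, |cos (2 * π * w)| * T2 (Kf a L w) ≤ 1 / L := by
  have hint : ∀ s t : ℝ, IntervalIntegrable (fun w => |cos (2 * π * w)| * T2 (Kf a L w))
      volume s t := fun s t =>
    (((continuous_cos.comp (continuous_const.mul continuous_id)).abs).mul
      (cont_T2K a L)).intervalIntegrable _ _
  have hd : ∀ w, HasDerivAt (fun w => arctan (exp (Kf a L w)) / (2 * π * L))
      (cos (2 * π * w) * T2 (Kf a L w)) w := fun w => by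
    have h1 : HasDerivAt (fun w => Kf a L w) (L * (cos (2 * π * w) * (2 * π))) w := by
      have h0 : HasDerivAt (fun w : ℝ => 2 * π * w) (2 * π) w := by
        simpa using (hasDerivAt_id w).const_mul (2 * π)
      exact (h0.sin.const_mul L).const_add a
    refine (((hasDerivAt_arctan_exp _).comp w h1).div_const (2 * π * L)).congr_deriv ?_
    field_simp
  set F := fun w => arctan (exp (Kf a L w)) / (2 * π * L)
  have hF : ∀ w, 0 ≤ F w ∧ F w ≤ (π / 2) / (2 * π * L) := fun w => by
    constructor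
    · exact div_nonneg (arctan_nonneg.2 (exp_pos _).le) (by positivity)
    · exact div_le_div_of_nonneg_right (arctan_lt_pi_div_two _).le (by positivity)
  have seg : ∀ s t, s ≤ t → (∀ w ∈ Set.Icc s t, 0 ≤ cos (2 * π * w)) →
      ∫ w in s..t, |cos (2 * π * w)| * T2 (Kf a L w) = F t - F s := fun s t hst hpos => by
    rw [integral_congr (g := fun w => cos (2 * π * w) * T2 (Kf a L w)) fun w hw => by
      rw [Set.uIcc_of_le hst] at hw
      simp only [abs_of_nonneg (hpos w hw)]]
    exact integral_eq_sub_of_hasDerivAt (fun w _ => hd w)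
      (((continuous_cos.comp (continuous_const.mul continuous_id))).mul
        (cont_T2K a L) |>.intervalIntegrable _ _)
  have seg' : ∀ s t, s ≤ t → (∀ w ∈ Set.Icc s t, cos (2 * π * w) ≤ 0) →
      ∫ w in s..t, |cos (2 * π * w)| * T2 (Kf a L w) = F s - F t := fun s t hst hpos => by
    rw [integral_congr (g := fun w => -(cos (2 * π * w) * T2 (Kf a L w))) fun w hw => by
      rw [Set.uIcc_of_le hst] at hw
      simp only [abs_of_nonpos (hpos w hw), neg_mul]]
    rw [intervalIntegral.integral_neg, integral_eq_sub_of_hasDerivAt (fun w _ => hd w)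
      (((continuous_cos.comp (continuous_const.mul continuous_id))).mul
        (cont_T2K a L) |>.intervalIntegrable _ _), neg_sub]
  rw [← integral_add_adjacent_intervals (hint 0 (1 / 4)) (hint (1 / 4) 1),
    ← integral_add_adjacent_intervals (hint (1 / 4) (3 / 4)) (hint (3 / 4) 1),
    seg 0 (1 / 4) (by norm_num) fun w hw => cos_nonneg_of_mem_Icc ⟨by nlinarith [pi_pos, hw.1],
      by nlinarith [pi_pos, hw.2]⟩,
    seg' (1 / 4) (3 / 4) (by norm_num) fun w hw => cos_nonpos_of_pi_div_two_le_of_le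
      (by nlinarith [pi_pos, hw.1]) (by nlinarith [pi_pos, hw.2]),
    seg (3 / 4) 1 (by norm_num) fun w hw => by
      rw [show 2 * π * w = (2 * π * w - 2 * π) + 2 * π by ring, cos_add_two_pi]
      exact cos_nonneg_of_mem_Icc ⟨by nlinarith [pi_pos, hw.1], by nlinarith [pi_pos, hw.2]⟩]
  have h3 : 3 * ((π / 2) / (2 * π * L)) ≤ 1 / L := by
    field_simp
    norm_num
  linarith [(hF (1 / 4)).1, (hF (3 / 4)).1, (hF 0).1, (hF (1 / 4)).2, (hF (3 / 4)).2, (hF 1).2,
    (hF 1).1, (hF 0).2]

lemma tendsto_cos_pow :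
    Tendsto (fun N : ℕ => ∫ w in (0 : ℝ)..1, (1 - |cos (2 * π * w)|) ^ N) atTop (𝓝 0) := by
  have h : Tendsto (fun N : ℕ => ∫ w in (0 : ℝ)..1, (1 - |cos (2 * π * w)|) ^ N) atTop
      (𝓝 (∫ _ in (0 : ℝ)..1, (0 : ℝ))) := by
    refine intervalIntegral.tendsto_integral_filter_of_dominated_convergence (fun _ => 1)
      (Eventually.of_forall fun N => (Continuous.aestronglyMeasurable (by fun_prop)))
      (Eventually.of_forall fun N => ae_of_all _ fun w _ => ?_) intervalIntegrable_const ?_
    · rw [norm_pow, Real.norm_eq_abs]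
      exact pow_le_one₀ (abs_nonneg _) (by
        rw [abs_le]; constructor <;> linarith [abs_nonneg (cos (2 * π * w)),
          abs_cos_le_one (2 * π * w)])
    · have hc : ({w : ℝ | cos (2 * π * w) = 0} : Set ℝ).Countable := by
        refine (Set.countable_range fun k : ℤ => (2 * (k : ℝ) + 1) / 4).mono fun w hw => ?_
        obtain ⟨k, hk⟩ := cos_eq_zero_iff.1 hw
        exact ⟨k, by field_simp at hk ⊢; linarith⟩
      filter_upwards [hc.ae_notMem volume] with w hw _
      have h1 : 0 < |cos (2 * π * w)| := abs_pos.2 hw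
      exact tendsto_pow_atTop_nhds_zero_of_lt_one
        (by linarith [abs_cos_le_one (2 * π * w)]) (by linarith)
  simpa using h

lemma G2_small {Y : ℝ} (hY : 0 < Y) : ∃ L, 0 < L ∧ ∀ a, G2 L a < Y := by
  obtain ⟨N, hN⟩ := (tendsto_cos_pow.eventually (eventually_lt_nhds hY)).exists
  set J := ∫ w in (0 : ℝ)..1, (1 - |cos (2 * π * w)|) ^ N
  refine ⟨(N + 1) * (2 / Y), by positivity, fun a => ?_⟩
  set L := ((N : ℝ) + 1) * (2 / Y) with hL
  have hL0 : 0 < L := by positivity
  have hi1 : IntervalIntegrable (fun w => (N : ℝ) * (|cos (2 * π * w)| * T2 (Kf a L w)))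
      volume 0 1 := by
    have := cont_T2K a L
    exact Continuous.intervalIntegrable (by fun_prop) _ _
  have hi2 : IntervalIntegrable (fun w => (1 / 2) * (1 - |cos (2 * π * w)|) ^ N)
      volume 0 1 := Continuous.intervalIntegrable (by fun_prop) _ _
  have hle : G2 L a ≤ ∫ w in (0 : ℝ)..1, ((N : ℝ) * (|cos (2 * π * w)| * T2 (Kf a L w)) +
      (1 / 2) * (1 - |cos (2 * π * w)|) ^ N) := by
    refine integral_mono_on (by norm_num) ((cont_T2K a L).intervalIntegrable _ _) (hi1.add hi2)
      fun w _ => ?_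
    set c := |cos (2 * π * w)|
    have hc1 : c ≤ 1 := abs_cos_le_one _
    have hc0 : 0 ≤ c := abs_nonneg _
    have hb : 1 - N * c ≤ (1 - c) ^ N := by
      have := one_add_mul_le_pow (a := -c) (by linarith) N
      simpa [mul_neg, sub_eq_add_neg] using this
    nlinarith [T2_pos (Kf a L w), T2_le_half (Kf a L w), pow_nonneg (sub_nonneg.2 hc1) N]
  rw [intervalIntegral.integral_add hi1 hi2, intervalIntegral.integral_const_mul,
    intervalIntegral.integral_const_mul] at hle
  have h3 := mul_le_mul_of_nonneg_left (weighted_T2_le a hL0) (Nat.cast_nonneg N : (0 : ℝ) ≤ N)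
  have h4 : (N : ℝ) * (1 / L) < Y / 2 := by
    rw [hL]; field_simp; linarith
  linarith

/-- the main statement -/
theorem shape {X Y : ℝ} (hY : 0 < Y) (h : Y ^ 2 < X * (1 - X)) :
    ∃ a L, 0 < L ∧ G1 L a = X ∧ G2 L a = Y := by
  have hX0 : 0 < X := by nlinarith
  have hX1 : X < 1 := by nlinarith
  choose a ha using exists_a hX0 hX1
  have hac : Continuous a := by
    rw [continuous_iff_continuousAt]
    intro L0
    rw [ContinuousAt, tendsto_order]
    have hc : ∀ b, Continuous fun L => G1 L b := fun b =>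
      continuous_G1.comp (continuous_id.prodMk continuous_const)
    refine ⟨fun b hb => ?_, fun b hb => ?_⟩
    · have h1 : G1 L0 b < X := ha L0 ▸ G1_strictMono L0 hb
      filter_upwards [(hc b).continuousAt.eventually_lt_const h1] with L hL
      rw [← ha L] at hL
      exact (G1_strictMono L).lt_iff_lt.1 hL
    · have h1 : X < G1 L0 b := ha L0 ▸ G1_strictMono L0 hb
      filter_upwards [(hc b).continuousAt.eventually_const_lt h1] with L hL
      rw [← ha L] at hL
      exact (G1_strictMono L).lt_iff_lt.1 hL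
  have hy : Continuous fun L => G2 L (a L) := continuous_G2.comp (continuous_id.prodMk hac)
  have h0 : Y < G2 0 (a 0) := by
    have hX : T1 (a 0) = X := by simpa [G1, Kf] using ha 0
    have h2 : G2 0 (a 0) = T2 (a 0) := by simp [G2, Kf]
    rw [h2]
    refine lt_of_pow_lt_pow_left₀ 2 (T2_pos _).le ?_
    rw [T2_sq, hX]
    exact h
  obtain ⟨L1, hL1, hsmall⟩ := G2_small hY
  obtain ⟨L, hL, hLY⟩ := intermediate_value_Icc' hL1.le hy.continuousOn
    (show Y ∈ Set.Icc (G2 L1 (a L1)) (G2 0 (a 0)) from ⟨(hsmall _).le, h0.le⟩)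
  refine ⟨a L, L, lt_of_le_of_ne hL.1 ?_, ha L, hLY⟩
  rintro rfl
  simp only at hLY
  linarith

end Vale.Agent.P205
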