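import Vale.Agent.P205.Beltrami
import Vale.Agent.P205.Shape

/-!
# Orthogonal coordinates with integer periods on an arbitrary metric torus

Every smooth metric on `ℝ²/ℤ²` is, after a change of coordinates of the torus, of the form
`λ (dX² + r(X+Y) dY²)` with `r` non-constant.
-/

noncomputable section

open scoped ContDiff ComplexConjugate Topology
open Filter Real Matrix

namespace Vale.Agent.P205

/-- `v ↦ v₀ + i v₁` -/
def zc : V →L[ℝ] ℂ := Complex.ofRealCLM.comp (pj 0) + Complex.I • Complex.ofRealCLM.comp (pj 1)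

lemma zc_apply (v : V) : zc v = (v 0 : ℂ) + Complex.I * (v 1 : ℂ) := by simp [zc, pj]

lemma norm_le_norm_zc (v : V) : ‖v‖ ≤ ‖zc v‖ := by
  refine (pi_norm_le_iff_of_nonneg (norm_nonneg _)).2 fun j => ?_
  rw [Real.norm_eq_abs]
  fin_cases j
  · refine le_trans ?_ (Complex.abs_re_le_norm _); simp [zc_apply]
  · refine le_trans ?_ (Complex.abs_im_le_norm _); simp [zc_apply]

lemma fderiv_split {f : V → ℂ} (x v : V) :
    fderiv ℝ f x v = zc v * pz f x + conj (zc v) * pzb f x := by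
  have h : fderiv ℝ f x v = (v 0 : ℂ) * pd 0 f x + (v 1 : ℂ) * pd 1 f x := by
    conv_lhs => rw [vec_decomp v]
    simp [pd, Complex.real_smul]
  rw [h, zc_apply, pz, pzb]
  simp
  linear_combination ((v 1 : ℂ) * pd 1 f x) * Complex.I_sq

/-- a proper local diffeomorphism `ℝ² → ℂ` has a smooth inverse -/
theorem exists_inverse {f : V → ℂ} (hs : ContDiff ℝ ∞ f)
    (hinj : ∀ x v, fderiv ℝ f x v = 0 → v = 0)
    (hprop : ∃ c C : ℝ, 0 < c ∧ ∀ x, c * ‖x‖ - C ≤ ‖f x‖) :
    ∃ g : ℂ → V, ContDiff ℝ ∞ g ∧ (∀ x, g (f x) = x) ∧ ∀ z, f (g z) = z := by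
  have hd : ∀ x, ∃ e : V ≃L[ℝ] ℂ, HasFDerivAt f (e : V →L[ℝ] ℂ) x := fun x => by
    have h := (hs.differentiable (by simp) x).hasFDerivAt
    have hi : Function.Injective (fderiv ℝ f x) := (injective_iff_map_eq_zero _).2 (hinj x)
    have hfin : Module.finrank ℝ V = Module.finrank ℝ ℂ := by simp [Complex.finrank_real_complex]
    let e := (LinearEquiv.ofInjectiveOfFinrankEq _
      (show Function.Injective (fderiv ℝ f x : V →ₗ[ℝ] ℂ) from hi) hfin).toContinuousLinearEquiv
    refine ⟨e, ?_⟩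
    have he : (e : V →L[ℝ] ℂ) = fderiv ℝ f x := by ext v; rfl
    rw [he]; exact h
  choose e he using hd
  have hloc : IsLocalHomeomorph f := fun x =>
    ⟨(hs.contDiffAt (x := x)).toOpenPartialHomeomorph f (he x) (by simp),
      ContDiffAt.mem_toOpenPartialHomeomorph_source _ _ _,
      (ContDiffAt.toOpenPartialHomeomorph_coe _ _ _).symm⟩
  obtain ⟨c, C, hc, hb⟩ := hprop
  have hp : IsProperMap f := isProperMap_iff_tendsto_cocompact.2 ⟨hs.continuous, by
    rw [← Metric.cobounded_eq_cocompact, ← Metric.cobounded_eq_cocompact,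
      ← tendsto_norm_atTop_iff_cobounded]
    refine tendsto_atTop_mono hb ?_
    exact tendsto_atTop_add_const_right _ (-C)
      ((tendsto_norm_cobounded_atTop (E := V)).const_mul_atTop hc)⟩
  have hfin : ∀ z ∈ (Set.univ : Set ℂ), (f ⁻¹' {z}).Finite := fun z _ => by
    refine (hp.isCompact_preimage isCompact_singleton).finite ?_
    exact .of_openPartialHomeomorph f subset_rfl fun x _ => by
      obtain ⟨φ, h1, h2⟩ := hloc x
      exact ⟨φ, h1, h2.symm⟩
  have hcov : IsCoveringMap f := isCoveringMap_iff_isCoveringMapOn_univ.2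
    (IsClosedMap.isCoveringMapOn_of_isLocalHomeomorphOn hp.isClosedMap hfin
      (by simpa [← isLocalHomeomorph_iff_isLocalHomeomorphOn_univ] using hloc))
  obtain ⟨G, ⟨hG0, hG⟩, -⟩ := hcov.existsUnique_continuousMap_lifts (ContinuousMap.id ℂ) (f 0) 0 rfl
  have hfg : ∀ z, f (G z) = z := fun z => congrFun hG z
  have hgf : ∀ x, G (f x) = x := fun x => by
    obtain ⟨H, -, hH⟩ := hcov.existsUnique_continuousMap_lifts (⟨f, hs.continuous⟩ : C(V, ℂ)) 0 0 rfl
    have h1 := hH (G.comp ⟨f, hs.continuous⟩)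
      ⟨by simp [hG0], funext fun y => hfg (f y)⟩
    have h2 := hH (ContinuousMap.id V) ⟨rfl, rfl⟩
    have := congrArg (fun φ : C(V, V) => φ x) (h1.trans h2.symm)
    simpa using this
  let Φ : V ≃ₜ ℂ :=
    { toFun := f, invFun := G, left_inv := hgf, right_inv := hfg,
      continuous_toFun := hs.continuous, continuous_invFun := G.continuous }
  exact ⟨G, Φ.contDiff_symm he hs, hgf, hfg⟩

/-- differentiating `f/Ω = P(α₀+α₁) - α₁` -/
lemma deriv_identity {f : V → ℂ} {Ω z : ℂ} {P : ℝ → ℂ} {α : V → V} {x : V}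
    (hf : DifferentiableAt ℝ f x) (hα : DifferentiableAt ℝ α x)
    (hP : HasDerivAt P z (α x 0 + α x 1))
    (heq : ∀ y, f y / Ω = P (α y 0 + α y 1) - (α y 1 : ℂ)) (v : V) :
    fderiv ℝ f x v / Ω = z * ((fderiv ℝ α x v 0 + fderiv ℝ α x v 1 : ℝ) : ℂ) -
      (fderiv ℝ α x v 1 : ℂ) := by
  have h0 : HasFDerivAt (fun y => α y 0) ((pj 0).comp (fderiv ℝ α x)) x :=
    (pj 0).hasFDerivAt.comp x hα.hasFDerivAt
  have h1 : HasFDerivAt (fun y => α y 1) ((pj 1).comp (fderiv ℝ α x)) x :=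
    (pj 1).hasFDerivAt.comp x hα.hasFDerivAt
  have h4 := HasFDerivAt.comp (g := P) (f := fun y => α y 0 + α y 1) x hP.hasFDerivAt
    (h0.fun_add h1)
  have h3 := Complex.ofRealCLM.hasFDerivAt.comp x h1
  have hl : HasFDerivAt (fun y => Ω⁻¹ * f y) (Ω⁻¹ • fderiv ℝ f x) x :=
    hf.hasFDerivAt.const_mul Ω⁻¹
  have hrhs := (h4.sub h3).congr_of_eventuallyEq (f₁ := fun y => Ω⁻¹ * f y)
    (Eventually.of_forall fun y => by
      show Ω⁻¹ * f y = _
      rw [← div_eq_inv_mul, heq y]; rfl)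
  have := congrArg (fun φ : V →L[ℝ] ℂ => φ v) (hl.unique hrhs)
  simp [pj, Complex.real_smul] at this
  rw [div_eq_inv_mul, this]
  push_cast
  ring

/-- smoothness of a primitive -/
lemma contDiff_primitive {h : ℝ → ℂ} (hh : ContDiff ℝ ∞ h) :
    ContDiff ℝ ∞ fun w => ∫ t in (0 : ℝ)..w, h t := by
  have hd : ∀ w, HasDerivAt (fun w => ∫ t in (0 : ℝ)..w, h t) (h w) w := fun w =>
    (hh.continuous.integral_hasStrictDerivAt 0 w).hasDerivAt
  rw [contDiff_infty_iff_deriv]
  refine ⟨fun w => (hd w).differentiableAt, ?_⟩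
  rw [show deriv (fun w => ∫ t in (0 : ℝ)..w, h t) = h from funext fun w => (hd w).deriv]
  exact hh

/-- the smooth functions extracted from the metric -/
theorem metric_data (g : V → Matrix (Fin 2) (Fin 2) ℝ)
    (hs : ∀ i j, ContDiff ℝ ∞ fun x => g x i j) (hp : ∀ i j, Periodic2 fun x => g x i j)
    (hpos : ∀ x, (g x).PosDef) :
    ∃ (μ : V → ℂ) (Λ : V → ℝ) (k : ℝ), ContDiff ℝ ∞ μ ∧ Periodic2 μ ∧ ContDiff ℝ ∞ Λ ∧
      Periodic2 Λ ∧ (∀ x, 0 < Λ x) ∧ k < 1 ∧ (∀ x, ‖μ x‖ ≤ k) ∧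
      ∀ x v w, v ⬝ᵥ (g x *ᵥ w) =
        Λ x * ((zc v + μ x * conj (zc v)) * conj (zc w + μ x * conj (zc w))).re := by
  have hsym : ∀ x, g x 1 0 = g x 0 1 := fun x => by simpa using (hpos x).isHermitian.apply 0 1
  let E := fun x => g x 0 0
  let F := fun x => g x 0 1
  let G := fun x => g x 1 1
  have hdet : ∀ x, 0 < E x * G x - F x ^ 2 := fun x => by
    have := (hpos x).det_pos
    rw [Matrix.det_fin_two, hsym] at this
    simp only [E, F, G]; linarith
  have hE : ∀ x, 0 < E x := fun x => (hpos x).diag_pos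
  have hG : ∀ x, 0 < G x := fun x => (hpos x).diag_pos
  let D := fun x => Real.sqrt (E x * G x - F x ^ 2)
  have hD : ∀ x, 0 < D x := fun x => Real.sqrt_pos.2 (hdet x)
  have hDsq : ∀ x, D x ^ 2 = E x * G x - F x ^ 2 := fun x => Real.sq_sqrt (hdet x).le
  let S := fun x => E x + G x + 2 * D x
  have hS : ∀ x, 0 < S x := fun x => by have := hE x; have := hG x; have := hD x; positivity
  have hEs : ContDiff ℝ ∞ E := hs 0 0
  have hFs : ContDiff ℝ ∞ F := hs 0 1
  have hGs : ContDiff ℝ ∞ G := hs 1 1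
  have hDs : ContDiff ℝ ∞ D := ((hEs.mul hGs).sub (hFs.pow 2)).sqrt fun x => (hdet x).ne'
  have hSs : ContDiff ℝ ∞ S := (hEs.add hGs).add (contDiff_const.mul hDs)
  let μ : V → ℂ := fun x =>
    (((E x - G x) / S x : ℝ) : ℂ) + ((2 * F x / S x : ℝ) : ℂ) * Complex.I
  have hμs : ContDiff ℝ ∞ μ := by
    have h1 : ContDiff ℝ ∞ fun x => (((E x - G x) / S x : ℝ) : ℂ) :=
      Complex.ofRealCLM.contDiff.comp ((hEs.sub hGs).div hSs fun x => (hS x).ne')
    have h2 : ContDiff ℝ ∞ fun x => ((2 * F x / S x : ℝ) : ℂ) :=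
      Complex.ofRealCLM.contDiff.comp ((contDiff_const.mul hFs).div hSs fun x => (hS x).ne')
    exact h1.add (h2.mul contDiff_const)
  have per : ∀ x j, E (x + ev1 j) = E x ∧ F (x + ev1 j) = F x ∧ G (x + ev1 j) = G x ∧
      D (x + ev1 j) = D x ∧ S (x + ev1 j) = S x := fun x j => by
    have a := hp 0 0 x j
    have b := hp 0 1 x j
    have c := hp 1 1 x j
    simp only at a b c
    simp [E, F, G, D, S, a, b, c]
  have hμp : Periodic2 μ := fun x j => by
    obtain ⟨a, b, c, d, e⟩ := per x j; simp only [μ, a, b, c, e]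
  have hlt : ∀ x, ‖μ x‖ < 1 := fun x => by
    rw [Complex.norm_add_mul_I, Real.sqrt_lt' one_pos, one_pow, div_pow, div_pow,
      ← add_div, div_lt_one (pow_pos (hS x) 2)]
    simp only [S]
    nlinarith [hDsq x, hD x, hE x, hG x]
  obtain ⟨x0, hx0⟩ := periodic_max (f := fun x => ‖μ x‖) (fun x j => by simp [hμp x j])
    hμs.continuous.norm
  refine ⟨μ, fun x => S x / 4, ‖μ x0‖, hμs, hμp, hSs.div_const 4,
    fun x j => by simp [(per x j).2.2.2.2], fun x => by linarith [hS x], hlt x0, hx0,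
    fun x v w => ?_⟩
  have hS' := (hS x).ne'
  have e1 : S x = g x 0 0 + g x 1 1 + 2 * D x := rfl
  have e2 : D x ^ 2 = g x 0 0 * g x 1 1 - g x 0 1 ^ 2 := hDsq x
  simp only [dotProduct, mulVec, Fin.sum_univ_two, hsym, zc_apply, μ, E, F, G]
  simp only [Complex.mul_re, Complex.mul_im, Complex.add_re, Complex.add_im, Complex.ofReal_re,
    Complex.ofReal_im, Complex.I_re, Complex.I_im, Complex.conj_re, Complex.conj_im, map_add,
    map_mul]
  field_simp
  rw [e1]
  linear_combination (-4 * (v 0 * w 0 + v 1 * w 1)) * e2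

/-- orthogonal coordinates -/
theorem orth_coords (g : V → Matrix (Fin 2) (Fin 2) ℝ)
    (hs : ∀ i j, ContDiff ℝ ∞ fun x => g x i j) (hp : ∀ i j, Periodic2 fun x => g x i j)
    (hpos : ∀ x, (g x).PosDef) :
    ∃ (α : V → V) (lam r : V → ℝ), ContDiff ℝ ∞ α ∧
      (∀ x j, ∃ n : I, α (x + ev1 j) = α x + fun i => (n i : ℝ)) ∧
      ContDiff ℝ ∞ lam ∧ Periodic2 lam ∧ (∀ y, 0 < lam y) ∧
      ContDiff ℝ ∞ r ∧ Periodic2 r ∧ (∀ y, 0 < r y) ∧
      (∀ y, pd 0 r y = pd 1 r y) ∧ (∃ y y', r y ≠ r y') ∧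
      ∀ x v w, v ⬝ᵥ (g x *ᵥ w) = lam (α x) * (fderiv ℝ α x v 0 * fderiv ℝ α x w 0 +
        r (α x) * (fderiv ℝ α x v 1 * fderiv ℝ α x w 1)) := by
  obtain ⟨μ, Λ, k, hμs, hμp, hΛs, hΛp, hΛ0, hk1, hk, hg⟩ := metric_data g hs hp hpos
  set M := coef μ
  have hM : Rapid M := coef_rapid hμp hμs
  have evM : ∀ x, ev M x = μ x := ev_coef hμp hμs
  obtain ⟨q, u, b, hq, hu, hb, hq0, hqz, hqzb⟩ := beltrami hM hk1 fun x => by rw [evM]; exact hk x
  -- the conformal coordinate
  set bL : V →L[ℝ] ℂ := zc + b • (Complex.conjCLE : ℂ →L[ℝ] ℂ).comp zc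
  let f : V → ℂ := fun x => bL x + ev u x
  have hbL : ∀ v, bL v = zc v + b * conj (zc v) := fun v => by simp [bL]
  have hfs : ContDiff ℝ ∞ f := bL.contDiff.add (contDiff_ev hu)
  have hfd : ∀ x v, fderiv ℝ f x v = ev q x * (zc v + μ x * conj (zc v)) := fun x v => by
    rw [show f = fun x => bL x + ev u x from rfl,
      fderiv_fun_add bL.differentiableAt (hu.diff x), bL.fderiv, _root_.add_apply, fderiv_split, hbL]
    have h1 := hqz x
    have h2 := hqzb x
    rw [evM] at h2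
    linear_combination zc v * h1 + conj (zc v) * h2
  have hLinj : ∀ x v, zc v + μ x * conj (zc v) = 0 → v = 0 := fun x v h => by
    have h1 : zc v = -(μ x * conj (zc v)) := eq_neg_of_add_eq_zero_left h
    have h2 : ‖zc v‖ = ‖μ x‖ * ‖zc v‖ := by
      conv_lhs => rw [h1, norm_neg, norm_mul, Complex.norm_conj]
    have h3 : ‖zc v‖ = 0 := by
      by_contra h4
      have h5 : 0 < ‖zc v‖ := lt_of_le_of_ne (norm_nonneg _) (Ne.symm h4)
      nlinarith [hk x]
    exact norm_eq_zero.1 (le_antisymm (h3 ▸ norm_le_norm_zc v) (norm_nonneg _))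
  have hinj : ∀ x v, fderiv ℝ f x v = 0 → v = 0 := fun x v h => by
    rw [hfd] at h
    exact hLinj x v ((mul_eq_zero.1 h).resolve_left (hq0 x))
  obtain ⟨Mu0, -, hMu0⟩ := periodic_bdd (ev_periodic u) (continuous_ev hu.s1)
  obtain ⟨finv, hfinv, hgf, hfg⟩ := exists_inverse hfs hinj ⟨1 - ‖b‖, Mu0, by linarith, fun x => by
    have h1 : ‖zc x‖ ≤ ‖bL x‖ + ‖b‖ * ‖zc x‖ := by
      have := norm_sub_le (bL x) (b * conj (zc x))
      rw [hbL, add_sub_cancel_right, norm_mul, Complex.norm_conj] at this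
      rw [hbL]; exact this
    have h2 : ‖bL x‖ ≤ ‖f x‖ + ‖ev u x‖ := by
      have := norm_sub_le (f x) (ev u x)
      simpa [f] using this
    have h3 := norm_le_norm_zc x
    nlinarith [hMu0 x, norm_nonneg b]⟩
  have hfk : ∀ (x : V) (k : I), f (x + fun i => (k i : ℝ)) =
      f x + ((k 0 : ℂ) * (1 + b) + (k 1 : ℂ) * (Complex.I * (1 - b))) := fun x k => by
    simp only [f, periodic2_lattice (ev_periodic u), map_add]
    rw [hbL (fun i => ((k i : ℤ) : ℝ)), zc_apply]
    simp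
    ring
  -- periods
  set ω0 : ℂ := 1 + b
  set ω1 : ℂ := Complex.I * (1 - b)
  have hω0 : ω0 ≠ 0 := fun h => by
    have : b = -1 := eq_neg_of_add_eq_zero_right h
    rw [this] at hb; simp at hb
  have hω1 : ω1 ≠ 0 := fun h => by
    have : b = 1 := (sub_eq_zero.1 ((mul_eq_zero.1 h).resolve_left Complex.I_ne_zero)).symm
    rw [this] at hb; simp at hb
  set τ := ω1 / ω0 with hτ
  obtain ⟨N, hN⟩ := exists_nat_gt (2 / ‖τ‖)
  have hτ0 : 0 < ‖τ‖ := norm_pos_iff.2 (div_ne_zero hω1 hω0)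
  rw [div_lt_iff₀ hτ0] at hN
  have hImτ : 0 < τ.im := by
    rw [hτ, Complex.div_im, ← sub_div]
    refine div_pos ?_ (Complex.normSq_pos.2 hω0)
    have hn : Complex.normSq b < 1 := by
      rw [Complex.normSq_eq_norm_sq]; nlinarith [norm_nonneg b]
    rw [Complex.normSq_apply] at hn
    simp [ω0, ω1]
    nlinarith
  set den : ℂ := (2 * N + 1 : ℂ) * τ - 2 with hden
  have hdenn : ‖τ‖ < ‖den‖ := by
    have h1 := norm_sub_norm_le ((2 * N + 1 : ℂ) * τ) 2
    rw [norm_mul, show (2 * N + 1 : ℂ) = ((2 * N + 1 : ℕ) : ℂ) by push_cast; ring,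
      Complex.norm_natCast, Complex.norm_ofNat] at h1
    rw [hden, show (2 * N + 1 : ℂ) = ((2 * N + 1 : ℕ) : ℂ) by push_cast; ring]
    push_cast at h1 ⊢
    nlinarith
  have hden0 : den ≠ 0 := norm_pos_iff.1 (lt_of_le_of_lt (norm_nonneg _) hdenn)
  set τ' : ℂ := ((N : ℂ) * τ - 1) / den
  set Ω : ℂ := ω0 * den
  have hΩ0 : Ω ≠ 0 := mul_ne_zero hω0 hden0
  have hΩ1 : Ω = (2 * N + 1 : ℂ) * ω1 - 2 * ω0 := by
    simp only [Ω, den, τ]; field_simp
  have hΩ2 : Ω * τ' = (N : ℂ) * ω1 - ω0 := by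
    simp only [Ω, τ']
    rw [mul_assoc, mul_div_cancel₀ _ hden0]
    simp only [τ]; field_simp
  have hτ'i : 0 < τ'.im := by
    simp only [τ']
    rw [Complex.div_im, ← sub_div]
    refine div_pos ?_ (Complex.normSq_pos.2 hden0)
    simp [den]
    nlinarith
  have hdisc : τ'.im ^ 2 < τ'.re * (1 - τ'.re) := by
    have h1 : τ' - 1 / 2 = -τ / (2 * den) := by
      simp only [τ']
      field_simp
      rw [hden]; ring
    have h2 : ‖τ' - 1 / 2‖ < 1 / 2 := by
      rw [h1, norm_div, norm_neg, norm_mul, Complex.norm_ofNat, div_lt_iff₀ (by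
        have := norm_pos_iff.2 hden0; positivity)]
      linarith
    have h3 : ‖τ' - 1 / 2‖ ^ 2 < (1 / 2) ^ 2 := pow_lt_pow_left₀ h2 (norm_nonneg _) two_ne_zero
    rw [← Complex.normSq_eq_norm_sq, Complex.normSq_apply] at h3
    simp at h3
    nlinarith
  obtain ⟨a, L, hL, hX, hY⟩ := shape hτ'i hdisc
  -- the shape function
  let Z : ℝ → ℂ := fun w => (T1 (Kf a L w) : ℂ) + (T2 (Kf a L w) : ℂ) * Complex.I
  have hZs : ContDiff ℝ ∞ Z :=
    (Complex.ofRealCLM.contDiff.comp (contDiff_T1.comp (contDiff_Kf a L))).add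
      ((Complex.ofRealCLM.contDiff.comp (contDiff_T2.comp (contDiff_Kf a L))).mul contDiff_const)
  let P : ℝ → ℂ := fun w => ∫ t in (0 : ℝ)..w, Z t
  have hPs : ContDiff ℝ ∞ P := contDiff_primitive hZs
  have hPd : ∀ w, HasDerivAt P (Z w) w := fun w =>
    (hZs.continuous.integral_hasStrictDerivAt 0 w).hasDerivAt
  have hZint : ∀ s t : ℝ, IntervalIntegrable Z MeasureTheory.volume s t := fun s t =>
    hZs.continuous.intervalIntegrable s t
  have hP1 : P 1 = τ' := by
    have hi1 : IntervalIntegrable (fun t => (T1 (Kf a L t) : ℂ)) MeasureTheory.volume 0 1 :=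
      (Complex.continuous_ofReal.comp (cont_T1K a L)).intervalIntegrable _ _
    have hi2 : IntervalIntegrable (fun t => (T2 (Kf a L t) : ℂ) * Complex.I)
        MeasureTheory.volume 0 1 :=
      ((Complex.continuous_ofReal.comp (cont_T2K a L)).mul continuous_const).intervalIntegrable _ _
    show ∫ t in (0 : ℝ)..1, Z t = τ'
    rw [intervalIntegral.integral_add hi1 hi2, intervalIntegral.integral_ofReal,
      intervalIntegral.integral_mul_const, intervalIntegral.integral_ofReal]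
    rw [G1] at hX; rw [G2] at hY
    rw [hX, hY, Complex.re_add_im]
  have hZper : Function.Periodic Z 1 := fun w => by simp [Z, Kf_periodic]
  have hPper : ∀ w, P (w + 1) = P w + τ' := fun w => by
    show ∫ t in (0 : ℝ)..(w + 1), Z t = _
    rw [← intervalIntegral.integral_add_adjacent_intervals (hZint 0 w) (hZint w (w + 1)),
      hZper.intervalIntegral_add_eq w 0, zero_add, ← hP1]
  let Q : ℝ → ℝ := fun w => (P w).im
  have hQd : ∀ w, HasDerivAt Q (T2 (Kf a L w)) w := fun w =>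
    (Complex.imCLM.hasFDerivAt.comp_hasDerivAt w (hPd w)).congr_deriv (by simp [Z])
  have hQs : ContDiff ℝ ∞ Q := Complex.imCLM.contDiff.comp hPs
  have hQmono : StrictMono Q := strictMono_of_deriv_pos fun w => by
    rw [(hQd w).deriv]; exact T2_pos _
  have hQper : ∀ (n : ℕ) (w : ℝ), Q (w + n) = Q w + n * τ'.im := fun n => by
    induction n with
    | zero => intro w; simp
    | succ n ih =>
      intro w
      rw [Nat.cast_succ, ← add_assoc]
      simp only [Q] at ih ⊢
      rw [hPper, Complex.add_im, ih]; ring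
  have hQ0 : Q 0 = 0 := by simp [Q, P]
  have hQsurj : Function.Surjective Q := fun y => by
    obtain ⟨n, hn⟩ := exists_nat_gt (|y| / τ'.im)
    rw [div_lt_iff₀ hτ'i] at hn
    have h1 := hQper n 0
    have h2 := hQper n (-(n : ℝ))
    rw [neg_add_cancel, hQ0] at h2
    rw [zero_add, hQ0, zero_add] at h1
    exact mem_range_of_exists_le_of_exists_ge hQs.continuous
      ⟨-(n : ℝ), by linarith [neg_abs_le y]⟩ ⟨n, by linarith [le_abs_self y]⟩
  let Qh : ℝ ≃ₜ ℝ := (hQmono.orderIsoOfSurjective Q hQsurj).toHomeomorph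
  have hQh : ∀ w, Qh w = Q w := fun w => rfl
  have hQinv : ContDiff ℝ ∞ (Qh.symm : ℝ → ℝ) :=
    Qh.contDiff_symm_deriv (fun w => (T2_pos _).ne') hQd hQs
  -- coordinates
  let ζ : V → ℂ := fun x => f x / Ω
  have hζs : ContDiff ℝ ∞ ζ := hfs.div_const _
  let W : V → ℝ := fun x => Qh.symm (ζ x).im
  have hWs : ContDiff ℝ ∞ W := hQinv.comp (Complex.imCLM.contDiff.comp hζs)
  let Yc : V → ℝ := fun x => (P (W x)).re - (ζ x).re
  have hYs : ContDiff ℝ ∞ Yc :=
    (Complex.reCLM.contDiff.comp (hPs.comp hWs)).sub (Complex.reCLM.contDiff.comp hζs)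
  let α : V → V := fun x i => if i = 0 then W x - Yc x else Yc x
  have hαs : ContDiff ℝ ∞ α := contDiff_pi.2 fun i => by
    fin_cases i
    · simpa [α] using hWs.sub hYs
    · simpa [α] using hYs
  have hζeq : ∀ x, ζ x = P (α x 0 + α x 1) - (α x 1 : ℂ) := fun x => by
    have h0 : α x 0 = W x - Yc x := rfl
    have h1 : α x 1 = Yc x := rfl
    rw [h0, h1, sub_add_cancel]
    refine Complex.ext ?_ ?_
    · simp [Yc]
    · have : Q (W x) = (ζ x).im := by rw [← hQh]; exact Qh.apply_symm_apply _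
      simpa [Q] using this.symm
  have huniq : ∀ (y : V) (x : V), ζ x = P (y 0 + y 1) - (y 1 : ℂ) → α x = y := fun y x h => by
    have hi : (ζ x).im = Q (y 0 + y 1) := by rw [h]; simp [Q]
    have hW : W x = y 0 + y 1 := by
      simp only [W, hi, ← hQh, Homeomorph.symm_apply_apply]
    have hY : Yc x = y 1 := by simp [Yc, hW, h]
    funext i
    fin_cases i <;> simp [α, hW, hY]
  -- translations
  have htr : ∀ x j, ∃ n : I, α (x + ev1 j) = α x + fun i => (n i : ℝ) := by
    have hshift : ∀ x (m c : ℤ), α x + (fun i => ((![c + m, -m] : I) i : ℝ)) ∈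
        {y : V | ζ x + (m : ℂ) + (c : ℂ) * τ' = P (y 0 + y 1) - (y 1 : ℂ)} := fun x m c => by
      have hP : ∀ (c : ℤ) (w : ℝ), P (w + c) = P w + (c : ℂ) * τ' := fun c => by
        induction c using Int.induction_on with
        | zero => intro w; simp
        | succ c ih =>
          intro w; push_cast; rw [← add_assoc, hPper]
          push_cast at ih; rw [ih]; ring
        | pred c ih =>
          intro w; push_cast
          have h1 := hPper (w + (-(c : ℝ) - 1))
          push_cast at ih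
          rw [show w + (-(c : ℝ) - 1) + 1 = w + -(c : ℝ) by ring, ih] at h1
          linear_combination -h1
      simp only [Set.mem_setOf_eq, Pi.add_apply, Matrix.cons_val_zero, Matrix.cons_val_one,
        Matrix.cons_val_fin_one]
      rw [show α x 0 + ((c + m : ℤ) : ℝ) + (α x 1 + ((-m : ℤ) : ℝ)) = α x 0 + α x 1 + (c : ℝ) by
        push_cast; ring, hP, hζeq]
      push_cast; ring
    intro x j
    have hfj : f (x + ev1 j) = f x + if j = 0 then ω0 else ω1 := by
      have := hfk x (Pi.single j 1)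
      have he : (fun i => (((Pi.single j 1 : I) i : ℤ) : ℝ)) = ev1 j := by
        funext i; fin_cases j <;> fin_cases i <;> simp [ev1]
      rw [he] at this
      rw [this]; fin_cases j <;> simp
    fin_cases j
    · refine ⟨![-(2 * (N : ℤ) + 1) + N, -(N : ℤ)], huniq _ _ ?_⟩
      rw [← hshift x N (-(2 * N + 1))]
      simp only [ζ, hfj]
      push_cast
      field_simp
      try simp
      linear_combination (2 * (N : ℂ) + 1) * hΩ2 - (N : ℂ) * hΩ1
    · refine ⟨![-2 + 1, -1], huniq _ _ ?_⟩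
      rw [← hshift x 1 (-2)]
      simp only [ζ, hfj]
      push_cast
      field_simp
      try simp
      linear_combination 2 * hΩ2 - hΩ1
  -- the inverse
  let β : V → V := fun y => finv (Ω * (P (y 0 + y 1) - (y 1 : ℂ)))
  have hβs : ContDiff ℝ ∞ β := by
    refine hfinv.comp (contDiff_const.mul ((hPs.comp ?_).sub (Complex.ofRealCLM.contDiff.comp ?_)))
    · exact ((pj 0).contDiff).add (pj 1).contDiff
    · exact (pj 1).contDiff
  have hβα : ∀ x, β (α x) = x := fun x => by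
    simp only [β, ← hζeq, ζ]
    rw [mul_div_cancel₀ _ hΩ0, hgf]
  have hαβ : ∀ y, α (β y) = y := fun y => huniq _ _ (by
    simp only [β, ζ, hfg]; rw [mul_div_cancel_left₀ _ hΩ0])
  have hβper : ∀ y j, ∃ k : I, β (y + ev1 j) = β y + fun i => (k i : ℝ) := fun y j => by
    refine ⟨if j = 0 then ![-1, (N : ℤ)] else ![1, -((N : ℤ) + 1)], ?_⟩
    have hfy : f (β y) = Ω * (P (y 0 + y 1) - (y 1 : ℂ)) := hfg _
    simp only [β]
    rw [← hgf (finv (Ω * (P (y 0 + y 1) - (y 1 : ℂ))) + _)]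
    congr 1
    rw [hfk, hfg]
    fin_cases j
    · simp [ev1]
      rw [show y 0 + 1 + y 1 = y 0 + y 1 + 1 by ring, hPper]
      linear_combination hΩ2
    · simp [ev1]
      rw [show y 0 + (y 1 + 1) = y 0 + y 1 + 1 by ring, hPper]
      linear_combination hΩ2 - hΩ1
  -- the coefficients
  let r : V → ℝ := fun y => exp (-(Kf a L (y 0 + y 1))) ^ 2
  have hrs : ContDiff ℝ ∞ r :=
    ((((contDiff_Kf a L).comp (((pj 0).contDiff).add (pj 1).contDiff))).neg.exp).pow 2
  let lamt : V → ℝ := fun x =>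
    Λ x * (Complex.normSq Ω / (Complex.normSq (ev q x) * (1 + exp (-(Kf a L (W x))) ^ 2)))
  have hnq : ∀ x, 0 < Complex.normSq (ev q x) := fun x => Complex.normSq_pos.2 (hq0 x)
  have hlamts : ContDiff ℝ ∞ lamt := by
    refine hΛs.mul (contDiff_const.div (ContDiff.mul ?_ ?_) fun x => ?_)
    · have hre := Complex.reCLM.contDiff.comp (contDiff_ev hq)
      have him := Complex.imCLM.contDiff.comp (contDiff_ev hq)
      have := (hre.mul hre).add (him.mul him)
      simpa [Complex.normSq_apply, Function.comp_def] using this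
    · exact contDiff_const.add ((((contDiff_Kf a L).comp hWs).neg.exp).pow 2)
    · have := hnq x; positivity
  have hlamtp : Periodic2 lamt := fun x j => by
    obtain ⟨n, hn⟩ := htr x j
    have h0 := congrFun hn 0
    have h1 := congrFun hn 1
    simp only [α, Pi.add_apply, if_true, if_neg (show (1 : Fin 2) ≠ 0 by decide)] at h0 h1
    have hW : W (x + ev1 j) = W x + ((n 0 + n 1 : ℤ) : ℝ) := by push_cast; linarith
    have hK : Kf a L (W x + ((n 0 + n 1 : ℤ) : ℝ)) = Kf a L (W x) := by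
      have : Function.Periodic (Kf a L) 1 := fun w => Kf_periodic a L w
      simpa using this.int_mul (n 0 + n 1) (W x)
    simp only [lamt, hΛp x j, ev_periodic q x j, hW, hK]
  refine ⟨α, fun y => lamt (β y), r, hαs, htr, hlamts.comp hβs, fun y j => ?_, fun y => ?_, hrs,
    fun y j => ?_, fun y => by positivity, fun y => ?_, ?_, fun x v w => ?_⟩
  · obtain ⟨k, hk⟩ := hβper y j
    simp only [hk, periodic2_lattice hlamtp]
  · have := hΛ0 (β y); have := hnq (β y); have := Complex.normSq_pos.2 hΩ0; positivity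
  · have he : (y + ev1 j) 0 + (y + ev1 j) 1 = y 0 + y 1 + 1 := by
      fin_cases j <;> simp [ev1] <;> ring
    simp only [r, he, Kf_periodic]
  · have h1 : r = (fun s => exp (-(Kf a L s)) ^ 2) ∘ fun y : V => (pj 0 + pj 1) y := by
      funext y; simp [r, pj]
    have hd : Differentiable ℝ fun s => exp (-(Kf a L s)) ^ 2 :=
      (((contDiff_Kf a L).neg.exp).pow 2).differentiable (by simp)
    rw [h1, pd, pd, fderiv_comp y (hd _) (pj 0 + pj 1).differentiableAt, (pj 0 + pj 1).fderiv]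
    simp [ev1, pj]
  · refine ⟨![1 / 4, 0], ![3 / 4, 0], fun h => ?_⟩
    simp only [r, Matrix.cons_val_zero, Matrix.cons_val_one, Matrix.cons_val_fin_one, add_zero] at h
    have h2 := neg_injective (exp_eq_exp.1
      ((pow_left_inj₀ (exp_pos _).le (exp_pos _).le two_ne_zero).1 h))
    simp only [Kf] at h2
    rw [show 2 * π * (3 / 4) = π / 2 + π by ring, sin_add_pi,
      show 2 * π * (1 / 4) = π / 2 by ring, sin_pi_div_two] at h2
    linarith
  · have hA : ∀ v, fderiv ℝ f x v / Ω =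
        Z (α x 0 + α x 1) * ((fderiv ℝ α x v 0 + fderiv ℝ α x v 1 : ℝ) : ℂ) -
          (fderiv ℝ α x v 1 : ℂ) :=
      deriv_identity (hfs.differentiable (by simp) x) (hαs.differentiable (by simp) x)
        (hPd _) hζeq
    have hAv := hA v
    have hAw := hA w
    rw [hfd, div_eq_iff hΩ0] at hAv hAw
    have hWx : α x 0 + α x 1 = W x := by simp [α]
    rw [hWx] at hAv hAw
    simp only [hg, hβα]
    set Av := (fderiv ℝ α x v 0, fderiv ℝ α x v 1)
    have hr : r (α x) = exp (-(Kf a L (W x))) ^ 2 := by simp only [r, hWx]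
    rw [hr]
    have key : Complex.normSq (ev q x) *
        ((zc v + μ x * conj (zc v)) * conj (zc w + μ x * conj (zc w))).re =
        Complex.normSq Ω * ((Z (W x) * ((fderiv ℝ α x v 0 + fderiv ℝ α x v 1 : ℝ) : ℂ) -
          (fderiv ℝ α x v 1 : ℂ)) * conj (Z (W x) *
            ((fderiv ℝ α x w 0 + fderiv ℝ α x w 1 : ℝ) : ℂ) - (fderiv ℝ α x w 1 : ℂ))).re := by
      rw [← Complex.re_ofReal_mul, ← Complex.re_ofReal_mul, ← Complex.mul_conj, ← Complex.mul_conj]
      congr 1
      have hc := congrArg conj hAw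
      simp only [map_mul] at hc
      linear_combination (conj (ev q x) * conj (zc w + μ x * conj (zc w))) * hAv +
        ((Z (W x) * ((fderiv ℝ α x v 0 + fderiv ℝ α x v 1 : ℝ) : ℂ) -
          (fderiv ℝ α x v 1 : ℂ)) * Ω) * hc
    have hpoly : ∀ p q' s t : ℝ, ((Z (W x) * ((p + q' : ℝ) : ℂ) - (q' : ℂ)) *
        conj (Z (W x) * ((s + t : ℝ) : ℂ) - (t : ℂ))).re * (1 + exp (-(Kf a L (W x))) ^ 2) =
        p * s + exp (-(Kf a L (W x))) ^ 2 * (q' * t) := fun p q' s t => by
      have := den_pos (Kf a L (W x))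
      simp only [Z]
      simp [Complex.mul_re, Complex.mul_im]
      simp only [T1, T2]
      field_simp
      ring
    simp only [lamt]
    rw [← hpoly]
    have h1 := (hnq x).ne'
    have h2 := (den_pos (Kf a L (W x))).ne'
    field_simp
    linear_combination Λ x * key

end Vale.Agent.P205
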