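import Vale.Agent.P205.Data
import Vale.Agent.P205.Orth

/-!
# Assembling the immersion
-/

noncomputable section

open scoped ContDiff Matrix
open Matrix

namespace Vale.Agent.P205

lemma fderiv_eval (f : V → ℝ) (y w : V) :
    fderiv ℝ f y w = w 0 * pd 0 f y + w 1 * pd 1 f y := by
  conv_lhs => rw [vec_decomp w]
  simp [pd]

/-- derivatives of the two components of a circle factor -/
lemma circle_deriv {ρ θ : V → ℝ} {x : V} (om : ℝ) (hρ : DifferentiableAt ℝ ρ x)
    (hθ : DifferentiableAt ℝ θ x) (v : V) :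
    fderiv ℝ (fun y => ρ y * Real.cos (om * θ y) / om) x v =
      (fderiv ℝ ρ x v * Real.cos (om * θ x) -
        ρ x * (Real.sin (om * θ x) * (om * fderiv ℝ θ x v))) / om ∧
    fderiv ℝ (fun y => ρ y * Real.sin (om * θ y) / om) x v =
      (fderiv ℝ ρ x v * Real.sin (om * θ x) +
        ρ x * (Real.cos (om * θ x) * (om * fderiv ℝ θ x v))) / om := by
  have h1 := hρ.hasFDerivAt
  have h2 := hθ.hasFDerivAt.const_mul om
  have hc := (h1.fun_mul h2.cos).mul_const om⁻¹
  have hs := (h1.fun_mul h2.sin).mul_const om⁻¹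
  constructor
  · simp only [div_eq_mul_inv]
    rw [hc.fderiv]
    simp
    ring
  · simp only [div_eq_mul_inv]
    rw [hs.fderiv]
    simp
    ring

theorem torus_immersion (g : V → Matrix (Fin 2) (Fin 2) ℝ)
    (hs : ∀ i j, ContDiff ℝ ∞ fun x => g x i j)
    (hp : ∀ x (k : I), g (x + fun i => (k i : ℝ)) = g x) (hpos : ∀ x, (g x).PosDef) :
    ∃ F : V → EuclideanSpace ℝ (Fin 4), ContDiff ℝ ∞ F ∧
      (∀ x (k : I), F (x + fun i => (k i : ℝ)) = F x) ∧
      ∀ x u v, inner ℝ (fderiv ℝ F x u) (fderiv ℝ F x v) = u ⬝ᵥ (g x *ᵥ v) := by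
  have hp' : ∀ i j, Periodic2 fun x => g x i j := fun i j x l => by
    have h := hp x (Pi.single l 1)
    have e : (fun i => ((Pi.single l 1 : I) i : ℝ)) = ev1 l := by
      funext i; by_cases hi : i = l <;> simp [ev1, hi]
    rw [e] at h
    simp [h]
  obtain ⟨α, lam, r, hα, htr, hls, hlp, hl, hrs, hrp, hr, hd, hnc, hg⟩ :=
    orth_coords g hs hp' hpos
  obtain ⟨ε0, hε0, hsol⟩ := real_solution hls hlp hl hrs hrp hr hd hnc
  obtain ⟨K, hK⟩ := exists_nat_gt (max 1 (1 / ε0))
  have hK1 : (1 : ℝ) < K := lt_of_le_of_lt (le_max_left _ _) hK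
  have hK2 : 1 / ε0 < K := lt_of_le_of_lt (le_max_right _ _) hK
  set om : ℝ := 2 * Real.pi * K with how
  have how0 : 0 < om := by positivity
  have howK : (K : ℝ) ≤ om := le_mul_of_one_le_left (by linarith) (by linarith [Real.pi_gt_three])
  have hεle : (om ^ 2)⁻¹ ≤ ε0 := by
    rw [inv_le_iff_one_le_mul₀ (by positivity)]
    rw [div_lt_iff₀ hε0] at hK2
    calc (1 : ℝ) ≤ K * ε0 := hK2.le
      _ ≤ om ^ 2 * ε0 := mul_le_mul_of_nonneg_right (by nlinarith) hε0.le
      _ = ε0 * om ^ 2 := mul_comm _ _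
  obtain ⟨P, φ, hPs, hPp, hφs, hφp, hsys⟩ := hsol (om ^ 2)⁻¹ (by positivity) hεle
  let c : Fin 2 → V → ℝ := fun i x =>
    P i (α x) * Real.cos (om * (α x i + φ i (α x))) / om
  let s : Fin 2 → V → ℝ := fun i x =>
    P i (α x) * Real.sin (om * (α x i + φ i (α x))) / om
  let F : V → EuclideanSpace ℝ (Fin 4) := fun x => WithLp.toLp 2 ![c 0 x, s 0 x, c 1 x, s 1 x]
  have hθs : ∀ i, ContDiff ℝ ∞ fun x => α x i + φ i (α x) := fun i =>
    (contDiff_pi.1 hα i).add ((hφs i).comp hα)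
  have hcs : ∀ i, ContDiff ℝ ∞ (c i) := fun i =>
    (((hPs i).comp hα).mul (Real.contDiff_cos.comp (contDiff_const.mul (hθs i)))).div_const _
  have hss : ∀ i, ContDiff ℝ ∞ (s i) := fun i =>
    (((hPs i).comp hα).mul (Real.contDiff_sin.comp (contDiff_const.mul (hθs i)))).div_const _
  have hFs : ContDiff ℝ ∞ F := by
    refine contDiff_euclidean.2 fun l => ?_
    fin_cases l
    · simpa [F] using hcs 0
    · simpa [F] using hss 0
    · simpa [F] using hcs 1
    · simpa [F] using hss 1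
  refine ⟨F, hFs, ?_, ?_⟩
  · -- periodicity
    have hF1 : Periodic2 F := fun x j => by
      obtain ⟨n, hn⟩ := htr x j
      have e : ∀ i, c i (x + ev1 j) = c i x ∧ s i (x + ev1 j) = s i x := fun i => by
        have a1 : om * (α x i + (n i : ℝ) + φ i (α x)) =
            om * (α x i + φ i (α x)) + ((K * n i : ℤ) : ℝ) * (2 * Real.pi) := by
          push_cast; rw [how]; ring
        simp only [c, s, hn, periodic2_lattice (hPp i), periodic2_lattice (hφp i), Pi.add_apply, a1,
          Real.cos_add_int_mul_two_pi, Real.sin_add_int_mul_two_pi, and_self]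
      simp only [F, (e 0).1, (e 0).2, (e 1).1, (e 1).2]
    exact fun x k => periodic2_lattice hF1 x k
  · -- the metric
    intro x u v
    have hαd : DifferentiableAt ℝ α x := (hα.differentiable (by simp)) x
    have hPd : ∀ i, DifferentiableAt ℝ (P i) (α x) := fun i =>
      ((hPs i).differentiable (by simp)) _
    have hφd : ∀ i, DifferentiableAt ℝ (φ i) (α x) := fun i =>
      ((hφs i).differentiable (by simp)) _
    have hdP : ∀ i w, fderiv ℝ (fun y => P i (α y)) x w =
        fderiv ℝ α x w 0 * pd 0 (P i) (α x) + fderiv ℝ α x w 1 * pd 1 (P i) (α x) := fun i w => by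
      rw [show (fun y => P i (α y)) = P i ∘ α from rfl, fderiv_comp x (hPd i) hαd,
        ContinuousLinearMap.comp_apply, fderiv_eval]
    have hdθ : ∀ i w, fderiv ℝ (fun y => α y i + φ i (α y)) x w = fderiv ℝ α x w i +
        (fderiv ℝ α x w 0 * pd 0 (φ i) (α x) + fderiv ℝ α x w 1 * pd 1 (φ i) (α x)) :=
      fun i w => by
      have h1 : HasFDerivAt (fun y => α y i) ((pj i).comp (fderiv ℝ α x)) x :=
        (pj i).hasFDerivAt.comp x hαd.hasFDerivAt
      have h2 : HasFDerivAt (fun y => φ i (α y))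
          ((fderiv ℝ (φ i) (α x)).comp (fderiv ℝ α x)) x :=
        (hφd i).hasFDerivAt.comp x hαd.hasFDerivAt
      rw [(h1.fun_add h2).fderiv]
      simp [pj, fderiv_eval (φ i)]
    have hcoord : ∀ (l : Fin 4) w, fderiv ℝ F x w l = fderiv ℝ (fun y => F y l) x w := fun l w => by
      have h := ((EuclideanSpace.proj (𝕜 := ℝ) l).hasFDerivAt.comp x
        ((hFs.differentiable (by simp)) x).hasFDerivAt).fderiv
      rw [show (fun y => F y l) = (EuclideanSpace.proj (𝕜 := ℝ) l) ∘ F from rfl, h]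
      rfl
    have hcd := fun i => circle_deriv (x := x) om
      (((hPs i).comp hα).differentiable (by simp) x) (((hθs i)).differentiable (by simp) x)
    have f0 : (fun y => F y 0) = c 0 := funext fun y => by simp [F]
    have f1 : (fun y => F y 1) = s 0 := funext fun y => by simp [F]
    have f2 : (fun y => F y 2) = c 1 := funext fun y => by simp [F]
    have f3 : (fun y => F y 3) = s 1 := funext fun y => by simp [F]
    simp only [Function.comp_def] at hcd
    rw [PiLp.inner_apply, Fin.sum_univ_four]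
    simp only [hcoord, f0, f1, f2, f3, c, s, (hcd _ _).1, (hcd _ _).2, hdP, hdθ,
      RCLike.inner_apply, conj_trivial]
    have e00 := hsys 0 0 (α x)
    have e01 := hsys 0 1 (α x)
    have e10 := hsys 1 0 (α x)
    have e11 := hsys 1 1 (α x)
    simp only [Acoef, one_ne_zero, zero_ne_one, if_true, if_false] at e00 e01 e10 e11
    rw [hg]
    set p := fderiv ℝ α x u
    set q := fderiv ℝ α x v
    set ψ0 := om * (α x 0 + φ 0 (α x))
    set ψ1 := om * (α x 1 + φ 1 (α x))
    have t0 := Real.sin_sq_add_cos_sq ψ0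
    have t1 := Real.sin_sq_add_cos_sq ψ1
    field_simp at e00 e01 e10 e11 ⊢
    linear_combination p 0 * q 0 * e00 + p 0 * q 1 * e01 + p 1 * q 0 * e10 + p 1 * q 1 * e11 +
      ((p 0 * pd 0 (P 0) (α x) + p 1 * pd 1 (P 0) (α x)) *
          (q 0 * pd 0 (P 0) (α x) + q 1 * pd 1 (P 0) (α x)) +
        om ^ 2 * P 0 (α x) ^ 2 *
          (p 0 + (p 0 * pd 0 (φ 0) (α x) + p 1 * pd 1 (φ 0) (α x))) *
          (q 0 + (q 0 * pd 0 (φ 0) (α x) + q 1 * pd 1 (φ 0) (α x)))) * t0 +
      ((p 0 * pd 0 (P 1) (α x) + p 1 * pd 1 (P 1) (α x)) *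
          (q 0 * pd 0 (P 1) (α x) + q 1 * pd 1 (P 1) (α x)) +
        om ^ 2 * P 1 (α x) ^ 2 *
          (p 1 + (p 0 * pd 0 (φ 1) (α x) + p 1 * pd 1 (φ 1) (α x))) *
          (q 1 + (q 0 * pd 0 (φ 1) (α x) + q 1 * pd 1 (φ 1) (α x)))) * t1

end Vale.Agent.P205
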