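import Vale.Agent.P205.Torus

/-!
# The Beltrami equation on the two-torus

For a smooth periodic `μ` with `|μ| ≤ k < 1` we construct `q` periodic, nowhere zero, and the
primitive `f` with `df = q (dz + μ dz̄)`.
-/

noncomputable section

open scoped ENNReal ComplexConjugate ContDiff
open Filter Topology

namespace Vale.Agent.P205

/-- multiplier of `∂_z` -/
def mz (n : I) : ℂ := (dm 0 n - Complex.I * dm 1 n) / 2
/-- multiplier of `∂_z̄` -/
def mzb (n : I) : ℂ := (dm 0 n + Complex.I * dm 1 n) / 2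
/-- the Beurling multiplier -/
def sB (n : I) : ℂ := mz n / mzb n

lemma mz_eq (n : I) :
    mz n = ((Real.pi * (n 1 : ℝ) : ℝ) : ℂ) + ((Real.pi * (n 0 : ℝ) : ℝ) : ℂ) * Complex.I := by
  simp [mz, dm]
  linear_combination (-(Real.pi : ℂ) * ((n 1 : ℂ))) * Complex.I_sq

lemma mzb_eq (n : I) :
    mzb n = ((-(Real.pi * (n 1 : ℝ)) : ℝ) : ℂ) + ((Real.pi * (n 0 : ℝ) : ℝ) : ℂ) * Complex.I := by
  simp [mzb, dm]
  linear_combination ((Real.pi : ℂ) * ((n 1 : ℂ))) * Complex.I_sq

lemma norm_mz (n : I) : ‖mz n‖ = ‖mzb n‖ := by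
  rw [mz_eq, mzb_eq, Complex.norm_add_mul_I, Complex.norm_add_mul_I, neg_sq]

lemma mzb_zero : mzb 0 = 0 := by simp [mzb, dm]

lemma mz_zero : mz 0 = 0 := by simp [mz, dm]

lemma one_le_mzb {n : I} (hn : n ≠ 0) : 1 ≤ ‖mzb n‖ := by
  have h : ∀ j : Fin 2, n j ≠ 0 → 1 ≤ Real.pi * |(n j : ℝ)| := fun j hj => by
    have h1 : (1 : ℝ) ≤ |(n j : ℝ)| := by exact_mod_cast Int.one_le_abs hj
    nlinarith [Real.pi_gt_three]
  rw [mzb_eq]
  rcases eq_or_ne (n 0) 0 with h0 | h0
  · have h1 : n 1 ≠ 0 := fun h1 => hn (funext fun j => by fin_cases j <;> simp [h0, h1])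
    refine le_trans ?_ (Complex.abs_re_le_norm _)
    simpa [abs_mul, abs_of_pos Real.pi_pos] using h 1 h1
  · refine le_trans ?_ (Complex.abs_im_le_norm _)
    simpa [abs_mul, abs_of_pos Real.pi_pos] using h 0 h0

lemma mzb_ne {n : I} (hn : n ≠ 0) : mzb n ≠ 0 := fun h => by
  have := one_le_mzb hn
  rw [h, norm_zero] at this
  linarith

lemma sB_zero : sB 0 = 0 := by simp [sB, mzb_zero]

lemma norm_sB {n : I} (hn : n ≠ 0) : ‖sB n‖ = 1 := by
  rw [sB, norm_div, norm_mz, div_self (norm_ne_zero_iff.2 (mzb_ne hn))]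

lemma norm_sB_le (n : I) : ‖sB n‖ ≤ 1 := by
  rcases eq_or_ne n 0 with rfl | hn
  · simp [sB_zero]
  · exact (norm_sB hn).le

lemma sB_mzb (n : I) : sB n * mzb n = mz n := by
  rcases eq_or_ne n 0 with rfl | hn
  · simp [mz_zero, mzb_zero]
  · rw [sB, div_mul_cancel₀ _ (mzb_ne hn)]

lemma norm_mzb_le (n : I) : ‖mzb n‖ ≤ 7 * (1 + sz n) ^ 1 := by
  have h0 := norm_dm_le 0 n
  have h1 := norm_dm_le 1 n
  rw [mzb, norm_div, Complex.norm_ofNat]
  have h2 : ‖dm 0 n + Complex.I * dm 1 n‖ ≤ ‖dm 0 n‖ + ‖dm 1 n‖ :=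
    (norm_add_le _ _).trans (by simp)
  nlinarith [Real.pi_lt_d2, sz_nonneg n, Real.pi_pos]

lemma norm_mz_le (n : I) : ‖mz n‖ ≤ 7 * (1 + sz n) ^ 1 := (norm_mz n).trans_le (norm_mzb_le n)

lemma Rapid.sB {c : I → ℂ} (hc : Rapid c) : Rapid (Mu P205.sB c) :=
  hc.mu (C := 1) (p := 0) fun n => by simpa using norm_sB_le n

/-! ### Neumann series for `x = S (t (b + μ * x))` -/

variable (M b : I → ℂ)

/-- terms of the series -/
def dd : ℕ → (I → ℂ)
  | 0 => Mu sB b
  | j + 1 => Mu sB (mul M (dd j))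

/-- the solution -/
def xt (t : ℝ) : I → ℂ := fun n => ∑' j, (t : ℂ) ^ (j + 1) * dd M b j n

variable {M b}

lemma dd_rapid (hM : Rapid M) (hb : Rapid b) : ∀ j, Rapid (dd M b j)
  | 0 => hb.sB
  | j + 1 => (hM.mul (dd_rapid hM hb j)).sB

lemma pow_weight_le {δ a : ℝ} (hδ : 0 ≤ δ) (hδ1 : δ ≤ 1) (ha : 0 ≤ a) (m : ℕ) :
    (1 + δ * a) ^ m - 1 ≤ δ * ((1 + a) ^ m - 1) := by
  induction m with
  | zero => simp
  | succ m ih =>
    have h1 : (1 + δ * a) ^ m ≤ (1 + a) ^ m :=
      pow_le_pow_left₀ (by nlinarith) (by nlinarith) m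
    have h2 : 0 ≤ δ * a := mul_nonneg hδ ha
    rw [pow_succ, pow_succ]
    nlinarith [mul_le_mul_of_nonneg_left h1 h2]

lemma summable_sq_of_summable {f : I → ℝ} (hf : ∀ n, 0 ≤ f n) (h : Summable f) :
    Summable fun n => f n ^ 2 :=
  Summable.of_nonneg_of_le (fun _ => sq_nonneg _)
    (fun n => by
      rw [sq]
      exact mul_le_mul_of_nonneg_right (h.le_tsum n fun i _ => hf i) (hf n))
    (h.mul_left (∑' n, f n))

/-- weighted `ℓ²` contraction -/
lemma step_l2 (hM : Rapid M) {k : ℝ} (hk1 : k < 1) (hk : ∀ x, ‖ev M x‖ ≤ k) (m : ℕ) :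
    ∃ δ θ : ℝ, 0 < δ ∧ δ ≤ 1 ∧ 0 ≤ θ ∧ θ < 1 ∧ ∀ y, Rapid y →
      ∑' n, ((1 + δ * sz n) ^ m * ‖Mu sB (mul M y) n‖) ^ 2 ≤
        θ * ∑' n, ((1 + δ * sz n) ^ m * ‖y n‖) ^ 2 := by
  have hk0 : 0 ≤ k := le_trans (norm_nonneg _) (hk 0)
  obtain ⟨η, hη0, hη⟩ : ∃ η : ℝ, 0 < η ∧ (1 + η) * (k ^ 2 + η) < 1 := by
    have hk2 : k ^ 2 < 1 := by nlinarith
    refine ⟨(1 - k ^ 2) / 4, by linarith, ?_⟩
    nlinarith [sq_nonneg k]
  obtain ⟨C, hC⟩ : ∃ C, C = ∑' n, (1 + sz n) ^ m * ‖M n‖ := ⟨_, rfl⟩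
  have hC0 : 0 ≤ C := hC ▸ tsum_nonneg fun n => by have := sz_nonneg n; positivity
  refine ⟨min 1 (η / (C + 1)), (1 + η) * (k ^ 2 + η), lt_min one_pos (by positivity),
    min_le_left _ _, by positivity, hη, fun y hy => ?_⟩
  set δ := min 1 (η / (C + 1)) with hδ
  have hδ0 : 0 < δ := lt_min one_pos (by positivity)
  have hδ1 : δ ≤ 1 := min_le_left _ _
  have hW0 : ∀ n, 0 ≤ (1 + δ * sz n) ^ m := fun n => by have := sz_nonneg n; positivity
  have hW1 : ∀ n, (1 + δ * sz n) ^ m ≤ (1 + sz n) ^ m := fun n =>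
    pow_le_pow_left₀ (by have := sz_nonneg n; positivity) (by nlinarith [sz_nonneg n]) m
  have hρ0 : ∀ l, 0 ≤ ((1 + δ * sz l) ^ m - 1) * ‖M l‖ := fun l =>
    mul_nonneg (sub_nonneg.2 (one_le_pow₀ (by nlinarith [sz_nonneg l]))) (norm_nonneg _)
  let ρ : I → ℂ := fun l => ((((1 + δ * sz l) ^ m - 1) * ‖M l‖ : ℝ) : ℂ)
  let wy : I → ℂ := fun l => (((1 + δ * sz l) ^ m : ℝ) : ℂ) * y l
  let ay : I → ℂ := fun l => ((((1 + δ * sz l) ^ m) * ‖y l‖ : ℝ) : ℂ)
  have hρle : ∀ l, ‖ρ l‖ ≤ δ * ((1 + sz l) ^ m * ‖M l‖) := fun l => by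
    simp only [ρ, Complex.norm_real, Real.norm_eq_abs, abs_of_nonneg (hρ0 l), ← mul_assoc]
    refine mul_le_mul_of_nonneg_right ?_ (norm_nonneg _)
    have := pow_weight_le hδ0.le hδ1 (sz_nonneg l) m
    nlinarith
  have hρs : S1 ρ := Summable.of_nonneg_of_le (fun _ => norm_nonneg _) hρle ((hM m).mul_left δ)
  have hρsup : ∀ x, ‖ev ρ x‖ ≤ η := fun x => by
    refine (norm_ev_le hρs x).trans ((Summable.tsum_le_tsum hρle hρs ((hM m).mul_left δ)).trans ?_)
    rw [tsum_mul_left, ← hC]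
    calc δ * C ≤ η / (C + 1) * C := mul_le_mul_of_nonneg_right (min_le_right _ _) hC0
      _ ≤ η := by rw [div_mul_eq_mul_div, div_le_iff₀ (by linarith)]; nlinarith
  have nwy : ∀ l, ‖wy l‖ = (1 + δ * sz l) ^ m * ‖y l‖ := fun l => by
    simp only [wy, norm_mul, Complex.norm_real, Real.norm_eq_abs, abs_of_nonneg (hW0 l)]
  have nay : ∀ l, ‖ay l‖ = (1 + δ * sz l) ^ m * ‖y l‖ := fun l => by
    simp only [ay, Complex.norm_real, Real.norm_eq_abs,
      abs_of_nonneg (mul_nonneg (hW0 l) (norm_nonneg _))]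
  have hys : Summable fun n => (1 + δ * sz n) ^ m * ‖y n‖ :=
    Summable.of_nonneg_of_le (fun n => mul_nonneg (hW0 n) (norm_nonneg _))
      (fun n => mul_le_mul_of_nonneg_right (hW1 n) (norm_nonneg _)) (hy m)
  have hwy : S1 wy := by show Summable _; simpa only [nwy] using hys
  have hay : S1 ay := by show Summable _; simpa only [nay] using hys
  have pt : ∀ n, (1 + δ * sz n) ^ m * ‖Mu sB (mul M y) n‖ ≤
      ‖mul M wy n‖ + ‖mul ρ ay n‖ := fun n => by
    rw [Mu, norm_mul]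
    calc (1 + δ * sz n) ^ m * (‖sB n‖ * ‖mul M y n‖)
        ≤ (1 + δ * sz n) ^ m * (1 * ‖mul M y n‖) := by
          gcongr
          · exact hW0 n
          · exact norm_sB_le n
      _ = ‖(((1 + δ * sz n) ^ m : ℝ) : ℂ) * mul M y n‖ := by
          rw [one_mul, norm_mul, Complex.norm_real, Real.norm_eq_abs, abs_of_nonneg (hW0 n)]
      _ ≤ _ := by
        have h1 : Summable fun l => M l * wy (n - l) := by
          simpa using summable_bil_bdd hM.s1 hwy 1 n
        have h0 : Summable fun l => (((1 + δ * sz n) ^ m : ℝ) : ℂ) * (M l * y (n - l)) := by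
          refine Summable.mul_left _ ?_
          simpa using summable_bil_bdd hM.s1 hy.s1 1 n
        have h2 : (((1 + δ * sz n) ^ m : ℝ) : ℂ) * mul M y n = mul M wy n +
            ∑' l, ((((1 + δ * sz n) ^ m : ℝ) : ℂ) * (M l * y (n - l)) - M l * wy (n - l)) := by
          rw [mul_apply, mul_apply, ← tsum_mul_left, Summable.tsum_sub h0 h1]
          ring
        rw [h2]
        refine (norm_add_le _ _).trans (add_le_add le_rfl ?_)
        have h3 : Summable fun l => (((1 + δ * sz l) ^ m - 1) * ‖M l‖) *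
            ((1 + δ * sz (n - l)) ^ m * ‖y (n - l)‖) := by
          have := (summable_bil_bdd hρs hay 1 n).norm
          have nρ : ∀ l, ‖ρ l‖ = ((1 + δ * sz l) ^ m - 1) * ‖M l‖ := fun l => by
            simp only [ρ, Complex.norm_real, Real.norm_eq_abs, abs_of_nonneg (hρ0 l)]
          simpa only [norm_mul, norm_one, one_mul, nay, nρ] using this
        have e1 : mul ρ ay n = ((∑' l, (((1 + δ * sz l) ^ m - 1) * ‖M l‖) *
            ((1 + δ * sz (n - l)) ^ m * ‖y (n - l)‖) : ℝ) : ℂ) := by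
          rw [mul_apply, Complex.ofReal_tsum]
          simp [ρ, ay]
        rw [e1, Complex.norm_real, Real.norm_eq_abs]
        refine le_trans ?_ (le_abs_self _)
        have hpt : ∀ l, ‖(((1 + δ * sz n) ^ m : ℝ) : ℂ) * (M l * y (n - l)) - M l * wy (n - l)‖ ≤
            (((1 + δ * sz l) ^ m - 1) * ‖M l‖) *
              ((1 + δ * sz (n - l)) ^ m * ‖y (n - l)‖) := fun l => by
          have e2 : (((1 + δ * sz n) ^ m : ℝ) : ℂ) * (M l * y (n - l)) - M l * wy (n - l) =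
              (((1 + δ * sz n) ^ m - (1 + δ * sz (n - l)) ^ m : ℝ) : ℂ) *
                (M l * y (n - l)) := by
            simp only [wy, Complex.ofReal_sub]; ring
          rw [e2, norm_mul, norm_mul, Complex.norm_real, Real.norm_eq_abs]
          have sub1 : ∀ a c : I, (1 + δ * sz (a + c)) ^ m ≤
              (1 + δ * sz a) ^ m * (1 + δ * sz c) ^ m := fun a c => by
            rw [← mul_pow]
            exact pow_le_pow_left₀ (by have := sz_nonneg (a + c); positivity)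
              (by nlinarith [sz_add a c, mul_nonneg (mul_nonneg hδ0.le (sz_nonneg a))
                    (mul_nonneg hδ0.le (sz_nonneg c))]) m
          have i1 := sub1 l (n - l)
          rw [add_sub_cancel] at i1
          have i2 := sub1 n (-l)
          rw [← sub_eq_add_neg, sz_neg] at i2
          have hK : 1 ≤ (1 + δ * sz l) ^ m := one_le_pow₀ (by nlinarith [sz_nonneg l])
          have habs : |(1 + δ * sz n) ^ m - (1 + δ * sz (n - l)) ^ m| ≤
              ((1 + δ * sz l) ^ m - 1) * (1 + δ * sz (n - l)) ^ m := by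
            rw [abs_le]
            constructor <;>
            nlinarith [hW0 (n - l), hW0 n, mul_nonneg (sub_nonneg.2 hK) (hW0 (n - l)),
              mul_nonneg (mul_nonneg (sub_nonneg.2 hK) (sub_nonneg.2 hK)) (hW0 n)]
          calc _ ≤ (((1 + δ * sz l) ^ m - 1) * (1 + δ * sz (n - l)) ^ m) *
                (‖M l‖ * ‖y (n - l)‖) := mul_le_mul_of_nonneg_right habs (by positivity)
            _ = _ := by ring
        exact tsum_of_norm_bounded h3.hasSum hpt
  have hl := mul_l2_le hM.s1 hwy hk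
  have hr := mul_l2_le hρs hay hρsup
  simp only [nwy] at hl
  simp only [nay] at hr
  have s1 := summable_sq_of_summable (fun n => norm_nonneg _) (hM.s1.mul hwy)
  have s2 := summable_sq_of_summable (fun n => norm_nonneg _) (hρs.mul hay)
  have hd : ∀ n, ((1 + δ * sz n) ^ m * ‖Mu sB (mul M y) n‖) ^ 2 ≤
      (1 + η) * ‖mul M wy n‖ ^ 2 + (1 + 1 / η) * ‖mul ρ ay n‖ ^ 2 := fun n => by
    refine (pow_le_pow_left₀ (mul_nonneg (hW0 n) (norm_nonneg _)) (pt n) 2).trans ?_
    have hq := sq_nonneg (η * ‖mul M wy n‖ - ‖mul ρ ay n‖)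
    rw [one_add_div hη0.ne', div_mul_eq_mul_div, ← sub_nonneg]
    have : (1 + η) * ‖mul M wy n‖ ^ 2 + (η + 1) * ‖mul ρ ay n‖ ^ 2 / η -
        (‖mul M wy n‖ + ‖mul ρ ay n‖) ^ 2 =
          (η * ‖mul M wy n‖ - ‖mul ρ ay n‖) ^ 2 / η := by
      field_simp; ring
    rw [this]
    positivity
  have hsum := ((s1.mul_left (1 + η)).add (s2.mul_left (1 + 1 / η)))
  refine (Summable.tsum_le_tsum hd
    (Summable.of_nonneg_of_le (fun _ => sq_nonneg _) hd hsum) hsum).trans ?_
  rw [Summable.tsum_add (s1.mul_left _) (s2.mul_left _), tsum_mul_left, tsum_mul_left]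
  refine (add_le_add (mul_le_mul_of_nonneg_left hl (by positivity))
    (mul_le_mul_of_nonneg_left hr (by positivity))).trans (le_of_eq ?_)
  field_simp
  ring

lemma geom_bound (hM : Rapid M) (hb : Rapid b) {k : ℝ} (hk1 : k < 1) (hk : ∀ x, ‖ev M x‖ ≤ k)
    (m : ℕ) : ∃ C θ : ℝ, 0 ≤ C ∧ 0 ≤ θ ∧ θ < 1 ∧
      ∀ j n, (1 + sz n) ^ m * ‖dd M b j n‖ ≤ C * θ ^ j := by
  obtain ⟨δ, θ, hδ, hδ1, hθ, hθ1, hstep⟩ := step_l2 hM hk1 hk m
  set L : ℕ → ℝ := fun j => ∑' n, ((1 + δ * sz n) ^ m * ‖dd M b j n‖) ^ 2 with hL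
  have hW0 : ∀ n, 0 ≤ (1 + δ * sz n) ^ m := fun n => by have := sz_nonneg n; positivity
  have hLj : ∀ j, L j ≤ θ ^ j * L 0 := fun j => by
    induction j with
    | zero => simp
    | succ j ih =>
      calc L (j + 1) ≤ θ * L j := hstep _ (dd_rapid hM hb j)
        _ ≤ θ * (θ ^ j * L 0) := mul_le_mul_of_nonneg_left ih hθ
        _ = _ := by ring
  refine ⟨(1 / δ) ^ m * Real.sqrt (L 0), Real.sqrt θ, by positivity, Real.sqrt_nonneg _, by
    rw [Real.sqrt_lt' one_pos]; simpa using hθ1, fun j n => ?_⟩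
  have hs : Summable fun i => ((1 + δ * sz i) ^ m * ‖dd M b j i‖) ^ 2 :=
    summable_sq_of_summable (fun i => mul_nonneg (hW0 i) (norm_nonneg _))
      (Summable.of_nonneg_of_le (fun i => mul_nonneg (hW0 i) (norm_nonneg _))
        (fun i => mul_le_mul_of_nonneg_right
          (pow_le_pow_left₀ (by have := sz_nonneg i; positivity) (by nlinarith [sz_nonneg i]) m)
          (norm_nonneg _)) (dd_rapid hM hb j m))
  have h1 : ((1 + δ * sz n) ^ m * ‖dd M b j n‖) ^ 2 ≤ θ ^ j * L 0 :=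
    (hs.le_tsum n fun i _ => sq_nonneg _).trans (hLj j)
  have h2 := Real.sqrt_le_sqrt h1
  rw [Real.sqrt_sq (mul_nonneg (hW0 n) (norm_nonneg _)), Real.sqrt_mul (pow_nonneg hθ j)] at h2
  have h3 : Real.sqrt (θ ^ j) = Real.sqrt θ ^ j := by
    rw [Real.sqrt_eq_iff_eq_sq (pow_nonneg hθ j) (pow_nonneg (Real.sqrt_nonneg _) j), ← pow_mul,
      mul_comm, pow_mul, Real.sq_sqrt hθ]
  rw [h3] at h2
  have h4 : (1 + sz n) ^ m ≤ (1 / δ) ^ m * (1 + δ * sz n) ^ m := by
    rw [← mul_pow]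
    refine pow_le_pow_left₀ (by linarith [sz_nonneg n]) ?_ m
    rw [div_mul_eq_mul_div, le_div_iff₀ hδ]
    nlinarith [sz_nonneg n]
  calc (1 + sz n) ^ m * ‖dd M b j n‖
      ≤ ((1 / δ) ^ m * (1 + δ * sz n) ^ m) * ‖dd M b j n‖ :=
        mul_le_mul_of_nonneg_right h4 (norm_nonneg _)
    _ = (1 / δ) ^ m * ((1 + δ * sz n) ^ m * ‖dd M b j n‖) := by ring
    _ ≤ (1 / δ) ^ m * (Real.sqrt θ ^ j * Real.sqrt (L 0)) :=
        mul_le_mul_of_nonneg_left h2 (by positivity)
    _ = _ := by ring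

lemma norm_term_le {t : ℝ} (ht : |t| ≤ 1) (z : ℂ) (j : ℕ) : ‖(t : ℂ) ^ j * z‖ ≤ ‖z‖ := by
  rw [norm_mul, norm_pow, Complex.norm_real, Real.norm_eq_abs]
  exact mul_le_of_le_one_left (norm_nonneg _) (pow_le_one₀ (abs_nonneg t) ht)

lemma summable_dd (hM : Rapid M) (hb : Rapid b) {k : ℝ} (hk1 : k < 1) (hk : ∀ x, ‖ev M x‖ ≤ k)
    {t : ℝ} (ht : |t| ≤ 1) (n : I) : Summable fun j => (t : ℂ) ^ (j + 1) * dd M b j n := by
  obtain ⟨C, θ, -, h0, h1, hb'⟩ := geom_bound hM hb hk1 hk 0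
  refine Summable.of_norm_bounded ((summable_geometric_of_lt_one h0 h1).mul_left C) fun j => ?_
  exact (norm_term_le ht _ _).trans (by simpa using hb' j n)

lemma xt_rapid (hM : Rapid M) (hb : Rapid b) {k : ℝ} (hk1 : k < 1) (hk : ∀ x, ‖ev M x‖ ≤ k)
    {t : ℝ} (ht : |t| ≤ 1) : Rapid (xt M b t) := by
  refine rapid_of_bound fun m => ?_
  obtain ⟨C, θ, -, h0, h1, hb'⟩ := geom_bound hM hb hk1 hk m
  refine ⟨C * (1 - θ)⁻¹, fun n => ?_⟩
  have hw : 0 ≤ (1 + sz n) ^ m := by have := sz_nonneg n; positivity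
  have hs := (summable_dd hM hb hk1 hk ht n).norm
  refine (mul_le_mul_of_nonneg_left (norm_tsum_le_tsum_norm hs) hw).trans ?_
  rw [← tsum_mul_left, ← tsum_geometric_of_lt_one h0 h1, ← tsum_mul_left]
  refine Summable.tsum_le_tsum (fun j => ?_) (hs.mul_left _)
    ((summable_geometric_of_lt_one h0 h1).mul_left C)
  exact (mul_le_mul_of_nonneg_left (norm_term_le ht _ _) hw).trans (hb' j n)

lemma hasSum_mul_xt (hM : Rapid M) (hb : Rapid b) {k : ℝ} (hk1 : k < 1)
    (hk : ∀ x, ‖ev M x‖ ≤ k) {t : ℝ} (ht : |t| ≤ 1) (n : I) :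
    HasSum (fun j => (t : ℂ) ^ (j + 1) * mul M (dd M b j) n) (mul M (xt M b t) n) := by
  obtain ⟨C, θ, hC, h0, h1, hb'⟩ := geom_bound hM hb hk1 hk 0
  have hsum : Summable fun z : I × ℕ => M z.1 * ((t : ℂ) ^ (z.2 + 1) * dd M b z.2 (n - z.1)) := by
    refine Summable.of_norm_bounded (g := fun z : I × ℕ => ‖M z.1‖ * (C * θ ^ z.2))
      (Summable.mul_of_nonneg hM.s1 ((summable_geometric_of_lt_one h0 h1).mul_left C)
        (fun _ => norm_nonneg _) fun _ => by positivity) fun z => ?_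
    rw [norm_mul]
    exact mul_le_mul_of_nonneg_left ((norm_term_le ht _ _).trans (by simpa using hb' z.2 _))
      (norm_nonneg _)
  have h2 : HasSum (fun z : I × ℕ => M z.1 * ((t : ℂ) ^ (z.2 + 1) * dd M b z.2 (n - z.1)))
      (mul M (xt M b t) n) := by
    convert hsum.hasSum using 1
    rw [hsum.tsum_prod, mul_apply]
    refine tsum_congr fun l => ?_
    rw [xt, ← tsum_mul_left]
  have h3 := (Equiv.hasSum_iff (Equiv.prodComm ℕ I)
    (f := fun z : I × ℕ => M z.1 * ((t : ℂ) ^ (z.2 + 1) * dd M b z.2 (n - z.1)))).2 h2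
  refine h3.prod_fiberwise fun j => ?_
  have h4 : HasSum (fun l => M l * dd M b j (n - l)) (mul M (dd M b j) n) := by
    rw [mul_apply]
    refine Summable.hasSum ?_
    simpa using summable_bil_bdd hM.s1 (dd_rapid hM hb j).s1 1 n
  have := h4.mul_left ((t : ℂ) ^ (j + 1))
  refine this.congr_fun fun l => ?_
  show M l * _ = _
  simp only [Prod.fst_swap, Prod.snd_swap, Equiv.prodComm_apply]
  ring

lemma xt_eq (hM : Rapid M) (hb : Rapid b) {k : ℝ} (hk1 : k < 1)
    (hk : ∀ x, ‖ev M x‖ ≤ k) {t : ℝ} (ht : |t| ≤ 1) :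
    xt M b t = Mu sB ((t : ℂ) • (b + mul M (xt M b t))) := by
  funext n
  rw [xt, (summable_dd hM hb hk1 hk ht n).tsum_eq_zero_add]
  have h := ((hasSum_mul_xt hM hb hk1 hk ht n).mul_left ((t : ℂ) * sB n)).tsum_eq
  simp only [Mu, Pi.smul_apply, Pi.add_apply, smul_eq_mul, dd]
  rw [show (∑' j : ℕ, (t : ℂ) ^ (j + 1 + 1) * (sB n * mul M (dd M b j) n)) =
      ∑' j : ℕ, (t : ℂ) * sB n * ((t : ℂ) ^ (j + 1) * mul M (dd M b j) n) from
      tsum_congr fun j => by ring, h]
  ring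

lemma fix_unique (hM : Rapid M) {k : ℝ} (hk1 : k < 1) (hk : ∀ x, ‖ev M x‖ ≤ k) {y : I → ℂ}
    (hy : Rapid y) {t : ℝ} (ht : |t| ≤ 1) (h : y = Mu sB ((t : ℂ) • mul M y)) : y = 0 := by
  have hk0 : 0 ≤ k := le_trans (norm_nonneg _) (hk 0)
  have h1 := mul_l2_le hM.s1 hy.s1 hk
  have hs := summable_sq_of_summable (fun n => norm_nonneg _) (hM.s1.mul hy.s1)
  have hys := summable_sq_of_summable (fun n => norm_nonneg _) hy.s1
  have h2 : ∑' n, ‖y n‖ ^ 2 ≤ ∑' n, ‖mul M y n‖ ^ 2 := by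
    refine Summable.tsum_le_tsum (fun n => pow_le_pow_left₀ (norm_nonneg _) ?_ 2) hys hs
    conv_lhs => rw [h]
    simp only [Mu, Pi.smul_apply, smul_eq_mul, norm_mul, Complex.norm_real, Real.norm_eq_abs]
    calc ‖sB n‖ * (|t| * ‖mul M y n‖) ≤ 1 * (1 * ‖mul M y n‖) := by
          gcongr
          exact norm_sB_le n
      _ = _ := by ring
  have h3 : ∑' n, ‖y n‖ ^ 2 = 0 := by
    have : (0:ℝ) ≤ ∑' n, ‖y n‖ ^ 2 := tsum_nonneg fun n => sq_nonneg _
    nlinarith [mul_lt_mul'' hk1 hk1 hk0 hk0]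
  funext n
  have h4 := hys.le_tsum n fun i _ => sq_nonneg _
  rw [h3] at h4
  exact norm_eq_zero.1 (pow_eq_zero_iff (n := 2) two_ne_zero |>.1 (le_antisymm h4 (sq_nonneg _)))

lemma mul_single_zero (c : I → ℂ) (z : ℂ) : mul c (Pi.single 0 z) = z • c := by
  funext n
  rw [mul_apply, tsum_eq_single n]
  · simp [mul_comm]
  · intro l hl
    have : n - l ≠ 0 := sub_ne_zero.2 (Ne.symm hl)
    simp [this]

lemma mul_add_right {c p p' : I → ℂ} (hc : S1 c) (hp : S1 p) (hp' : S1 p') :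
    mul c (p + p') = mul c p + mul c p' := by
  funext n
  simp only [Pi.add_apply, mul_apply]
  rw [← Summable.tsum_add (by simpa using summable_bil_bdd hc hp 1 n)
    (by simpa using summable_bil_bdd hc hp' 1 n)]
  simp [mul_add]

lemma mul_sub_right {c p p' : I → ℂ} (hc : S1 c) (hp : S1 p) (hp' : S1 p') :
    mul c (p - p') = mul c p - mul c p' := by
  have h := mul_add_right hc (hp.sub hp') hp'
  rw [sub_add_cancel] at h
  rw [h, add_sub_cancel_right]

lemma mul_smul_right (c p : I → ℂ) (z : ℂ) : mul c (z • p) = z • mul c p := by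
  funext n
  simp only [Pi.smul_apply, smul_eq_mul, mul_apply, ← tsum_mul_left]
  exact tsum_congr fun l => by ring

/-- `∂_z` -/
def pz (f : V → ℂ) (x : V) : ℂ := (pd 0 f x - Complex.I * pd 1 f x) / 2
/-- `∂_z̄` -/
def pzb (f : V → ℂ) (x : V) : ℂ := (pd 0 f x + Complex.I * pd 1 f x) / 2

lemma pz_ev {c : I → ℂ} (hc : Rapid c) (x : V) : pz (ev c) x = ev (Mu mz c) x := by
  have e1 : Mu mz c = (1 / 2 : ℂ) • (P205.D 0 c + (-Complex.I) • P205.D 1 c) := by
    funext n; simp [Mu, mz, P205.D]; ring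
  rw [e1, ev_smul, ev_add (hc.D 0).s1 ((hc.D 1).s1.smul _), ev_smul, pz,
    pd_ev hc.s1 (fun j => (hc.D j).s1), pd_ev hc.s1 (fun j => (hc.D j).s1)]
  ring

lemma pzb_ev {c : I → ℂ} (hc : Rapid c) (x : V) : pzb (ev c) x = ev (Mu mzb c) x := by
  have e1 : Mu mzb c = (1 / 2 : ℂ) • (P205.D 0 c + Complex.I • P205.D 1 c) := by
    funext n; simp [Mu, mzb, P205.D]; ring
  rw [e1, ev_smul, ev_add (hc.D 0).s1 ((hc.D 1).s1.smul _), ev_smul, pzb,
    pd_ev hc.s1 (fun j => (hc.D j).s1), pd_ev hc.s1 (fun j => (hc.D j).s1)]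
  ring

lemma pz_mul {f g : V → ℂ} {x : V} (hf : DifferentiableAt ℝ f x) (hg : DifferentiableAt ℝ g x) :
    pz (fun y => f y * g y) x = pz f x * g x + f x * pz g x := by
  simp only [pz, pd, fderiv_fun_mul hf hg]
  simp [smul_eq_mul]
  ring

lemma Rapid.diff {c : I → ℂ} (hc : Rapid c) (x : V) : DifferentiableAt ℝ (ev c) x :=
  (contDiff_ev hc).differentiable (by simp) x

variable (M) in
/-- `μ_z` -/
def bz : I → ℂ := Mu mz M

lemma bz_rapid (hM : Rapid M) : Rapid (bz M) := hM.mu norm_mz_le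

lemma bd_dd (hM : Rapid M) (hb : Rapid b) : ∃ A B : ℝ, 0 ≤ A ∧ 0 ≤ B ∧
    ∀ j, Bd (fun _ => 1) (dd M b j) (B * A ^ j) := by
  have hfin : ∀ {c : I → ℂ}, Rapid c → ∃ a, 0 ≤ a ∧ Bd (fun _ => 1) c a := by
    intro c hc
    refine ⟨∑' n, (1 + sz n) ^ 2 * ‖c n‖, tsum_nonneg fun n => by have := sz_nonneg n; positivity,
      ?_⟩
    rw [Bd, Nw, ENNReal.ofReal_tsum_of_nonneg (fun n => by have := sz_nonneg n; positivity) (hc 2)]
    refine le_of_eq (tsum_congr fun n => ?_)
    have hp : (0:ℝ) ≤ (1 + sz n) ^ 2 := by have := sz_nonneg n; positivity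
    simp only [mul_one, w2]
    rw [ENNReal.ofReal_mul hp, ofReal_norm]
  obtain ⟨A, hA, hAB⟩ := hfin hM
  obtain ⟨B, hB, hBB⟩ := hfin hb
  refine ⟨A, B, hA, hB, fun j => ?_⟩
  induction j with
  | zero => simpa [dd] using hBB.mu zero_le_one norm_sB_le
  | succ j ih =>
    have := (hAB.mul adm_one ih hA).mu zero_le_one norm_sB_le
    exact this.mono (by rw [pow_succ]; ring_nf; rfl)

lemma xt_small (hM : Rapid M) (hb : Rapid b) : ∃ t0 : ℝ, 0 < t0 ∧ t0 ≤ 1 ∧
    ∀ t, 0 < t → t ≤ t0 → ∀ x, ‖ev (xt M b t) x‖ ≤ 1 / 2 := by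
  obtain ⟨A, B, hA, hB, hdd⟩ := bd_dd hM hb
  refine ⟨1 / (4 * (A + B + 1)), by positivity, ?_, fun t ht0 ht x => ?_⟩
  · rw [div_le_one (by positivity)]; linarith
  · have htA : t * (A + B + 1) ≤ 1 / 4 := by
      rw [le_div_iff₀ (by positivity)] at ht; linarith
    have hq : t * A ≤ 1 / 2 := by nlinarith
    have hbd : Bd (fun _ => 1) (xt M b t) (t * B * (1 - t * A)⁻¹) := by
      rw [Bd, Nw, ← tsum_geometric_of_lt_one (by positivity) (by linarith), ← tsum_mul_left,
        ENNReal.ofReal_tsum_of_nonneg (fun j => by positivity)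
          ((summable_geometric_of_lt_one (by positivity) (by linarith)).mul_left _)]
      calc ∑' n, ENNReal.ofReal (w2 n * 1) * ‖xt M b t n‖ₑ
          ≤ ∑' n, ENNReal.ofReal (w2 n * 1) *
              ∑' j : ℕ, ENNReal.ofReal (t ^ (j + 1)) * ‖dd M b j n‖ₑ := by
            refine ENNReal.tsum_le_tsum fun n => mul_le_mul le_rfl ?_ zero_le zero_le
            refine enorm_tsum_le_tsum_enorm.trans (le_of_eq (tsum_congr fun j => ?_))
            rw [enorm_mul, ← ofReal_norm ((t : ℂ) ^ (j + 1)), norm_pow, Complex.norm_real,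
              Real.norm_eq_abs, abs_of_pos ht0]
        _ = ∑' j : ℕ, ENNReal.ofReal (t ^ (j + 1)) * Nw (fun _ => 1) (dd M b j) := by
            simp only [← ENNReal.tsum_mul_left]
            rw [ENNReal.tsum_comm]
            simp only [Nw, ← ENNReal.tsum_mul_left]
            exact tsum_congr fun j => tsum_congr fun n => by ring
        _ ≤ _ := by
            refine ENNReal.tsum_le_tsum fun j => ?_
            refine (mul_le_mul le_rfl (hdd j) zero_le zero_le).trans (le_of_eq ?_)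
            rw [← ENNReal.ofReal_mul (by positivity)]
            congr 1
            ring
    refine (hbd.norm_ev_le adm_one ?_ x).trans ?_
    · have : (0 : ℝ) ≤ (1 - t * A)⁻¹ := inv_nonneg.2 (by linarith)
      positivity
    · rw [← div_eq_mul_inv, div_le_iff₀ (by linarith)]
      nlinarith

lemma gamma_zero (hM : Rapid M) {k : ℝ} (hk1 : k < 1) (hk : ∀ x, ‖ev M x‖ ≤ k) :
    ∀ j, mul M (dd M (bz M) j) 0 = 0 := by
  obtain ⟨t0, ht0, ht01, hsmall⟩ := xt_small hM hM
  have hb := bz_rapid hM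
  have hzero : ∀ t : ℝ, 0 < t → t ≤ t0 →
      HasSum (fun j => (t : ℂ) ^ (j + 1) * mul M (dd M (bz M) j) 0) 0 := by
    intro t ht htle
    have ht1 : |t| ≤ 1 := by rw [abs_of_pos ht]; linarith
    have hp := xt_rapid hM hM hk1 hk ht1
    set q : I → ℂ := Pi.single 0 1 + xt M M t with hqdef
    have hq : Rapid q := (Rapid.single 0 1).add hp
    have hqx : ∀ x, ev q x = 1 + ev (xt M M t) x := fun x => by
      rw [hqdef, ev_add (S1.single 0 1) hp.s1, ev_single]; simp
    have hre : ∀ x, ev q x ∈ Complex.slitPlane := fun x => by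
      refine Complex.mem_slitPlane_iff.2 (Or.inl ?_)
      have h1 := hsmall t ht htle x
      have h2 := (abs_le.1 (Complex.abs_re_le_norm (ev (xt M M t) x))).1
      rw [hqx, Complex.add_re, Complex.one_re]
      linarith
    have hmulq : mul M q = M + mul M (xt M M t) := by
      rw [hqdef, mul_add_right hM.s1 (S1.single 0 1) hp.s1, mul_single_zero, one_smul]
    have hqeq : Mu mzb q = Mu mz ((t : ℂ) • mul M q) := by
      funext n
      rcases eq_or_ne n 0 with rfl | hn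
      · simp [Mu, mzb_zero, mz_zero]
      · simp only [Mu, hqdef, Pi.add_apply, Pi.single_eq_of_ne hn, zero_add, Pi.smul_apply]
        conv_lhs => rw [xt_eq hM hM hk1 hk ht1]
        rw [← hqdef, hmulq, ← sB_mzb n]
        simp only [Mu, Pi.smul_apply, Pi.add_apply, smul_eq_mul]
        ring
    let L : V → ℂ := fun x => Complex.log (ev q x)
    have hLd : ∀ x, HasFDerivAt L ((ev q x)⁻¹ • fderiv ℝ (ev q) x) x := fun x =>
      (Complex.hasStrictDerivAt_log (hre x)).hasDerivAt.comp_hasFDerivAt x (hq.diff x).hasFDerivAt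
    have hLs : ContDiff ℝ ∞ L := contDiff_iff_contDiffAt.2 fun x =>
      ((Complex.contDiffAt_log (hre x)).restrict_scalars ℝ).comp x (contDiff_ev hq).contDiffAt
    have hLp : Periodic2 L := fun x j => by simp [L, ev_periodic q x j]
    set H := coef L
    have hH : Rapid H := coef_rapid hLp hLs
    have evH : ev H = L := funext (ev_coef hLp hLs)
    have hpdL : ∀ j x, pd j L x = (ev q x)⁻¹ * pd j (ev q) x := fun j x => by
      simp [pd, (hLd x).fderiv]
    have key : Mu mzb H = (t : ℂ) • (bz M + mul M (Mu mz H)) := by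
      have hX : Rapid (Mu mz H) := hH.mu norm_mz_le
      refine ev_inj (hH.mu norm_mzb_le).s1 ((hb.add (hM.mul hX)).smul _).s1 fun x => ?_
      rw [← pzb_ev hH, ev_smul, ev_add hb.s1 (hM.mul hX).s1, ev_mul hM.s1 hX.s1, bz,
        ← pz_ev hM, ← pz_ev hH, evH]
      have h1 : pzb (ev q) x = (t : ℂ) * (pz (ev M) x * ev q x + ev M x * pz (ev q) x) := by
        rw [pzb_ev hq, hqeq, ← pz_mul (hM.diff x) (hq.diff x)]
        have hfun : (fun y => ev M y * ev q y) = ev (mul M q) :=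
          funext fun y => (ev_mul hM.s1 hq.s1 y).symm
        have hsm : Mu mz ((t : ℂ) • mul M q) = (t : ℂ) • Mu mz (mul M q) := by
          funext n; simp [Mu]; ring
        rw [hfun, pz_ev (hM.mul hq), hsm, ev_smul]
      have hne : ev q x ≠ 0 := Complex.slitPlane_ne_zero (hre x)
      simp only [pz, pzb, hpdL] at h1 ⊢
      field_simp
      linear_combination 2 * h1
    have hXeq : Mu mz H = Mu sB ((t : ℂ) • (bz M + mul M (Mu mz H))) := by
      rw [← key]; funext n; simp only [Mu, ← sB_mzb n]; ring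
    have hY := xt_rapid hM hb hk1 hk ht1
    have hX : Rapid (Mu mz H) := hH.mu norm_mz_le
    have huniq : Mu mz H = xt M (bz M) t := by
      refine sub_eq_zero.1 (fix_unique hM hk1 hk (hX.sub hY) ht1 ?_)
      conv_lhs => rw [hXeq, xt_eq hM hb hk1 hk ht1]
      rw [mul_sub_right hM.s1 hX.s1 hY.s1]
      funext n
      simp [Mu]
      ring
    have h0 := congrFun key 0
    simp only [Mu, mzb_zero, zero_mul, Pi.smul_apply, Pi.add_apply, bz, mz_zero, smul_eq_mul,
      zero_add] at h0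
    have h2 : mul M (xt M (bz M) t) 0 = 0 := by
      rw [← huniq]
      exact (mul_eq_zero.1 h0.symm).resolve_left (by exact_mod_cast ht.ne')
    simpa [h2] using hasSum_mul_xt hM hb hk1 hk ht1 (0 : I)
  obtain ⟨C, θ, hC, hθ0, hθ1, hbnd⟩ := geom_bound hM hb hk1 hk 0
  obtain ⟨S, hS0, hS⟩ : ∃ S, 0 ≤ S ∧ ∀ j, ‖mul M (dd M (bz M) j) 0‖ ≤ S := by
    refine ⟨(∑' l, ‖M l‖) * C, mul_nonneg (tsum_nonneg fun _ => norm_nonneg _) hC, fun j => ?_⟩
    rw [mul_apply]
    refine tsum_of_norm_bounded (hM.s1.norm.hasSum.mul_right C) fun l => ?_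
    rw [norm_mul]
    refine mul_le_mul_of_nonneg_left ?_ (norm_nonneg _)
    have := hbnd j (0 - l)
    simp only [pow_zero, one_mul] at this
    exact this.trans (mul_le_of_le_one_right hC (pow_le_one₀ hθ0 hθ1.le))
  intro j
  induction j using Nat.strong_induction_on with
  | _ j ih =>
    have hb2 : ∀ t : ℝ, 0 < t → t ≤ min t0 (1 / 2) →
        ‖mul M (dd M (bz M) j) 0‖ ≤ 2 * S * t := by
      intro t ht htle
      have htt0 := le_trans htle (min_le_left _ _)
      have hth := le_trans htle (min_le_right _ _)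
      have h := hzero t ht htt0
      rw [← hasSum_nat_add_iff' (j + 1), zero_sub] at h
      rw [Finset.sum_range_succ, Finset.sum_eq_zero fun i hi => by
        rw [ih i (Finset.mem_range.1 hi), mul_zero], zero_add] at h
      have hgeo : HasSum (fun i : ℕ => t ^ (j + 2) * S * t ^ i) (t ^ (j + 2) * S * (1 - t)⁻¹) :=
        (hasSum_geometric_of_lt_one ht.le (by linarith)).mul_left _
      have h5 := tsum_of_norm_bounded hgeo (f := fun i =>
        (t : ℂ) ^ (i + (j + 1) + 1) * mul M (dd M (bz M) (i + (j + 1))) 0) fun i => by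
        rw [norm_mul, norm_pow, Complex.norm_real, Real.norm_eq_abs, abs_of_pos ht]
        refine le_of_le_of_eq (mul_le_mul_of_nonneg_left (hS _) (by positivity)) ?_
        ring
      rw [h.tsum_eq, norm_neg, norm_mul, norm_pow, Complex.norm_real, Real.norm_eq_abs,
        abs_of_pos ht] at h5
      have hinv : (1 - t)⁻¹ ≤ 2 := by
        rw [inv_le_comm₀ (by linarith) two_pos]; linarith
      have hfin : t ^ (j + 1) * ‖mul M (dd M (bz M) j) 0‖ ≤ t ^ (j + 1) * (2 * S * t) :=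
        h5.trans (by
          calc t ^ (j + 2) * S * (1 - t)⁻¹ ≤ t ^ (j + 2) * S * 2 :=
                mul_le_mul_of_nonneg_left hinv (by positivity)
            _ = _ := by ring)
      exact le_of_mul_le_mul_left hfin (by positivity)
    by_contra hne
    have hpos : 0 < ‖mul M (dd M (bz M) j) 0‖ := norm_pos_iff.2 hne
    have hm0 : 0 < min t0 (1 / 2) := lt_min ht0 (by norm_num)
    let t := min (min t0 (1 / 2)) (‖mul M (dd M (bz M) j) 0‖ / (4 * (S + 1)))
    have h1 := hb2 t (lt_min hm0 (by positivity)) (min_le_left _ _)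
    have h2 : 2 * S * t ≤ 2 * S * (‖mul M (dd M (bz M) j) 0‖ / (4 * (S + 1))) :=
      mul_le_mul_of_nonneg_left (min_le_right _ _) (by positivity)
    have h3 : 2 * S * (‖mul M (dd M (bz M) j) 0‖ / (4 * (S + 1))) <
        ‖mul M (dd M (bz M) j) 0‖ := by
      rw [mul_div_assoc', div_lt_iff₀ (by positivity)]
      nlinarith
    linarith

/-- the solution of the Beltrami equation -/
theorem beltrami (hM : Rapid M) {k : ℝ} (hk1 : k < 1) (hk : ∀ x, ‖ev M x‖ ≤ k) :
    ∃ (q u : I → ℂ) (b : ℂ), Rapid q ∧ Rapid u ∧ ‖b‖ < 1 ∧ (∀ x, ev q x ≠ 0) ∧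
      (∀ x, 1 + pz (ev u) x = ev q x) ∧ (∀ x, b + pzb (ev u) x = ev M x * ev q x) := by
  have ht1 : |(1 : ℝ)| ≤ 1 := by norm_num
  have hb := bz_rapid hM
  have hp := xt_rapid hM hM hk1 hk ht1
  have hpeq := xt_eq hM hM hk1 hk ht1
  set p := xt M M 1
  set q : I → ℂ := Pi.single 0 1 + p with hqdef
  have hq : Rapid q := (Rapid.single 0 1).add hp
  have hmulq : mul M q = M + mul M p := by
    rw [hqdef, mul_add_right hM.s1 (S1.single 0 1) hp.s1, mul_single_zero, one_smul]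
  have hpn : ∀ n, p n = sB n * mul M q n := fun n => by
    have := congrFun hpeq n
    simpa [Mu, hmulq] using this
  -- `q` has no zero
  set X := xt M (bz M) 1
  have hX := xt_rapid hM hb hk1 hk ht1
  have hXeq := xt_eq hM hb hk1 hk ht1
  have hX0 : mul M X 0 = 0 := by
    have := (hasSum_mul_xt hM hb hk1 hk ht1 (0 : I)).tsum_eq
    simp [gamma_zero hM hk1 hk] at this
    exact this.symm
  set R := bz M + mul M X with hR
  have hRr : Rapid R := hb.add (hM.mul hX)
  let H : I → ℂ := fun n => (mzb n)⁻¹ * R n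
  have hH : Rapid H := hRr.mu (C := 1) (p := 0) fun n => by
    rcases eq_or_ne n 0 with rfl | hn
    · simp [mzb_zero]
    · simpa using inv_le_one_of_one_le₀ (one_le_mzb hn)
  have hHzb : Mu mzb H = R := funext fun n => by
    rcases eq_or_ne n 0 with rfl | hn
    · simp [Mu, mzb_zero, hR, bz, mz_zero, hX0]
    · simp [Mu, H, mzb_ne hn]
  have hHz : Mu mz H = X := funext fun n => by
    have h1 := congrFun hHzb n
    have h2 : X n = sB n * R n := by
      have := congrFun hXeq n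
      simpa [Mu, hR] using this
    simp only [Mu] at h1
    rw [h2, Mu, ← sB_mzb n, mul_assoc, h1]
  let E : V → ℂ := fun x => Complex.exp (ev H x)
  have hEs : ContDiff ℝ ∞ E := (contDiff_ev hH).cexp
  have hEp : Periodic2 E := fun x j => by simp [E, ev_periodic H x j]
  set v := coef E
  have hv : Rapid v := coef_rapid hEp hEs
  have evv : ev v = E := funext (ev_coef hEp hEs)
  have hpdE : ∀ j x, pd j E x = E x * pd j (ev H) x := fun j x => by
    simp [pd, E, (hH.diff x).hasFDerivAt.cexp.fderiv]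
  have hveq : Mu mzb v = Mu mz (mul M v) := by
    refine ev_inj (hv.mu norm_mzb_le).s1 ((hM.mul hv).mu norm_mz_le).s1 fun x => ?_
    rw [← pzb_ev hv, ← pz_ev (hM.mul hv)]
    have hfun : ev (mul M v) = fun y => ev M y * ev v y := funext fun y => ev_mul hM.s1 hv.s1 y
    rw [hfun, pz_mul (hM.diff x) (hv.diff x), evv]
    have h1 : pzb (ev H) x = pz (ev M) x + ev M x * pz (ev H) x := by
      rw [pzb_ev hH, hHzb, pz_ev hM, pz_ev hH, hHz, hR, ev_add hb.s1 (hM.mul hX).s1,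
        ev_mul hM.s1 hX.s1]
      rfl
    simp only [pz, pzb, hpdE] at h1 ⊢
    linear_combination E x * h1
  have hy0 : v - v 0 • q = 0 := by
    refine fix_unique hM hk1 hk (hv.sub (hq.smul _)) ht1 ?_
    funext n
    rw [mul_sub_right hM.s1 hv.s1 (hq.smul _).s1, mul_smul_right]
    simp only [Mu, Pi.sub_apply, Pi.smul_apply, smul_eq_mul, Complex.ofReal_one, one_mul]
    rcases eq_or_ne n 0 with rfl | hn
    · have h0 : p 0 = 0 := by rw [hpn, sB_zero, zero_mul]
      simp [hqdef, h0, sB_zero]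
    · have h1 := congrFun hveq n
      simp only [Mu, ← sB_mzb n] at h1
      have h2 : v n = sB n * mul M v n := by
        apply mul_left_cancel₀ (mzb_ne hn)
        rw [h1]; ring
      have h3 : q n = sB n * mul M q n := by
        rw [← hpn n]; simp [hqdef, hn]
      rw [h2, h3]; ring
  have hvq : ∀ x, E x = v 0 * ev q x := fun x => by
    rw [← evv, ← ev_smul, ← sub_eq_zero.1 hy0]
  -- the primitive
  let u : I → ℂ := fun n => (mz n)⁻¹ * p n
  have hu : Rapid u := hp.mu (C := 1) (p := 0) fun n => by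
    rcases eq_or_ne n 0 with rfl | hn
    · simp [mz_zero]
    · simpa [norm_mz] using inv_le_one_of_one_le₀ (one_le_mzb hn)
  have hp0 : p 0 = 0 := by rw [hpn, sB_zero, zero_mul]
  have huz : Mu mz u = p := funext fun n => by
    rcases eq_or_ne n 0 with rfl | hn
    · simp [Mu, mz_zero, hp0]
    · have : mz n ≠ 0 := by rw [← norm_ne_zero_iff, norm_mz]; simpa using mzb_ne hn
      simp [Mu, u, this]
  have huzb : Mu mzb u + Pi.single 0 (mul M q 0) = mul M q := funext fun n => by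
    rcases eq_or_ne n 0 with rfl | hn
    · simp [Mu, mzb_zero]
    · have hs : sB n ≠ 0 := by rw [← norm_ne_zero_iff, norm_sB hn]; norm_num
      simp only [Mu, u, Pi.add_apply, Pi.single_eq_of_ne hn, add_zero, hpn n, ← sB_mzb n,
        mul_inv]
      field_simp [mzb_ne hn]
  refine ⟨q, u, mul M q 0, hq, hu, ?_, fun x hx => ?_, fun x => ?_, fun x => ?_⟩
  · have hk0 : 0 ≤ k := le_trans (norm_nonneg _) (hk 0)
    have h1 := mul_l2_le hM.s1 hq.s1 hk
    have hs := summable_sq_of_summable (fun n => norm_nonneg _) (hM.s1.mul hq.s1)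
    have hqs := summable_sq_of_summable (fun n => norm_nonneg _) hq.s1
    rw [hs.tsum_eq_add_tsum_ite 0, hqs.tsum_eq_add_tsum_ite 0] at h1
    have heq : (fun n : I => if n = 0 then (0 : ℝ) else ‖mul M q n‖ ^ 2) =
        fun n => if n = 0 then 0 else ‖q n‖ ^ 2 := by
      funext n
      split_ifs with hn
      · rfl
      · rw [show q n = p n by simp [hqdef, hn], hpn n, norm_mul, norm_sB hn, one_mul]
    rw [heq] at h1
    have hq0 : q 0 = 1 := by simp [hqdef, hp0]
    rw [hq0, norm_one] at h1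
    have hP : (0 : ℝ) ≤ ∑' n : I, if n = 0 then 0 else ‖q n‖ ^ 2 :=
      tsum_nonneg fun n => by split_ifs <;> positivity
    have hk2 : k ^ 2 < 1 := by nlinarith
    have : ‖mul M q 0‖ ^ 2 < 1 := by nlinarith
    nlinarith [norm_nonneg (mul M q 0)]
  · have := hvq x
    rw [hx, mul_zero] at this
    exact Complex.exp_ne_zero _ this
  · rw [pz_ev hu, huz, hqdef, ev_add (S1.single 0 1) hp.s1, ev_single]; simp
  · rw [← ev_mul hM.s1 hq.s1, ← huzb, ev_add (hu.mu norm_mzb_le).s1 (S1.single 0 _),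
      ev_single, pzb_ev hu, huzb]
    simp [add_comm]

end Vale.Agent.P205
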