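import Vale.Agent.P205.Seq

/-!
# Weighted Wiener algebras and bilinear Fourier operators

The two elementary Günther type decompositions
`c ∂ⱼp = ∂ⱼ T(c,p) + R1ⱼ(c,p)` and `Sym ∂ⱼp ∂ₖq = ∂ⱼAₖ + ∂ₖAⱼ + R2ⱼₖ` without loss of derivatives.
-/

noncomputable section

open scoped ENNReal ComplexConjugate

namespace Vale.Agent.P205

def w2 (n : I) : ℝ := (1 + sz n) ^ 2

lemma one_le_w2 (n : I) : 1 ≤ w2 n := by
  unfold w2
  nlinarith [sz_nonneg n]

lemma w2_pos (n : I) : 0 < w2 n := lt_of_lt_of_le one_pos (one_le_w2 n)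

lemma sz_le_w2 (n : I) : sz n ≤ w2 n := by
  unfold w2
  nlinarith [sz_nonneg n]

lemma w2_add (a b : I) : w2 (a + b) ≤ w2 a * w2 b := by
  unfold w2
  rw [← mul_pow]
  apply pow_le_pow_left₀ (by linarith [sz_nonneg (a + b)])
  nlinarith [sz_add a b, mul_nonneg (sz_nonneg a) (sz_nonneg b)]

/-- admissible auxiliary weights -/
structure Adm (u : I → ℝ) : Prop where
  one_le : ∀ n, 1 ≤ u n
  sub : ∀ a b, u (a + b) ≤ u a * u b

lemma Adm.pos {u : I → ℝ} (hu : Adm u) (n : I) : 0 < u n :=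
  lt_of_lt_of_le one_pos (hu.one_le n)

lemma adm_one : Adm (fun _ => (1 : ℝ)) := ⟨fun _ => le_rfl, fun _ _ => by simp⟩

/-- weighted norm -/
def Nw (u : I → ℝ) (c : I → ℂ) : ℝ≥0∞ := ∑' n, ENNReal.ofReal (w2 n * u n) * ‖c n‖ₑ

/-- `c` has weighted norm at most `a` -/
def Bd (u : I → ℝ) (c : I → ℂ) (a : ℝ) : Prop := Nw u c ≤ ENNReal.ofReal a

lemma Bd.mono {u : I → ℝ} {c : I → ℂ} {a b : ℝ} (h : Bd u c a) (hab : a ≤ b) : Bd u c b :=
  le_trans h (ENNReal.ofReal_le_ofReal hab)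

lemma Bd.zero (u : I → ℝ) {a : ℝ} : Bd u 0 a := by simp [Bd, Nw]

lemma Bd.add {u : I → ℝ} {c d : I → ℂ} {a b : ℝ} (hc : Bd u c a) (hd : Bd u d b)
    (ha : 0 ≤ a) (hb : 0 ≤ b) : Bd u (c + d) (a + b) := by
  rw [Bd, ENNReal.ofReal_add ha hb]
  refine le_trans ?_ (add_le_add hc hd)
  rw [Nw, Nw, Nw, ← ENNReal.tsum_add]
  refine ENNReal.tsum_le_tsum fun n => ?_
  rw [← mul_add]
  exact mul_le_mul le_rfl (enorm_add_le _ _) zero_le zero_le

lemma Bd.neg {u : I → ℝ} {c : I → ℂ} {a : ℝ} (hc : Bd u c a) : Bd u (-c) a := by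
  simpa [Bd, Nw] using hc

lemma Bd.sub {u : I → ℝ} {c d : I → ℂ} {a b : ℝ} (hc : Bd u c a) (hd : Bd u d b)
    (ha : 0 ≤ a) (hb : 0 ≤ b) : Bd u (c - d) (a + b) := by
  rw [sub_eq_add_neg]
  exact hc.add hd.neg ha hb

lemma Bd.mu {u : I → ℝ} {c m : I → ℂ} {a C : ℝ} (hc : Bd u c a) (hC : 0 ≤ C)
    (hm : ∀ n, ‖m n‖ ≤ C) : Bd u (Mu m c) (C * a) := by
  rw [Bd, ENNReal.ofReal_mul hC]
  refine le_trans ?_ (mul_le_mul le_rfl hc zero_le zero_le)
  rw [Nw, Nw, ← ENNReal.tsum_mul_left]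
  refine ENNReal.tsum_le_tsum fun n => ?_
  rw [Mu, enorm_mul, ← ofReal_norm (m n)]
  calc ENNReal.ofReal (w2 n * u n) * (ENNReal.ofReal ‖m n‖ * ‖c n‖ₑ)
      ≤ ENNReal.ofReal (w2 n * u n) * (ENNReal.ofReal C * ‖c n‖ₑ) := by
        gcongr
        exact hm n
    _ = _ := by ring

lemma Bd.smul {u : I → ℝ} {c : I → ℂ} {a : ℝ} (z : ℂ) (hc : Bd u c a) :
    Bd u (z • c) (‖z‖ * a) := by
  have : z • c = Mu (fun _ => z) c := by funext n; simp [Mu]
  rw [this]
  exact hc.mu (norm_nonneg _) fun _ => le_rfl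

/-- one term is dominated by the norm -/
lemma Bd.term_le {u : I → ℝ} (hu : Adm u) {c : I → ℂ} {a : ℝ} (hc : Bd u c a) (ha : 0 ≤ a)
    (n : I) : w2 n * u n * ‖c n‖ ≤ a := by
  have h := (ENNReal.le_tsum n).trans hc
  rw [← ofReal_norm (c n), ← ENNReal.ofReal_mul (mul_nonneg (w2_pos n).le (hu.pos n).le)] at h
  exact (ENNReal.ofReal_le_ofReal_iff ha).1 h

lemma summable_of_tsum_ofReal {α : Type*} {f : α → ℝ} (hf : ∀ a, 0 ≤ f a)
    (h : ∑' a, ENNReal.ofReal (f a) ≠ ⊤) : Summable f := by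
  have := ENNReal.summable_toReal h
  simpa [ENNReal.toReal_ofReal, hf] using this

lemma Bd.summable {u : I → ℝ} (hu : Adm u) {c : I → ℂ} {a : ℝ} (hc : Bd u c a) :
    Summable fun n => w2 n * u n * ‖c n‖ := by
  refine summable_of_tsum_ofReal
    (fun n => mul_nonneg (mul_nonneg (w2_pos n).le (hu.pos n).le) (norm_nonneg _)) ?_
  have : ∀ n, ENNReal.ofReal (w2 n * u n * ‖c n‖) = ENNReal.ofReal (w2 n * u n) * ‖c n‖ₑ :=
    fun n => by rw [ENNReal.ofReal_mul (mul_nonneg (w2_pos n).le (hu.pos n).le), ofReal_norm]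
  simp only [this]
  exact ne_top_of_le_ne_top ENNReal.ofReal_ne_top hc

lemma Bd.tsum_le {u : I → ℝ} (hu : Adm u) {c : I → ℂ} {a : ℝ} (hc : Bd u c a) (ha : 0 ≤ a) :
    ∑' n, w2 n * u n * ‖c n‖ ≤ a := by
  have h := hc.summable hu
  refine (ENNReal.ofReal_le_ofReal_iff ha).1 ?_
  rw [ENNReal.ofReal_tsum_of_nonneg
    (fun n => mul_nonneg (mul_nonneg (w2_pos n).le (hu.pos n).le) (norm_nonneg _)) h]
  refine le_trans (le_of_eq (tsum_congr fun n => ?_)) hc
  rw [ENNReal.ofReal_mul (mul_nonneg (w2_pos n).le (hu.pos n).le), ofReal_norm]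

lemma Bd.s1 {u : I → ℝ} (hu : Adm u) {c : I → ℂ} {a : ℝ} (hc : Bd u c a) : S1 c := by
  refine Summable.of_nonneg_of_le (fun _ => norm_nonneg _) (fun n => ?_) (hc.summable hu)
  calc ‖c n‖ = 1 * 1 * ‖c n‖ := by ring
    _ ≤ _ := by
      gcongr
      · exact (w2_pos n).le
      · exact one_le_w2 n
      · exact hu.one_le n

lemma Bd.s1D {u : I → ℝ} (hu : Adm u) {c : I → ℂ} {a : ℝ} (hc : Bd u c a) (j : Fin 2) :
    S1 (D j c) := by
  refine Summable.of_nonneg_of_le (fun _ => norm_nonneg _) (fun n => ?_)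
    ((hc.summable hu).mul_left (2 * Real.pi))
  rw [D, Mu, norm_mul, norm_dm]
  have h1 : |(n j : ℝ)| ≤ w2 n * u n :=
    le_trans ((abs_le_sz n j).trans (sz_le_w2 n))
      (le_mul_of_one_le_right (w2_pos n).le (hu.one_le n))
  calc 2 * Real.pi * |(n j : ℝ)| * ‖c n‖ ≤ 2 * Real.pi * (w2 n * u n) * ‖c n‖ := by gcongr
    _ = _ := by ring

lemma Bd.norm_ev_le {u : I → ℝ} (hu : Adm u) {c : I → ℂ} {a : ℝ} (hc : Bd u c a) (ha : 0 ≤ a)
    (x : V) : ‖ev c x‖ ≤ a := by
  refine (P205.norm_ev_le (hc.s1 hu) x).trans (le_trans ?_ (hc.tsum_le hu ha))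
  refine Summable.tsum_le_tsum (fun n => ?_) (hc.s1 hu).norm (hc.summable hu)
  calc ‖c n‖ = 1 * 1 * ‖c n‖ := by ring
    _ ≤ _ := by
      gcongr
      · exact (w2_pos n).le
      · exact one_le_w2 n
      · exact hu.one_le n

/-- bilinear Fourier operator -/
def Bil (K : I → I → ℂ) (c p : I → ℂ) : I → ℂ := fun n => ∑' l, K l (n - l) * c l * p (n - l)

/-- product -/
def mul (c p : I → ℂ) : I → ℂ := Bil (fun _ _ => 1) c p

/-- kernel bound -/
def KBd (K : I → I → ℂ) (C : ℝ) : Prop := ∀ l q, w2 (l + q) * ‖K l q‖ ≤ C * w2 l * w2 q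

lemma nw_bil_aux {u : I → ℝ} (hu : Adm u) {K : I → I → ℂ} {C : ℝ} (hC : 0 ≤ C) (hK : KBd K C)
    (c p : I → ℂ) :
    ∑' n, ∑' l, ENNReal.ofReal (w2 n * u n) * ‖K l (n - l) * c l * p (n - l)‖ₑ
      ≤ ENNReal.ofReal C * Nw u c * Nw u p := by
  calc ∑' n, ∑' l, ENNReal.ofReal (w2 n * u n) * ‖K l (n - l) * c l * p (n - l)‖ₑ
      ≤ ∑' n, ∑' l, ENNReal.ofReal C * ((ENNReal.ofReal (w2 l * u l) * ‖c l‖ₑ) *
          (ENNReal.ofReal (w2 (n - l) * u (n - l)) * ‖p (n - l)‖ₑ)) := by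
        refine ENNReal.tsum_le_tsum fun n => ENNReal.tsum_le_tsum fun l => ?_
        have key : w2 n * u n * ‖K l (n - l)‖ ≤
            C * (w2 l * u l) * (w2 (n - l) * u (n - l)) := by
          have h1 := hK l (n - l)
          have h2 := hu.sub l (n - l)
          rw [add_sub_cancel] at h1 h2
          calc w2 n * u n * ‖K l (n - l)‖ = (w2 n * ‖K l (n - l)‖) * u n := by ring
            _ ≤ (C * w2 l * w2 (n - l)) * (u l * u (n - l)) :=
              mul_le_mul h1 h2 (hu.pos n).le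
                (mul_nonneg (mul_nonneg hC (w2_pos _).le) (w2_pos _).le)
            _ = _ := by ring
        have key' := ENNReal.ofReal_le_ofReal key
        rw [ENNReal.ofReal_mul (mul_nonneg (w2_pos n).le (hu.pos n).le),
          ENNReal.ofReal_mul (mul_nonneg hC (mul_nonneg (w2_pos _).le (hu.pos _).le)),
          ENNReal.ofReal_mul hC, ofReal_norm] at key'
        rw [enorm_mul, enorm_mul]
        calc ENNReal.ofReal (w2 n * u n) * (‖K l (n - l)‖ₑ * ‖c l‖ₑ * ‖p (n - l)‖ₑ)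
            = (ENNReal.ofReal (w2 n * u n) * ‖K l (n - l)‖ₑ) * (‖c l‖ₑ * ‖p (n - l)‖ₑ) := by ring
          _ ≤ (ENNReal.ofReal C * ENNReal.ofReal (w2 l * u l) *
                ENNReal.ofReal (w2 (n - l) * u (n - l))) * (‖c l‖ₑ * ‖p (n - l)‖ₑ) :=
              mul_le_mul key' le_rfl zero_le zero_le
          _ = _ := by ring
    _ = ENNReal.ofReal C * Nw u c * Nw u p := by
      rw [ENNReal.tsum_comm]
      simp only [ENNReal.tsum_mul_left]
      have : ∀ l : I, ∑' n, ENNReal.ofReal (w2 (n - l) * u (n - l)) * ‖p (n - l)‖ₑ = Nw u p :=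
        fun l => (Equiv.subRight l).tsum_eq fun q => ENNReal.ofReal (w2 q * u q) * ‖p q‖ₑ
      simp only [this, ENNReal.tsum_mul_right]
      rw [Nw, Nw]
      ring

lemma Bd.bil {u : I → ℝ} (hu : Adm u) {K : I → I → ℂ} {C : ℝ} (hC : 0 ≤ C) (hK : KBd K C)
    {c p : I → ℂ} {a b : ℝ} (hc : Bd u c a) (hp : Bd u p b) (ha : 0 ≤ a) :
    Bd u (Bil K c p) (C * a * b) := by
  rw [Bd, ENNReal.ofReal_mul (mul_nonneg hC ha), ENNReal.ofReal_mul hC]
  refine le_trans ?_ (mul_le_mul (mul_le_mul le_rfl hc zero_le zero_le) hp zero_le zero_le)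
  refine le_trans ?_ (nw_bil_aux hu hC hK c p)
  refine ENNReal.tsum_le_tsum fun n => ?_
  rw [ENNReal.tsum_mul_left]
  exact mul_le_mul le_rfl enorm_tsum_le_tsum_enorm zero_le zero_le

lemma summable_bil {u : I → ℝ} (hu : Adm u) {K : I → I → ℂ} {C : ℝ} (hC : 0 ≤ C) (hK : KBd K C)
    {c p : I → ℂ} {a b : ℝ} (hc : Bd u c a) (hp : Bd u p b) (n : I) :
    Summable fun l => K l (n - l) * c l * p (n - l) := by
  have h1 : ENNReal.ofReal C * Nw u c * Nw u p ≠ ⊤ :=
    ENNReal.mul_ne_top (ENNReal.mul_ne_top ENNReal.ofReal_ne_top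
      (ne_top_of_le_ne_top ENNReal.ofReal_ne_top hc)) (ne_top_of_le_ne_top ENNReal.ofReal_ne_top hp)
  have h2 := ne_top_of_le_ne_top h1 ((ENNReal.le_tsum n).trans (nw_bil_aux hu hC hK c p))
  rw [ENNReal.tsum_mul_left] at h2
  refine Summable.of_norm (summable_of_tsum_ofReal (fun _ => norm_nonneg _) ?_)
  simp only [ofReal_norm]
  intro htop
  apply h2
  rw [htop, ENNReal.mul_top]
  simp [(mul_pos (w2_pos n) (hu.pos n))]

lemma summable_bil_bdd {c p : I → ℂ} (hc : S1 c) (hp : S1 p) (z : ℂ) (n : I) :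
    Summable fun l => z * c l * p (n - l) := by
  refine Summable.of_norm_bounded (g := fun l => ‖z‖ * ‖c l‖ * ∑' q, ‖p q‖)
    ((Summable.mul_left ‖z‖ hc).mul_right _) fun l => ?_
  rw [norm_mul, norm_mul]
  exact mul_le_mul_of_nonneg_left (Summable.le_tsum (f := fun q => ‖p q‖) hp (n - l)
    fun _ _ => norm_nonneg _) (mul_nonneg (norm_nonneg _) (norm_nonneg _))

lemma mul_apply (c p : I → ℂ) (n : I) : mul c p n = ∑' l, c l * p (n - l) := by simp [mul, Bil]

lemma hasSum_mul {c p : I → ℂ} (hc : S1 c) (hp : S1 p) :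
    S1 (mul c p) ∧ ∀ x, ev (mul c p) x = ev c x * ev p x := by
  have hN : Summable fun z : I × I => ‖c z.1‖ * ‖p z.2‖ :=
    Summable.mul_of_nonneg hc hp (fun _ => norm_nonneg _) (fun _ => norm_nonneg _)
  let φ : I × I ≃ I × I :=
    { toFun := fun z => (z.2, z.1 - z.2)
      invFun := fun z => (z.1 + z.2, z.1)
      left_inv := fun z => by simp
      right_inv := fun z => by simp }
  have hN' : Summable fun z : I × I => ‖c z.2‖ * ‖p (z.1 - z.2)‖ := (Equiv.summable_iff φ (f := fun z : I × I => ‖c z.1‖ * ‖p z.2‖)).2 hN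
  constructor
  · refine Summable.of_nonneg_of_le (fun _ => norm_nonneg _) (fun n => ?_)
      hN'.prod
    rw [mul_apply]
    refine (norm_tsum_le_tsum_norm ?_).trans (le_of_eq ?_)
    · simp only [norm_mul]
      exact hN'.prod_factor n
    · simp [norm_mul]
  · intro x
    have hS : Summable fun z : I × I => (c z.1 * e z.1 x) * (p z.2 * e z.2 x) :=
      Summable.of_norm (by simpa [norm_e] using hN)
    have h2 : HasSum (fun z : I × I => (c z.1 * e z.1 x) * (p z.2 * e z.2 x))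
        (ev c x * ev p x) :=
      HasSum.mul (f := fun l => c l * e l x) (g := fun q => p q * e q x)
        (s := ev c x) (t := ev p x) (hc.summable_mul_e x).hasSum (hp.summable_mul_e x).hasSum hS
    have h3 : HasSum (fun z : I × I => (c z.2 * e z.2 x) * (p (z.1 - z.2) * e (z.1 - z.2) x))
        (ev c x * ev p x) :=
      (Equiv.hasSum_iff φ (f := fun z : I × I => (c z.1 * e z.1 x) * (p z.2 * e z.2 x))).2 h2
    have h4 := h3.prod_fiberwise (g := fun n => mul c p n * e n x) fun n => by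
      have heq : ∀ l : I, (c l * e l x) * (p (n - l) * e (n - l) x)
          = c l * p (n - l) * e n x := fun l => by
        conv_rhs => rw [show n = l + (n - l) by abel, e_add]
        simp
        ring
      simp only [heq, mul_apply]
      refine (Summable.hasSum ?_).mul_right _
      simpa using summable_bil_bdd hc hp 1 n
    exact h4.tsum_eq

lemma S1.mul {c p : I → ℂ} (hc : S1 c) (hp : S1 p) : S1 (P205.mul c p) := (hasSum_mul hc hp).1

lemma ev_mul {c p : I → ℂ} (hc : S1 c) (hp : S1 p) (x : V) :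
    ev (mul c p) x = ev c x * ev p x := (hasSum_mul hc hp).2 x

lemma mul_comm' (c p : I → ℂ) : mul c p = mul p c := by
  funext n
  rw [mul_apply, mul_apply, ← (Equiv.subLeft n).tsum_eq]
  refine tsum_congr fun l => ?_
  simp [mul_comm]

lemma kbd_one : KBd (fun _ _ => (1 : ℂ)) 1 := fun l q => by simpa using w2_add l q

lemma Bd.mul {u : I → ℝ} (hu : Adm u) {c p : I → ℂ} {a b : ℝ} (hc : Bd u c a) (hp : Bd u p b)
    (ha : 0 ≤ a) : Bd u (P205.mul c p) (a * b) := by
  simpa [P205.mul] using hc.bil hu zero_le_one kbd_one hp ha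

lemma D_mul {c p : I → ℂ} (hc : S1 c) (hp : S1 p) (j : Fin 2) (hdc : S1 (D j c))
    (hdp : S1 (D j p)) : D j (mul c p) = mul (D j c) p + mul c (D j p) := by
  funext n
  simp only [D, Mu, Pi.add_apply, mul_apply]
  have h1 : Summable fun l => dm j l * c l * p (n - l) := by
    simpa [D, Mu] using summable_bil_bdd hdc hp 1 n
  have h2 : Summable fun l => c l * (dm j (n - l) * p (n - l)) := by
    simpa [D, Mu] using summable_bil_bdd hc hdp 1 n
  rw [← tsum_mul_left, ← Summable.tsum_add h1 h2]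
  refine tsum_congr fun l => ?_
  simp [dm]
  ring

/-- bilinearity -/
lemma bil_sub_left {u : I → ℝ} (hu : Adm u) {K : I → I → ℂ} {C : ℝ} (hC : 0 ≤ C) (hK : KBd K C)
    {c c' p : I → ℂ} {a a' b : ℝ} (hc : Bd u c a) (hc' : Bd u c' a') (hp : Bd u p b) :
    Bil K c p - Bil K c' p = Bil K (c - c') p := by
  funext n
  simp only [Pi.sub_apply, Bil]
  rw [← Summable.tsum_sub (summable_bil hu hC hK hc hp n) (summable_bil hu hC hK hc' hp n)]
  refine tsum_congr fun l => ?_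
  ring

lemma bil_sub_right {u : I → ℝ} (hu : Adm u) {K : I → I → ℂ} {C : ℝ} (hC : 0 ≤ C) (hK : KBd K C)
    {c p p' : I → ℂ} {a b b' : ℝ} (hc : Bd u c a) (hp : Bd u p b) (hp' : Bd u p' b') :
    Bil K c p - Bil K c p' = Bil K c (p - p') := by
  funext n
  simp only [Pi.sub_apply, Bil]
  rw [← Summable.tsum_sub (summable_bil hu hC hK hc hp n) (summable_bil hu hC hK hc hp' n)]
  refine tsum_congr fun l => ?_
  ring

lemma Herm.bil {K : I → I → ℂ} (hK : ∀ l q, K (-l) (-q) = conj (K l q)) {c p : I → ℂ}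
    (hc : Herm c) (hp : Herm p) : Herm (Bil K c p) := by
  intro n
  simp only [Bil]
  rw [Complex.conj_tsum, ← (Equiv.neg I).tsum_eq]
  refine tsum_congr fun l => ?_
  simp only [Equiv.neg_apply, map_mul]
  rw [show -n - -l = -(n - l) by abel, hK, hc, hp]

lemma Herm.mul {c p : I → ℂ} (hc : Herm c) (hp : Herm p) : Herm (P205.mul c p) :=
  Herm.bil (fun _ _ => by simp) hc hp

/-! ### the two decompositions -/

/-- `T` kernel -/
def KT (l q : I) : ℂ := if sz l < sz q then 1 else 0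
/-- `R1` kernel -/
def KR1 (j : Fin 2) (l q : I) : ℂ := if sz l < sz q then -dm j l else dm j q
/-- `A` kernel -/
def KA (j : Fin 2) (a b : I) : ℂ :=
  if sz b < sz a then dm j b / 2 else if sz a < sz b then dm j a / 2
  else (dm j a + dm j b) / 4
/-- `R2` kernel -/
def KR2 (j k : Fin 2) (a b : I) : ℂ :=
  if sz b < sz a then -(dm j b * dm k b) else if sz a < sz b then -(dm j a * dm k a)
  else -(dm j a * dm k a + dm j b * dm k b) / 2

lemma norm_dm_le (j : Fin 2) (n : I) : ‖dm j n‖ ≤ 2 * Real.pi * sz n := by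
  rw [norm_dm]
  gcongr
  exact abs_le_sz n j

lemma kbd_T : KBd KT 1 := fun l q => by
  rw [KT]
  split_ifs with h
  · simpa using w2_add l q
  · simpa using mul_nonneg (w2_pos l).le (w2_pos q).le

lemma w2_le_of_le {l q : I} (h : sz l ≤ sz q) : w2 (l + q) ≤ 4 * w2 q := by
  unfold w2
  have h1 := sz_add l q
  have h2 := sz_nonneg (l + q)
  have h3 := sz_nonneg q
  calc (1 + sz (l + q)) ^ 2 ≤ (2 * (1 + sz q)) ^ 2 := pow_le_pow_left₀ (by linarith) (by linarith) 2
    _ = _ := by ring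

lemma sz_sq_le (n : I) : sz n * sz n ≤ w2 n := by
  unfold w2; nlinarith [sz_nonneg n]

lemma key1 {l q : I} (h : sz l ≤ sz q) {z : ℂ} {s : ℝ} (hz : ‖z‖ ≤ s) (hs : s ≤ 64 * w2 l) :
    w2 (l + q) * ‖z‖ ≤ 256 * w2 l * w2 q := by
  calc w2 (l + q) * ‖z‖ ≤ (4 * w2 q) * (64 * w2 l) :=
        mul_le_mul (w2_le_of_le h) (hz.trans hs) (norm_nonneg _)
          (by linarith [w2_pos q])
    _ = _ := by ring

lemma key2 {l q : I} (h : sz q ≤ sz l) {z : ℂ} {s : ℝ} (hz : ‖z‖ ≤ s) (hs : s ≤ 64 * w2 q) :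
    w2 (l + q) * ‖z‖ ≤ 256 * w2 l * w2 q := by
  have := key1 h hz hs
  rw [add_comm] at this
  linarith [this]

lemma dm_bound1 (n : I) : 2 * Real.pi * sz n ≤ 64 * w2 n := by
  nlinarith [Real.pi_le_four, Real.pi_pos, sz_le_w2 n, sz_nonneg n]

lemma norm_dm_dm_le (j k : Fin 2) (n : I) : ‖dm j n * dm k n‖ ≤ 64 * w2 n := by
  rw [norm_mul]
  calc ‖dm j n‖ * ‖dm k n‖ ≤ (2 * Real.pi * sz n) * (2 * Real.pi * sz n) :=
        mul_le_mul (norm_dm_le j n) (norm_dm_le k n) (norm_nonneg _)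
          (by have := sz_nonneg n; positivity)
    _ = (4 * Real.pi ^ 2) * (sz n * sz n) := by ring
    _ ≤ 64 * w2 n := mul_le_mul (by nlinarith [Real.pi_le_four, Real.pi_pos]) (sz_sq_le n)
        (mul_self_nonneg _) (by norm_num)

lemma kbd_R1 (j : Fin 2) : KBd (KR1 j) 256 := fun l q => by
  rw [KR1]
  split_ifs with h
  · rw [norm_neg]
    exact key1 h.le (norm_dm_le j l) (dm_bound1 l)
  · exact key2 (not_lt.1 h) (norm_dm_le j q) (dm_bound1 q)

lemma kbd_A (j : Fin 2) : KBd (KA j) 256 := fun a b => by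
  rw [KA]
  split_ifs with h h'
  · refine key2 h.le (s := 2 * Real.pi * sz b) ?_ (dm_bound1 b)
    rw [norm_div, Complex.norm_ofNat]
    linarith [norm_dm_le j b, norm_nonneg (dm j b)]
  · refine key1 h'.le (s := 2 * Real.pi * sz a) ?_ (dm_bound1 a)
    rw [norm_div, Complex.norm_ofNat]
    linarith [norm_dm_le j a, norm_nonneg (dm j a)]
  · have he : sz a = sz b := le_antisymm (not_lt.1 h) (not_lt.1 h')
    refine key1 he.le (s := 2 * Real.pi * sz a) ?_ (dm_bound1 a)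
    rw [norm_div, Complex.norm_ofNat]
    have hb := norm_dm_le j b
    rw [← he] at hb
    linarith [norm_add_le (dm j a) (dm j b), norm_dm_le j a, norm_nonneg (dm j a)]

lemma kbd_R2 (j k : Fin 2) : KBd (KR2 j k) 256 := fun a b => by
  rw [KR2]
  split_ifs with h h'
  · rw [norm_neg]
    exact key2 h.le (norm_dm_dm_le j k b) le_rfl
  · rw [norm_neg]
    exact key1 h'.le (norm_dm_dm_le j k a) le_rfl
  · have he : sz a = sz b := le_antisymm (not_lt.1 h) (not_lt.1 h')
    refine key1 he.le (s := 64 * w2 a) ?_ le_rfl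
    have hw : w2 b = w2 a := by rw [w2, w2, he]
    rw [norm_div, norm_neg, Complex.norm_ofNat]
    have h1 := norm_dm_dm_le j k b
    rw [hw] at h1
    linarith [norm_add_le (dm j a * dm k a) (dm j b * dm k b), norm_dm_dm_le j k a]

lemma dm_add (j : Fin 2) (a b : I) : dm j (a + b) = dm j a + dm j b := by
  simp [dm]; ring

/-- first decomposition -/
lemma decomp1 {u : I → ℝ} (hu : Adm u) {c p : I → ℂ} {a b : ℝ} (hc : Bd u c a) (hp : Bd u p b)
    (j : Fin 2) : mul c (D j p) = D j (Bil KT c p) + Bil (KR1 j) c p := by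
  funext n
  simp only [mul_apply, D, Mu, Pi.add_apply, Bil]
  rw [← tsum_mul_left, ← Summable.tsum_add ((summable_bil hu zero_le_one kbd_T hc hp n).mul_left _)
    (summable_bil hu (by norm_num) (kbd_R1 j) hc hp n)]
  refine tsum_congr fun l => ?_
  have hn : dm j n = dm j l + dm j (n - l) := by rw [← dm_add, add_sub_cancel]
  rw [hn, KT, KR1]
  split_ifs with h <;> ring

/-- second decomposition, for equal arguments -/
lemma decomp2 {u : I → ℝ} (hu : Adm u) {p : I → ℂ} {b : ℝ} (hp : Bd u p b) (j k : Fin 2) :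
    mul (D j p) (D k p) =
      D j (Bil (KA k) p p) + D k (Bil (KA j) p p) + Bil (KR2 j k) p p := by
  have hs := fun i => hp.s1D hu i
  funext n
  have hsym : mul (D j p) (D k p) n =
      ∑' l, (dm j l * dm k (n - l) + dm k l * dm j (n - l)) / 2 * p l * p (n - l) := by
    have h1 : Summable fun l => D j p l * D k p (n - l) := by
      simpa using summable_bil_bdd (hs j) (hs k) 1 n
    have h2 : Summable fun l => D k p l * D j p (n - l) := by
      simpa using summable_bil_bdd (hs k) (hs j) 1 n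
    have h3 : mul (D j p) (D k p) n = (mul (D j p) (D k p) n + mul (D k p) (D j p) n) / 2 := by
      rw [mul_comm' (D k p)]
      ring
    rw [h3, mul_apply, mul_apply, ← Summable.tsum_add h1 h2, ← tsum_div_const]
    refine tsum_congr fun l => ?_
    simp [D, Mu]
    ring
  rw [hsym]
  simp only [D, Mu, Pi.add_apply, Bil]
  rw [← tsum_mul_left, ← tsum_mul_left,
    ← Summable.tsum_add ((summable_bil hu (by norm_num) (kbd_A k) hp hp n).mul_left _)
      ((summable_bil hu (by norm_num) (kbd_A j) hp hp n).mul_left _),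
    ← Summable.tsum_add (((summable_bil hu (by norm_num) (kbd_A k) hp hp n).mul_left _).add
      ((summable_bil hu (by norm_num) (kbd_A j) hp hp n).mul_left _))
      (summable_bil hu (by norm_num) (kbd_R2 j k) hp hp n)]
  refine tsum_congr fun l => ?_
  have hn : ∀ i, dm i n = dm i l + dm i (n - l) := fun i => by rw [← dm_add, add_sub_cancel]
  rw [hn j, hn k, KA, KA, KR2]
  split_ifs with h h' <;> ring

lemma herm_KT (l q : I) : KT (-l) (-q) = conj (KT l q) := by
  simp only [KT, sz_neg]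
  split_ifs <;> simp

lemma herm_KR1 (j : Fin 2) (l q : I) : KR1 j (-l) (-q) = conj (KR1 j l q) := by
  simp only [KR1, sz_neg]
  split_ifs <;> simp [dm_neg]

lemma herm_KA (j : Fin 2) (l q : I) : KA j (-l) (-q) = conj (KA j l q) := by
  simp only [KA, sz_neg]
  split_ifs <;> simp [dm_neg, map_ofNat]

lemma herm_KR2 (j k : Fin 2) (l q : I) : KR2 j k (-l) (-q) = conj (KR2 j k l q) := by
  simp only [KR2, sz_neg]
  split_ifs <;> simp [dm_neg, map_ofNat]

end Vale.Agent.P205
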