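import Vale.Agent.P205.Bil

/-!
# Orders of smallness of nonlinear maps in the weighted algebras
-/

noncomputable section

namespace Vale.Agent.P205

/-- states of the iteration -/
abbrev St := Fin 5 → I → ℂ

/-- ball of radius `r` -/
def Ball (u : I → ℝ) (r : ℝ) (Z : St) : Prop := ∀ i, Bd u (Z i) r

/-- `F` is bounded by `a` and `L`-Lipschitz on the ball of radius `r` -/
def Ok (u : I → ℝ) (r a L : ℝ) (F : St → I → ℂ) : Prop :=
  (∀ Z, Ball u r Z → Bd u (F Z) a) ∧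
  ∀ Z Z' d, 0 ≤ d → Ball u r Z → Ball u r Z' → Ball u d (Z - Z') → Bd u (F Z - F Z') (L * d)

lemma Ok.mono {u : I → ℝ} {r a L a' L' : ℝ} {F : St → I → ℂ} (h : Ok u r a L F) (ha : a ≤ a')
    (hL : L ≤ L') : Ok u r a' L' F :=
  ⟨fun Z hZ => (h.1 Z hZ).mono ha, fun Z Z' d hd hZ hZ' hdd =>
    (h.2 Z Z' d hd hZ hZ' hdd).mono (mul_le_mul_of_nonneg_right hL hd)⟩

lemma Ok.add {u : I → ℝ} {r a L a' L' : ℝ} {F G : St → I → ℂ} (hF : Ok u r a L F)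
    (hG : Ok u r a' L' G) (ha : 0 ≤ a) (hL : 0 ≤ L) (ha' : 0 ≤ a') (hL' : 0 ≤ L') :
    Ok u r (a + a') (L + L') (fun Z => F Z + G Z) := by
  refine ⟨fun Z hZ => (hF.1 Z hZ).add (hG.1 Z hZ) ha ha', fun Z Z' d hd hZ hZ' hdd => ?_⟩
  rw [show F Z + G Z - (F Z' + G Z') = (F Z - F Z') + (G Z - G Z') by abel, add_mul]
  exact (hF.2 Z Z' d hd hZ hZ' hdd).add (hG.2 Z Z' d hd hZ hZ' hdd) (mul_nonneg hL hd)
    (mul_nonneg hL' hd)

lemma Ok.neg {u : I → ℝ} {r a L : ℝ} {F : St → I → ℂ} (hF : Ok u r a L F) :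
    Ok u r a L (fun Z => -F Z) := by
  refine ⟨fun Z hZ => (hF.1 Z hZ).neg, fun Z Z' d hd hZ hZ' hdd => ?_⟩
  rw [show -F Z - -F Z' = -(F Z - F Z') by abel]
  exact (hF.2 Z Z' d hd hZ hZ' hdd).neg

lemma Ok.mu {u : I → ℝ} {r a L : ℝ} {F : St → I → ℂ} (hF : Ok u r a L F) {m : I → ℂ} {C : ℝ}
    (hC : 0 ≤ C) (hm : ∀ n, ‖m n‖ ≤ C) : Ok u r (C * a) (C * L) (fun Z => Mu m (F Z)) := by
  refine ⟨fun Z hZ => (hF.1 Z hZ).mu hC hm, fun Z Z' d hd hZ hZ' hdd => ?_⟩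
  rw [show Mu m (F Z) - Mu m (F Z') = Mu m (F Z - F Z') by funext n; simp [Mu, mul_sub], mul_assoc]
  exact (hF.2 Z Z' d hd hZ hZ' hdd).mu hC hm

lemma Ok.smul {u : I → ℝ} {r a L : ℝ} {F : St → I → ℂ} (hF : Ok u r a L F) (z : ℂ) :
    Ok u r (‖z‖ * a) (‖z‖ * L) (fun Z => z • F Z) := by
  refine ⟨fun Z hZ => (hF.1 Z hZ).smul z, fun Z Z' d hd hZ hZ' hdd => ?_⟩
  rw [← smul_sub, mul_assoc]
  exact (hF.2 Z Z' d hd hZ hZ' hdd).smul z

lemma Ok.bil {u : I → ℝ} (hu : Adm u) {r a L a' L' : ℝ} {F G : St → I → ℂ} (hF : Ok u r a L F)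
    (hG : Ok u r a' L' G) (ha : 0 ≤ a) (hL : 0 ≤ L) (ha' : 0 ≤ a') (hL' : 0 ≤ L')
    {K : I → I → ℂ} {C : ℝ} (hC : 0 ≤ C) (hK : KBd K C) :
    Ok u r (C * a * a') (C * L * a' + C * a * L') (fun Z => Bil K (F Z) (G Z)) := by
  refine ⟨fun Z hZ => (hF.1 Z hZ).bil hu hC hK (hG.1 Z hZ) ha, fun Z Z' d hd hZ hZ' hdd => ?_⟩
  have hFd := hF.2 Z Z' d hd hZ hZ' hdd
  have hGd := hG.2 Z Z' d hd hZ hZ' hdd
  have e : Bil K (F Z) (G Z) - Bil K (F Z') (G Z') =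
      Bil K (F Z - F Z') (G Z) + Bil K (F Z') (G Z - G Z') := by
    rw [← bil_sub_left hu hC hK (hF.1 Z hZ) (hF.1 Z' hZ') (hG.1 Z hZ),
      ← bil_sub_right hu hC hK (hF.1 Z' hZ') (hG.1 Z hZ) (hG.1 Z' hZ')]
    abel
  rw [e, add_mul, show C * L * a' * d = C * (L * d) * a' by ring,
    show C * a * L' * d = C * a * (L' * d) by ring]
  exact (hFd.bil hu hC hK (hG.1 Z hZ) (mul_nonneg hL hd)).add
    ((hF.1 Z' hZ').bil hu hC hK hGd ha) (by positivity) (by positivity)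

variable {G : (I → ℝ) → Prop}

/-- `F = O(r^p)` uniformly over the weights in `G` -/
def Ord (G : (I → ℝ) → Prop) (p : ℕ) (F : St → I → ℂ) : Prop :=
  ∃ K : ℝ, 0 ≤ K ∧ ∀ u, G u → ∀ r : ℝ, 0 ≤ r → r ≤ 1 → Ok u r (K * r ^ p) (K * r ^ (p - 1)) F

lemma Ord.proj (i : Fin 5) : Ord G 1 (fun Z => Z i) :=
  ⟨1, zero_le_one, fun u _ r _ _ => ⟨fun Z hZ => by simpa using hZ i,
    fun Z Z' d _ _ _ hdd => by simpa using hdd i⟩⟩

lemma Ord.const {c : I → ℂ} {B : ℝ} (hB : 0 ≤ B) (hc : ∀ u, G u → Bd u c B) :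
    Ord G 0 (fun _ => c) :=
  ⟨B, hB, fun u hu r _ _ => ⟨fun Z _ => by simpa using hc u hu,
    fun Z Z' d hd _ _ _ => by simpa using Bd.zero u⟩⟩

lemma Ord.zero (p : ℕ) : Ord G p (fun _ => 0) :=
  ⟨0, le_rfl, fun u _ r _ _ => ⟨fun Z _ => Bd.zero u, fun Z Z' d _ _ _ _ => by
    simpa using Bd.zero u⟩⟩

lemma Ord.lower {p q : ℕ} {F : St → I → ℂ} (h : Ord G p F) (hqp : q ≤ p) : Ord G q F := by
  obtain ⟨K, hK, h⟩ := h
  exact ⟨K, hK, fun u hu r hr hr1 => (h u hu r hr hr1).mono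
    (mul_le_mul_of_nonneg_left (pow_le_pow_of_le_one hr hr1 hqp) hK)
    (mul_le_mul_of_nonneg_left (pow_le_pow_of_le_one hr hr1 (by omega)) hK)⟩

lemma Ord.add {p : ℕ} {F F' : St → I → ℂ} (h : Ord G p F) (h' : Ord G p F') :
    Ord G p (fun Z => F Z + F' Z) := by
  obtain ⟨K, hK, h⟩ := h
  obtain ⟨K', hK', h'⟩ := h'
  exact ⟨K + K', by positivity, fun u hu r hr hr1 =>
    ((h u hu r hr hr1).add (h' u hu r hr hr1) (by positivity) (by positivity) (by positivity)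
      (by positivity)).mono (le_of_eq (by ring)) (le_of_eq (by ring))⟩

lemma Ord.neg {p : ℕ} {F : St → I → ℂ} (h : Ord G p F) : Ord G p (fun Z => -F Z) := by
  obtain ⟨K, hK, h⟩ := h
  exact ⟨K, hK, fun u hu r hr hr1 => (h u hu r hr hr1).neg⟩

lemma Ord.mu {p : ℕ} {F : St → I → ℂ} (h : Ord G p F) {m : I → ℂ} {C : ℝ} (hC : 0 ≤ C)
    (hm : ∀ n, ‖m n‖ ≤ C) : Ord G p (fun Z => Mu m (F Z)) := by
  obtain ⟨K, hK, h⟩ := h
  exact ⟨C * K, mul_nonneg hC hK, fun u hu r hr hr1 =>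
    ((h u hu r hr hr1).mu hC hm).mono (le_of_eq (by ring)) (le_of_eq (by ring))⟩

lemma Ord.smul {p : ℕ} {F : St → I → ℂ} (h : Ord G p F) (z : ℂ) :
    Ord G p (fun Z => z • F Z) := by
  obtain ⟨K, hK, h⟩ := h
  exact ⟨‖z‖ * K, by positivity, fun u hu r hr hr1 =>
    ((h u hu r hr hr1).smul z).mono (le_of_eq (by ring)) (le_of_eq (by ring))⟩

lemma Ord.sum {ι : Type*} {p : ℕ} (s : Finset ι) {F : ι → St → I → ℂ}
    (h : ∀ i ∈ s, Ord G p (F i)) : Ord G p (fun Z => ∑ i ∈ s, F i Z) := by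
  classical
  induction s using Finset.induction_on with
  | empty => simpa using Ord.zero p
  | insert i s hi ih =>
    simp only [Finset.sum_insert hi]
    exact (h i (Finset.mem_insert_self i s)).add
      (ih fun j hj => h j (Finset.mem_insert_of_mem hj))

lemma Ord.bil (hG : ∀ u, G u → Adm u) {p q : ℕ} {F F' : St → I → ℂ} (h : Ord G p F)
    (h' : Ord G q F') {K : I → I → ℂ} {C : ℝ} (hC : 0 ≤ C) (hK : KBd K C) :
    Ord G (p + q) (fun Z => Bil K (F Z) (F' Z)) := by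
  obtain ⟨A, hA, h⟩ := h
  obtain ⟨A', hA', h'⟩ := h'
  refine ⟨2 * (C * A * A'), by positivity, fun u hu r hr hr1 =>
    ((h u hu r hr hr1).bil (hG u hu) (h' u hu r hr hr1) (by positivity) (by positivity)
      (by positivity) (by positivity) hC hK).mono ?_ ?_⟩
  · rw [pow_add]
    have : 0 ≤ C * (A * r ^ p) * (A' * r ^ q) := by positivity
    nlinarith
  · have h1 : r ^ (p - 1) * r ^ q ≤ r ^ (p + q - 1) := by
      rw [← pow_add]; exact pow_le_pow_of_le_one hr hr1 (by omega)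
    have h2 : r ^ p * r ^ (q - 1) ≤ r ^ (p + q - 1) := by
      rw [← pow_add]; exact pow_le_pow_of_le_one hr hr1 (by omega)
    calc C * (A * r ^ (p - 1)) * (A' * r ^ q) + C * (A * r ^ p) * (A' * r ^ (q - 1))
        = C * A * A' * (r ^ (p - 1) * r ^ q) + C * A * A' * (r ^ p * r ^ (q - 1)) := by ring
      _ ≤ C * A * A' * r ^ (p + q - 1) + C * A * A' * r ^ (p + q - 1) := by gcongr
      _ = _ := by ring

lemma Ord.mul (hG : ∀ u, G u → Adm u) {p q : ℕ} {F F' : St → I → ℂ} (h : Ord G p F)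
    (h' : Ord G q F') : Ord G (p + q) (fun Z => P205.mul (F Z) (F' Z)) :=
  h.bil hG h' zero_le_one kbd_one

lemma Ord.cmul (hG : ∀ u, G u → Adm u) {p : ℕ} {F : St → I → ℂ} (h : Ord G p F) {c : I → ℂ}
    {B : ℝ} (hB : 0 ≤ B) (hc : ∀ u, G u → Bd u c B) : Ord G p (fun Z => P205.mul c (F Z)) := by
  simpa using (Ord.const hB hc).mul hG h

lemma Ord.eval_smul (hG : ∀ u, G u → Adm u) (i : Fin 5) (n : I) {c : I → ℂ} {B : ℝ} (hB : 0 ≤ B)
    (hc : ∀ u, G u → Bd u c B) : Ord G 1 (fun Z => Z i n • c) := by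
  refine ⟨B, hB, fun u hu r hr _ => ?_⟩
  have key : ∀ (Z : St) (a : ℝ), 0 ≤ a → Ball u a Z → Bd u (Z i n • c) (a * B) := fun Z a ha hZ => by
    refine ((hc u hu).smul (Z i n)).mono (mul_le_mul_of_nonneg_right ?_ hB)
    refine le_trans ?_ ((hZ i).term_le (hG u hu) ha n)
    exact le_mul_of_one_le_left (norm_nonneg _)
      (one_le_mul_of_one_le_of_one_le (one_le_w2 n) ((hG u hu).one_le n))
  refine ⟨fun Z hZ => by simpa [mul_comm] using key Z r hr hZ, fun Z Z' d hd _ _ hdd => ?_⟩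
  have := key (Z - Z') d hd hdd
  simpa [sub_smul, mul_comm] using this

/-- `F ε = O(r² + ε)` -/
def P2 (G : (I → ℝ) → Prop) (F : ℝ → St → I → ℂ) : Prop :=
  ∃ K : ℝ, 0 ≤ K ∧ ∀ u, G u → ∀ r : ℝ, 0 ≤ r → r ≤ 1 → ∀ ε : ℝ, 0 ≤ ε →
    Ok u r (K * (r ^ 2 + ε)) (K * (r + ε)) (F ε)

lemma P2.of_ord {F : St → I → ℂ} (h : Ord G 2 F) : P2 G (fun _ => F) := by
  obtain ⟨K, hK, h⟩ := h
  exact ⟨K, hK, fun u hu r hr hr1 ε hε => (h u hu r hr hr1).mono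
    (mul_le_mul_of_nonneg_left (by linarith) hK)
    (mul_le_mul_of_nonneg_left (by norm_num; linarith) hK)⟩

lemma P2.eps {F : St → I → ℂ} (h : Ord G 0 F) : P2 G (fun ε Z => (ε : ℂ) • F Z) := by
  obtain ⟨K, hK, h⟩ := h
  refine ⟨K, hK, fun u hu r hr hr1 ε hε => ((h u hu r hr hr1).smul (ε : ℂ)).mono ?_ ?_⟩ <;>
  · rw [Complex.norm_real, Real.norm_eq_abs, abs_of_nonneg hε]
    simp
    nlinarith [mul_nonneg hK (sq_nonneg r), mul_nonneg hK hr]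

lemma P2.add {F F' : ℝ → St → I → ℂ} (h : P2 G F) (h' : P2 G F') :
    P2 G (fun ε Z => F ε Z + F' ε Z) := by
  obtain ⟨K, hK, h⟩ := h
  obtain ⟨K', hK', h'⟩ := h'
  exact ⟨K + K', by positivity, fun u hu r hr hr1 ε hε =>
    ((h u hu r hr hr1 ε hε).add (h' u hu r hr hr1 ε hε) (by positivity) (by positivity)
      (by positivity) (by positivity)).mono (le_of_eq (by ring)) (le_of_eq (by ring))⟩

lemma P2.neg {F : ℝ → St → I → ℂ} (h : P2 G F) : P2 G (fun ε Z => -F ε Z) := by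
  obtain ⟨K, hK, h⟩ := h
  exact ⟨K, hK, fun u hu r hr hr1 ε hε => (h u hu r hr hr1 ε hε).neg⟩

lemma P2.smul {F : ℝ → St → I → ℂ} (h : P2 G F) (z : ℂ) : P2 G (fun ε Z => z • F ε Z) := by
  obtain ⟨K, hK, h⟩ := h
  exact ⟨‖z‖ * K, by positivity, fun u hu r hr hr1 ε hε =>
    ((h u hu r hr hr1 ε hε).smul z).mono (le_of_eq (by ring)) (le_of_eq (by ring))⟩

lemma P2.cmul (hG : ∀ u, G u → Adm u) {F : ℝ → St → I → ℂ} (h : P2 G F) {c : I → ℂ} {B : ℝ}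
    (hB : 0 ≤ B) (hc : ∀ u, G u → Bd u c B) : P2 G (fun ε Z => P205.mul c (F ε Z)) := by
  obtain ⟨K, hK, h⟩ := h
  refine ⟨B * K, mul_nonneg hB hK, fun u hu r hr hr1 ε hε => ?_⟩
  have hc0 : Ok u r B 0 (fun _ => c) :=
    ⟨fun Z _ => hc u hu, fun Z Z' d _ _ _ _ => by simpa using Bd.zero u⟩
  exact (hc0.bil (hG u hu) (h u hu r hr hr1 ε hε) hB le_rfl (by positivity) (by positivity)
    zero_le_one kbd_one).mono (le_of_eq (by ring)) (le_of_eq (by ring))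

lemma P2.sum {ι : Type*} (s : Finset ι) {F : ι → ℝ → St → I → ℂ} (h : ∀ i ∈ s, P2 G (F i)) :
    P2 G (fun ε Z => ∑ i ∈ s, F i ε Z) := by
  classical
  induction s using Finset.induction_on with
  | empty => simpa using P2.of_ord (Ord.zero (G := G) 2)
  | insert i s hi ih =>
    simp only [Finset.sum_insert hi]
    exact (h i (Finset.mem_insert_self i s)).add
      (ih fun j hj => h j (Finset.mem_insert_of_mem hj))

/-- diagonal second order kernel evaluation helper -/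
lemma Ord.sum2 {p : ℕ} {F : Fin 2 → St → I → ℂ} (h : ∀ i, Ord G p (F i)) :
    Ord G p (fun Z => F 0 Z + F 1 Z) := (h 0).add (h 1)

end Vale.Agent.P205
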