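import Vale.Agent.P205.Beltrami

/-!
# The low frequency right inverse

For `r = r(X+Y)` non-constant and every frequency `n`: explicit rapidly decreasing `τ₀, τ₁` with
`∂₁τ₀ + r ∂₀τ₁ = eₙ`.
-/

noncomputable section

open scoped ComplexConjugate ContDiff
open MeasureTheory

namespace Vale.Agent.P205

/-- The measure on `ℝ / ℤ` (as in `Mathlib.Analysis.Fourier.AddCircleMulti`). -/
local instance : MeasureSpace UnitAddCircle := ⟨AddCircle.haarAddCircle⟩

local instance : IsProbabilityMeasure (volume : Measure UnitAddCircle) :=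
  inferInstanceAs (IsProbabilityMeasure AddCircle.haarAddCircle)

open UnitAddTorus

variable (rr : I → ℂ)

/-- variance -/
def Vr : ℝ := ∑' l : I, if l = 0 then 0 else ‖rr l‖ ^ 2

/-- second component -/
def tau1 (n : I) : I → ℂ :=
  if n 1 ≠ 0 then 0
  else if n 0 ≠ 0 then Pi.single n ((dm 0 n * rr 0)⁻¹)
  else fun k => if k = 0 then 0 else ((Vr rr : ℂ) * dm 0 k)⁻¹ * rr k

/-- first component -/
def tau0 (n : I) : I → ℂ :=
  Mu (fun k => (dm 1 k)⁻¹) (Pi.single n 1 - mul rr (D 0 (tau1 rr n)))

variable {rr}

lemma norm_dm_inv_le (j : Fin 2) (n : I) : ‖(dm j n)⁻¹‖ ≤ 1 := by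
  rcases eq_or_ne (n j) 0 with h | h
  · simp [dm, h]
  · rw [norm_inv, norm_dm]
    refine inv_le_one_of_one_le₀ ?_
    have h1 : (1 : ℝ) ≤ |(n j : ℝ)| := by exact_mod_cast Int.one_le_abs h
    nlinarith [Real.pi_gt_three]

lemma tau1_rapid (hr : Rapid rr) (n : I) : Rapid (tau1 rr n) := by
  unfold tau1
  split_ifs
  · exact Rapid.zero
  · exact Rapid.single _ _
  · have h := hr.mu (C := ‖((Vr rr : ℂ))⁻¹‖) (p := 0)
      (m := fun k => if k = 0 then 0 else ((Vr rr : ℂ) * dm 0 k)⁻¹) fun k => by
        split_ifs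
        · simp
        · rw [mul_inv, norm_mul, pow_zero, mul_one]
          exact mul_le_of_le_one_right (norm_nonneg _) (norm_dm_inv_le 0 k)
    convert h using 1
    funext k
    by_cases hk : k = 0 <;> simp [Mu, hk]

lemma tau0_rapid (hr : Rapid rr) (n : I) : Rapid (tau0 rr n) :=
  ((Rapid.single n 1).sub (hr.mul ((tau1_rapid hr n).D 0))).mu (C := 1) (p := 0)
    fun k => by simpa using norm_dm_inv_le 1 k

lemma diag_support {f : V → ℂ} (hs : ContDiff ℝ ∞ f) (hp : Periodic2 f)
    (hd : ∀ x, pd 0 f x = pd 1 f x) (k : I) (hk : k 0 ≠ k 1) : coef f k = 0 := by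
  have h : coef (pd 0 f) k = coef (pd 1 f) k := by rw [funext hd]
  rw [coef_pd hp hs, coef_pd hp hs] at h
  have h2 : (dm 0 k - dm 1 k) * coef f k = 0 := by rw [sub_mul, h, sub_self]
  refine (mul_eq_zero.1 h2).resolve_left fun h3 => hk ?_
  rw [sub_eq_zero, dm, dm] at h3
  have h4 := mul_right_cancel₀ Complex.I_ne_zero h3
  have h5 : (2 * Real.pi * (k 0 : ℝ)) = 2 * Real.pi * (k 1 : ℝ) := by exact_mod_cast h4
  exact_mod_cast mul_left_cancel₀ Real.two_pi_pos.ne' h5

lemma mul_single_apply (c : I → ℂ) (n k : I) (z : ℂ) :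
    mul c (Pi.single n z) k = c (k - n) * z := by
  rw [mul_apply, tsum_eq_single (k - n)]
  · simp
  · intro l hl
    have : k - l ≠ n := fun h => hl (by rw [← h]; abel)
    simp [this]

theorem tau_spec (hr : Rapid rr) (hdiag : ∀ k : I, k 0 ≠ k 1 → rr k = 0) (hherm : Herm rr)
    (hr0 : rr 0 ≠ 0) (hV : Vr rr ≠ 0) (n : I) :
    D 1 (tau0 rr n) + mul rr (D 0 (tau1 rr n)) = Pi.single n 1 := by
  have hvan : ∀ k : I, k 1 = 0 → (Pi.single n (1 : ℂ) : I → ℂ) k - mul rr (D 0 (tau1 rr n)) k = 0 := by
    intro k hk
    unfold tau1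
    split_ifs with h1 h2
    · have hkn : k ≠ n := fun h => h1 (h ▸ hk)
      simp [D, Mu, mul_apply, hkn]
    · have hd : D 0 (Pi.single n ((dm 0 n * rr 0)⁻¹)) = Pi.single n (rr 0)⁻¹ := by
        funext l
        rcases eq_or_ne l n with rfl | hl
        · have : dm 0 l ≠ 0 := by simp [dm, Real.pi_ne_zero, h2]
          simp [D, Mu]; field_simp
        · simp [D, Mu, hl]
      rw [hd, mul_single_apply]
      rcases eq_or_ne k n with rfl | hkn
      · simp [hr0]
      · have : rr (k - n) = 0 := hdiag _ fun h => hkn (funext fun i => by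
          simp only [ne_eq, not_not] at h1
          simp only [Pi.sub_apply, hk, h1, sub_self] at h
          fin_cases i
          · exact sub_eq_zero.1 h
          · simp [hk, h1])
        simp [hkn, this]
    · have hn : n = 0 := funext fun i => by
        simp only [ne_eq, not_not] at h1 h2
        fin_cases i <;> simp [h1, h2]
      subst hn
      set c : I → ℂ := fun k => if k = 0 then 0 else ((Vr rr : ℂ) * dm 0 k)⁻¹ * rr k
      have hDc : ∀ l, D 0 c l = if l = 0 then 0 else (Vr rr : ℂ)⁻¹ * rr l := fun l => by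
        rcases eq_or_ne l 0 with rfl | hl
        · simp [D, Mu, c]
        · rcases eq_or_ne (l 0) (l 1) with h | h
          · have hl0 : l 0 ≠ 0 := fun h0 => hl (funext fun i => by
              fin_cases i <;> simp [h0, ← h])
            have hd : dm 0 l ≠ 0 := by simp [dm, Real.pi_ne_zero, hl0]
            simp only [D, Mu, c, if_neg hl, mul_inv]
            field_simp
          · simp [D, Mu, c, hl, hdiag l h]
      rcases eq_or_ne k 0 with rfl | hk0
      · rw [Pi.single_eq_same, mul_apply, sub_eq_zero]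
        have he : ∀ l : I, rr l * D 0 c (0 - l) =
            (Vr rr : ℂ)⁻¹ * ((if l = 0 then 0 else ‖rr l‖ ^ 2 : ℝ) : ℂ) := fun l => by
          rw [hDc, zero_sub]
          rcases eq_or_ne l 0 with rfl | hl
          · simp
          · simp only [neg_eq_zero, if_neg hl, hherm l, Complex.ofReal_pow, ← Complex.mul_conj']
            ring
        simp only [he]
        rw [tsum_mul_left, ← Complex.ofReal_tsum]
        exact (inv_mul_cancel₀ (by exact_mod_cast hV)).symm
      · rw [Pi.single_eq_of_ne hk0, mul_apply, zero_sub, neg_eq_zero]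
        have he : ∀ l : I, rr l * D 0 c (k - l) = 0 := fun l => by
          rw [hDc]
          split_ifs with hl
          · simp
          · rcases eq_or_ne (l 0) (l 1) with h | h
            · have : (k - l) 0 ≠ (k - l) 1 := fun h' => hk0 (funext fun i => by
                simp only [Pi.sub_apply, hk, h] at h'
                fin_cases i
                · simpa using h'
                · simpa using hk)
              simp [hdiag _ this]
            · simp [hdiag l h]
        simp [he]
  funext k
  simp only [Pi.add_apply, tau0, D, Mu]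
  rcases eq_or_ne (k 1) 0 with hk | hk
  · have := hvan k hk
    simp only [dm, hk, Int.cast_zero, mul_zero, Complex.ofReal_zero, zero_mul, zero_add]
    exact (sub_eq_zero.1 this).symm
  · have hd : dm 1 k ≠ 0 := by simp [dm, Real.pi_ne_zero, hk]
    rw [← mul_assoc, mul_inv_cancel₀ hd, one_mul, Pi.sub_apply]
    exact sub_add_cancel _ _

lemma tau1_neg (hherm : Herm rr) (n k : I) : tau1 rr (-n) (-k) = conj (tau1 rr n k) := by
  have h0 : conj (rr 0) = rr 0 := by simpa using (hherm 0).symm
  have hs : ∀ z w : ℂ, w = conj z → (Pi.single (-n) w : I → ℂ) (-k) = conj ((Pi.single n z : I → ℂ) k) :=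
    fun z w hw => by
      rcases eq_or_ne k n with rfl | h
      · simp [hw]
      · simp [h]
  unfold tau1
  simp only [Pi.neg_apply, ne_eq, neg_eq_zero]
  split_ifs <;> first
    | (simp; done)
    | (refine hs _ _ ?_; simp [dm_neg, h0])
    | (simp only [neg_eq_zero]; by_cases hk : k = 0 <;> simp [hk, dm_neg, hherm k, mul_comm])

lemma tau0_neg (hherm : Herm rr) (n k : I) : tau0 rr (-n) (-k) = conj (tau0 rr n k) := by
  simp only [tau0, Mu, Pi.sub_apply, map_mul, map_sub, map_inv₀, ← dm_neg]
  congr 2
  · rcases eq_or_ne k n with rfl | h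
    · simp
    · simp [h]
  · simp only [mul_apply, Complex.conj_tsum]
    rw [← (Equiv.neg I).tsum_eq]
    refine tsum_congr fun l => ?_
    simp only [Equiv.neg_apply, map_mul, D, Mu, hherm l]
    rw [show -k - -l = -(k - l) by abel, dm_neg, tau1_neg hherm]

/-- the nondegeneracy conditions for `r` -/
theorem r_nondeg {f : V → ℝ} (hs : ContDiff ℝ ∞ f) (hp : Periodic2 f) (hpos : ∀ y, 0 < f y)
    (hnc : ∃ y y', f y ≠ f y') :
    coef (fun y => (f y : ℂ)) 0 ≠ 0 ∧ Vr (coef fun y => (f y : ℂ)) ≠ 0 := by
  set fc : V → ℂ := fun y => (f y : ℂ)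
  have hcp : Periodic2 fc := fun x j => by simp [fc, hp x j]
  have hcs : ContDiff ℝ ∞ fc := Complex.ofRealCLM.contDiff.comp hs
  set c := coef fc
  have hc : Rapid c := coef_rapid hcp hcs
  have hev : ∀ x, ev c x = fc x := ev_coef hcp hcs
  have hV : Vr c ≠ 0 := fun h0 => by
    have hsum : Summable fun l : I => if l = 0 then (0 : ℝ) else ‖c l‖ ^ 2 :=
      Summable.of_nonneg_of_le (fun l => by split_ifs <;> positivity)
        (fun l => by split_ifs <;> simp) (summable_sq_of_summable (fun _ => norm_nonneg _) hc.s1)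
    have hz : ∀ l : I, l ≠ 0 → c l = 0 := fun l hl => by
      have := hsum.le_tsum l fun i _ => by split_ifs <;> positivity
      rw [show (∑' i : I, if i = 0 then (0 : ℝ) else ‖c i‖ ^ 2) = Vr c from rfl, h0,
        if_neg hl] at this
      simpa using le_antisymm this (sq_nonneg _)
    have hconst : ∀ x, fc x = c 0 := fun x => by
      rw [← hev x, ev, tsum_eq_single 0 fun l hl => by simp [hz l hl]]
      simp
    obtain ⟨y, y', hy⟩ := hnc
    apply hy
    exact Complex.ofReal_injective ((hconst y).trans (hconst y').symm)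
  refine ⟨?_, hV⟩
  intro h0
  obtain ⟨x0, hx0⟩ := periodic_max (f := fun y => -f y) (fun x j => by simp [hp x j])
    hs.continuous.neg
  have hre : (c 0).re = ∫ t : TT, (lft fc t).re := by
    rw [show (fun t : TT => (lft fc t).re) = fun t => Complex.reCLM (lft fc t) from rfl,
      ContinuousLinearMap.integral_comp_comm]
    · show (mFourierCoeff (lft fc) 0).re = _
      simp [UnitAddTorus.mFourierCoeff, UnitAddTorus.mFourier_zero]
    · exact (continuous_lft hcp hcs.continuous).integrable_of_hasCompactSupport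
        (HasCompactSupport.of_compactSpace _)
  have hle : f x0 ≤ (c 0).re := by
    rw [hre]
    have hge : ∀ t : TT, f x0 ≤ (lft fc t).re := fun t => by
      simpa [lft, fc] using hx0 (Function.surjInv proj_openQuotient.surjective t)
    have := integral_mono (μ := (volume : Measure TT)) (integrable_const (f x0))
      ((Complex.continuous_re.comp (continuous_lft hcp hcs.continuous)).integrable_of_hasCompactSupport
        (HasCompactSupport.of_compactSpace _)) hge
    simpa using this
  rw [h0, Complex.zero_re] at hle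
  linarith [hpos x0]

end Vale.Agent.P205
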