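import Vale.Agent.P205.Gunther
import Vale.Agent.P205.Low

/-!
# The data attached to `λ (dy₀² + r dy₁²)` and the resulting smooth real solution
-/

noncomputable section

open scoped ENNReal ComplexConjugate Topology ContDiff
open Filter

namespace Vale.Agent.P205

/-- coefficients of a real function -/
def lf (f : V → ℝ) : I → ℂ := coef fun y => (f y : ℂ)

variable {f : V → ℝ}

lemma lf_rapid (hf : ContDiff ℝ ∞ f) (hp : Periodic2 f) : Rapid (lf f) :=
  coef_rapid (fun x j => by simp [hp x j]) (Complex.ofRealCLM.contDiff.comp hf)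

lemma ev_lf (hf : ContDiff ℝ ∞ f) (hp : Periodic2 f) (x : V) : ev (lf f) x = (f x : ℂ) :=
  ev_coef (f := fun y => (f y : ℂ)) (fun x j => by simp [hp x j])
    (Complex.ofRealCLM.contDiff.comp hf) x

lemma lf_herm (f : V → ℝ) : Herm (lf f) := coef_herm _ fun _ => Complex.conj_ofReal _

lemma Herm.ev_ofReal {c : I → ℂ} (h : Herm c) (x : V) : ((ev c x).re : ℂ) = ev c x :=
  Complex.ext (by simp) (by simp [h.ev_im x])

lemma Periodic2.comp₁ {α β : Type*} {f : V → α} (hf : Periodic2 f) (g : α → β) :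
    Periodic2 fun y => g (f y) := fun x j => by simp [hf x j]

lemma Periodic2.comp₂ {α β γ : Type*} {f : V → α} {f' : V → β} (hf : Periodic2 f)
    (hf' : Periodic2 f') (g : α → β → γ) : Periodic2 fun y => g (f y) (f' y) :=
  fun x j => by simp [hf x j, hf' x j]

/-- the two coefficients -/
def Acoef (lam r : V → ℝ) (i : Fin 2) (y : V) : ℝ := if i = 0 then lam y else lam y * r y

/-- the data -/
def mkDat (lam r : V → ℝ) (N : ℕ) : Dat where
  a i := lf (Acoef lam r i)
  rho0 i := lf fun y => Real.sqrt (Acoef lam r i y)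
  ia i := lf fun y => (Acoef lam r i y)⁻¹
  irho i := lf fun y => (2 * Real.sqrt (Acoef lam r i y))⁻¹
  b i j := mul (D i (lf (Acoef lam r j))) (lf fun y => (Acoef lam r j y)⁻¹)
  il := lf fun y => (lam y)⁻¹
  er := mul (lf r) (D 0 (lf fun y => (r y)⁻¹))
  ir := lf fun y => (r y)⁻¹
  dir := D 0 (lf fun y => (r y)⁻¹)
  N := N
  tau := ![tau0 (lf r), tau1 (lf r)]

variable {lam r : V → ℝ}

lemma periodic_Acoef (hlp : Periodic2 lam) (hrp : Periodic2 r) (i : Fin 2) :
    Periodic2 (Acoef lam r i) := fun x j => by simp [Acoef, hlp x j, hrp x j]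

lemma smooth_Acoef (hls : ContDiff ℝ ∞ lam) (hrs : ContDiff ℝ ∞ r) (i : Fin 2) :
    ContDiff ℝ ∞ (Acoef lam r i) := by
  unfold Acoef
  split_ifs
  · exact hls
  · exact hls.mul hrs

lemma Acoef_pos (hl : ∀ y, 0 < lam y) (hr : ∀ y, 0 < r y) (i : Fin 2) (y : V) :
    0 < Acoef lam r i y := by
  unfold Acoef
  split_ifs
  · exact hl y
  · exact mul_pos (hl y) (hr y)

/-- smooth solutions of the perturbed system -/
theorem real_solution (hls : ContDiff ℝ ∞ lam) (hlp : Periodic2 lam) (hl : ∀ y, 0 < lam y)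
    (hrs : ContDiff ℝ ∞ r) (hrp : Periodic2 r) (hr : ∀ y, 0 < r y)
    (hd : ∀ y, pd 0 r y = pd 1 r y) (hnc : ∃ y y', r y ≠ r y') :
    ∃ ε0 : ℝ, 0 < ε0 ∧ ∀ ε : ℝ, 0 < ε → ε ≤ ε0 →
      ∃ P φ : Fin 2 → V → ℝ, (∀ i, ContDiff ℝ ∞ (P i)) ∧ (∀ i, Periodic2 (P i)) ∧
        (∀ i, ContDiff ℝ ∞ (φ i)) ∧ (∀ i, Periodic2 (φ i)) ∧
        ∀ j k y,
          P 0 y * P 0 y * (((if 0 = j then 1 else 0) + pd j (φ 0) y) *
              ((if 0 = k then 1 else 0) + pd k (φ 0) y)) +
            P 1 y * P 1 y * (((if 1 = j then 1 else 0) + pd j (φ 1) y) *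
              ((if 1 = k then 1 else 0) + pd k (φ 1) y)) +
            ε * (pd j (P 0) y * pd k (P 0) y + pd j (P 1) y * pd k (P 1) y) =
          if j = k then Acoef lam r j y else 0 := by
  classical
  have hAs := smooth_Acoef hls hrs
  have hAp := periodic_Acoef hlp hrp
  have hA0 := Acoef_pos hl hr
  have hinvs : ∀ i, ContDiff ℝ ∞ fun y => (Acoef lam r i y)⁻¹ := fun i =>
    (hAs i).inv fun y => (hA0 i y).ne'
  have hsq : ∀ i, ContDiff ℝ ∞ fun y => Real.sqrt (Acoef lam r i y) := fun i =>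
    (hAs i).sqrt fun y => (hA0 i y).ne'
  have hisq : ∀ i, ContDiff ℝ ∞ fun y => (2 * Real.sqrt (Acoef lam r i y))⁻¹ := fun i =>
    (contDiff_const.mul (hsq i)).inv fun y => by have := Real.sqrt_pos.2 (hA0 i y); positivity
  have hils : ContDiff ℝ ∞ fun y => (lam y)⁻¹ := hls.inv fun y => (hl y).ne'
  have hirs : ContDiff ℝ ∞ fun y => (r y)⁻¹ := hrs.inv fun y => (hr y).ne'
  have rA := fun i => lf_rapid (hAs i) (hAp i)
  have rρ := fun i => lf_rapid (hsq i) ((hAp i).comp₁ Real.sqrt)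
  have ria := fun i => lf_rapid (hinvs i) ((hAp i).comp₁ fun t : ℝ => t⁻¹)
  have riρ := fun i => lf_rapid (hisq i) ((hAp i).comp₁ fun t : ℝ => (2 * Real.sqrt t)⁻¹)
  have ril := lf_rapid hils (hlp.comp₁ fun t : ℝ => t⁻¹)
  have rr := lf_rapid hrs hrp
  have rir := lf_rapid hirs (hrp.comp₁ fun t : ℝ => t⁻¹)
  have rb : ∀ i j, Rapid (mul (D i (lf (Acoef lam r j))) (lf fun y => (Acoef lam r j y)⁻¹)) :=
    fun i j => ((rA j).D i).mul (ria j)
  have rer := rr.mul (rir.D 0)
  -- facts on `r`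
  have hcd : ∀ x, pd 0 (fun y => (r y : ℂ)) x = pd 1 (fun y => (r y : ℂ)) x := fun x => by
    have h : fderiv ℝ (fun y => (r y : ℂ)) x = Complex.ofRealCLM.comp (fderiv ℝ r x) :=
      (Complex.ofRealCLM.hasFDerivAt.comp x
        ((hrs.differentiable (by simp)).differentiableAt.hasFDerivAt)).fderiv
    have h2 := hd x
    simp only [pd] at h2
    simp [pd, h, h2]
  have hdiag : ∀ k : I, k 0 ≠ k 1 → lf r k = 0 :=
    diag_support (Complex.ofRealCLM.contDiff.comp hrs) (hrp.comp₁ Complex.ofReal) hcd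
  obtain ⟨hr0, hV⟩ := r_nondeg hrs hrp hr hnc
  have hDr : D 0 (lf r) = D 1 (lf r) := by
    funext k
    rcases eq_or_ne (k 0) (k 1) with h | h
    · simp [D, Mu, dm, h]
    · simp [D, Mu, hdiag k h]
  have prod1 : ∀ {f g : V → ℝ}, ContDiff ℝ ∞ f → Periodic2 f → ContDiff ℝ ∞ g → Periodic2 g →
      (∀ y, f y * g y = 1) → ∀ j x, ev (D j (lf f)) x * ev (lf g) x +
        ev (lf f) x * ev (D j (lf g)) x = 0 := by
    intro f g hf hfp hg hgp h j x
    have rf := lf_rapid hf hfp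
    have rg := lf_rapid hg hgp
    have e : mul (lf f) (lf g) = Pi.single 0 1 := ev_inj (rf.mul rg).s1 (S1.single 0 1) fun y => by
      rw [ev_mul rf.s1 rg.s1, ev_lf hf hfp, ev_lf hg hgp, ← Complex.ofReal_mul, h y]
      simp [ev_single]
    have e2 := congrArg (fun c => ev (D j c) x) e
    simp only [D_mul rf.s1 rg.s1 j (rf.D j).s1 (rg.D j).s1,
      ev_add (((rf.D j).mul rg).s1) ((rf.mul (rg.D j)).s1), ev_mul (rf.D j).s1 rg.s1,
      ev_mul rf.s1 (rg.D j).s1] at e2
    rw [e2]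
    have : D j (Pi.single (0 : I) (1 : ℂ)) = 0 := by
      funext n
      rcases eq_or_ne n 0 with rfl | hn <;> simp [D, Mu, dm, *]
    rw [this, ev_zero]
  have hDir : ∀ j, D j (lf fun y => (r y)⁻¹) = D 0 (lf fun y => (r y)⁻¹) := fun j => by
    refine ev_inj (rir.D j).s1 (rir.D 0).s1 fun x => ?_
    have h1 := prod1 hrs hrp hirs (hrp.comp₁ fun t : ℝ => t⁻¹)
      (fun y => mul_inv_cancel₀ (hr y).ne') j x
    have h0 := prod1 hrs hrp hirs (hrp.comp₁ fun t : ℝ => t⁻¹)
      (fun y => mul_inv_cancel₀ (hr y).ne') 0 x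
    have hj : D j (lf r) = D 0 (lf r) := by
      fin_cases j
      · rfl
      · exact hDr.symm
    rw [hj] at h1
    have hne : ev (lf r) x ≠ 0 := by
      rw [ev_lf hrs hrp]; exact_mod_cast (hr x).ne'
    exact mul_left_cancel₀ hne (by linear_combination h1 - h0)
  -- constants
  set B : ℝ := (∑ i : Fin 2, (base (lf (Acoef lam r i)) +
      base (lf fun y => Real.sqrt (Acoef lam r i y)) + base (lf fun y => (Acoef lam r i y)⁻¹) +
      base (lf fun y => (2 * Real.sqrt (Acoef lam r i y))⁻¹) +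
      ∑ j : Fin 2, base (mul (D i (lf (Acoef lam r j))) (lf fun y => (Acoef lam r j y)⁻¹)))) +
    (base (lf fun y => (lam y)⁻¹) + base (mul (lf r) (D 0 (lf fun y => (r y)⁻¹))) +
      base (lf fun y => (r y)⁻¹) + base (D 0 (lf fun y => (r y)⁻¹))) + 1 with hBdef
  set N : ℕ := ⌈2 * B⌉₊ + 1 with hNdef
  set d := mkDat lam r N with hddef
  set B' : ℝ := (∑ i : Fin 2, ∑ n ∈ d.low, (base (d.tau i n) + base (D i (d.tau i n)))) + 1
    with hB'def
  have hB : 0 ≤ B := by
    repeat' first | exact base_nonneg _ | exact zero_le_one | refine Finset.sum_nonneg fun _ _ => ?_ | apply add_nonneg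
  have hB' : 0 ≤ B' := by
    repeat' first | exact base_nonneg _ | exact zero_le_one | refine Finset.sum_nonneg fun _ _ => ?_ | apply add_nonneg
  have hN : 1 ≤ d.N := by show 1 ≤ N; omega
  have hBN : 2 * B ≤ d.N := by
    have h1 := Nat.le_ceil (2 * B)
    show 2 * B ≤ (N : ℝ)
    rw [hNdef]; push_cast; linarith
  have rtau : ∀ i n, Rapid (d.tau i n) := fun i n => by
    fin_cases i
    · exact tau0_rapid rr n
    · exact tau1_rapid rr n
  have hgood : ∀ m, ∃ δ : ℝ, 0 < δ ∧ δ ≤ 1 ∧ d.Good B B' (udm δ m) := by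
    intro m
    have lt1 : ∀ i : Fin 2, base (lf (Acoef lam r i)) +
      base (lf fun y => Real.sqrt (Acoef lam r i y)) + base (lf fun y => (Acoef lam r i y)⁻¹) +
      base (lf fun y => (2 * Real.sqrt (Acoef lam r i y))⁻¹) +
      ∑ j : Fin 2, base (mul (D i (lf (Acoef lam r j))) (lf fun y => (Acoef lam r j y)⁻¹)) < B :=
      fun i => by
        have h := Finset.single_le_sum (f := fun i : Fin 2 => base (lf (Acoef lam r i)) +
          base (lf fun y => Real.sqrt (Acoef lam r i y)) + base (lf fun y => (Acoef lam r i y)⁻¹) +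
          base (lf fun y => (2 * Real.sqrt (Acoef lam r i y))⁻¹) +
          ∑ j : Fin 2, base (mul (D i (lf (Acoef lam r j))) (lf fun y => (Acoef lam r j y)⁻¹)))
          (fun i _ => by repeat' first | exact base_nonneg _ | exact zero_le_one | refine Finset.sum_nonneg fun _ _ => ?_ | apply add_nonneg) (Finset.mem_univ i)
        linarith [base_nonneg (lf fun y => (lam y)⁻¹),
          base_nonneg (mul (lf r) (D 0 (lf fun y => (r y)⁻¹))),
          base_nonneg (lf fun y => (r y)⁻¹), base_nonneg (D 0 (lf fun y => (r y)⁻¹))]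
    have lt2 : base (lf fun y => (lam y)⁻¹) + base (mul (lf r) (D 0 (lf fun y => (r y)⁻¹))) +
        base (lf fun y => (r y)⁻¹) + base (D 0 (lf fun y => (r y)⁻¹)) < B := by
      have h : 0 ≤ ∑ i : Fin 2, (base (lf (Acoef lam r i)) +
        base (lf fun y => Real.sqrt (Acoef lam r i y)) + base (lf fun y => (Acoef lam r i y)⁻¹) +
        base (lf fun y => (2 * Real.sqrt (Acoef lam r i y))⁻¹) +
        ∑ j : Fin 2, base (mul (D i (lf (Acoef lam r j))) (lf fun y => (Acoef lam r j y)⁻¹))) := by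
        repeat' first | exact base_nonneg _ | exact zero_le_one | refine Finset.sum_nonneg fun _ _ => ?_ | apply add_nonneg
      linarith
    have lt3 : ∀ i : Fin 2, ∀ n ∈ d.low, base (d.tau i n) + base (D i (d.tau i n)) < B' :=
      fun i n hn => by
        have h1 := Finset.single_le_sum (f := fun n => base (d.tau i n) + base (D i (d.tau i n)))
          (fun n _ => add_nonneg (base_nonneg _) (base_nonneg _)) hn
        have h2 := Finset.single_le_sum
          (f := fun i : Fin 2 => ∑ n ∈ d.low, (base (d.tau i n) + base (D i (d.tau i n))))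
          (fun i _ => Finset.sum_nonneg fun n _ => add_nonneg (base_nonneg _) (base_nonneg _))
          (Finset.mem_univ i)
        linarith
    have nb : ∀ (i : Fin 2) (j : Fin 2),
        base (mul (D i (lf (Acoef lam r j))) (lf fun y => (Acoef lam r j y)⁻¹)) ≤
        ∑ j : Fin 2, base (mul (D i (lf (Acoef lam r j))) (lf fun y => (Acoef lam r j y)⁻¹)) :=
      fun i j => Finset.single_le_sum
        (f := fun j => base (mul (D i (lf (Acoef lam r j))) (lf fun y => (Acoef lam r j y)⁻¹)))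
        (fun j _ => base_nonneg _) (Finset.mem_univ j)
    have n0 := base_nonneg
    have ns : ∀ i : Fin 2, 0 ≤
        ∑ j : Fin 2, base (mul (D i (lf (Acoef lam r j))) (lf fun y => (Acoef lam r j y)⁻¹)) :=
      fun i => Finset.sum_nonneg fun j _ => n0 _
    have E1 : ∀ i, ∀ᶠ δ in 𝓝[>] (0 : ℝ), Bd (udm δ m) (d.a i) B := fun i =>
      eventually_bd (rA i) m (by
        linarith [lt1 i, ns i, n0 (lf fun y => Real.sqrt (Acoef lam r i y)),
          n0 (lf fun y => (Acoef lam r i y)⁻¹), n0 (lf fun y => (2 * Real.sqrt (Acoef lam r i y))⁻¹)])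
    have E2 : ∀ i, ∀ᶠ δ in 𝓝[>] (0 : ℝ), Bd (udm δ m) (d.rho0 i) B := fun i =>
      eventually_bd (rρ i) m (by
        linarith [lt1 i, ns i, n0 (lf (Acoef lam r i)),
          n0 (lf fun y => (Acoef lam r i y)⁻¹), n0 (lf fun y => (2 * Real.sqrt (Acoef lam r i y))⁻¹)])
    have E3 : ∀ i, ∀ᶠ δ in 𝓝[>] (0 : ℝ), Bd (udm δ m) (d.ia i) B := fun i =>
      eventually_bd (ria i) m (by
        linarith [lt1 i, ns i, n0 (lf fun y => Real.sqrt (Acoef lam r i y)),
          n0 (lf (Acoef lam r i)), n0 (lf fun y => (2 * Real.sqrt (Acoef lam r i y))⁻¹)])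
    have E4 : ∀ i, ∀ᶠ δ in 𝓝[>] (0 : ℝ), Bd (udm δ m) (d.irho i) B := fun i =>
      eventually_bd (riρ i) m (by
        linarith [lt1 i, ns i, n0 (lf fun y => Real.sqrt (Acoef lam r i y)),
          n0 (lf fun y => (Acoef lam r i y)⁻¹), n0 (lf (Acoef lam r i))])
    have E5 : ∀ i j, ∀ᶠ δ in 𝓝[>] (0 : ℝ), Bd (udm δ m) (d.b i j) B := fun i j =>
      eventually_bd (rb i j) m (by
        linarith [lt1 i, nb i j, n0 (lf fun y => Real.sqrt (Acoef lam r i y)),
          n0 (lf fun y => (Acoef lam r i y)⁻¹), n0 (lf (Acoef lam r i)),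
          n0 (lf fun y => (2 * Real.sqrt (Acoef lam r i y))⁻¹)])
    have E6 : ∀ᶠ δ in 𝓝[>] (0 : ℝ), Bd (udm δ m) d.il B := eventually_bd ril m (by
        linarith [n0 (mul (lf r) (D 0 (lf fun y => (r y)⁻¹))), n0 (lf fun y => (r y)⁻¹),
          n0 (D 0 (lf fun y => (r y)⁻¹))])
    have E7 : ∀ᶠ δ in 𝓝[>] (0 : ℝ), Bd (udm δ m) d.er B := eventually_bd rer m (by
        linarith [n0 (lf fun y => (lam y)⁻¹), n0 (lf fun y => (r y)⁻¹),
          n0 (D 0 (lf fun y => (r y)⁻¹))])
    have E8 : ∀ᶠ δ in 𝓝[>] (0 : ℝ), Bd (udm δ m) d.ir B := eventually_bd rir m (by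
        linarith [n0 (mul (lf r) (D 0 (lf fun y => (r y)⁻¹))), n0 (lf fun y => (lam y)⁻¹),
          n0 (D 0 (lf fun y => (r y)⁻¹))])
    have E9 : ∀ᶠ δ in 𝓝[>] (0 : ℝ), Bd (udm δ m) d.dir B := eventually_bd (rir.D 0) m (by
        linarith [n0 (mul (lf r) (D 0 (lf fun y => (r y)⁻¹))), n0 (lf fun y => (r y)⁻¹),
          n0 (lf fun y => (lam y)⁻¹)])
    have E10 : ∀ i, ∀ n ∈ d.low, ∀ᶠ δ in 𝓝[>] (0 : ℝ), Bd (udm δ m) (d.tau i n) B' :=
      fun i n hn => eventually_bd (rtau i n) m (by linarith [lt3 i n hn, n0 (D i (d.tau i n))])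
    have E11 : ∀ i, ∀ n ∈ d.low, ∀ᶠ δ in 𝓝[>] (0 : ℝ), Bd (udm δ m) (D i (d.tau i n)) B' :=
      fun i n hn => eventually_bd ((rtau i n).D i) m (by linarith [lt3 i n hn, n0 (d.tau i n)])
    have E0 : ∀ᶠ δ in 𝓝[>] (0 : ℝ), 0 < δ ∧ δ ≤ 1 := by
      filter_upwards [self_mem_nhdsWithin, nhdsWithin_le_nhds (Iic_mem_nhds one_pos)] with δ h1 h2
      exact ⟨h1, h2⟩
    have all := E0.and <| (eventually_all.2 E1).and <| (eventually_all.2 E2).and <|
      (eventually_all.2 E3).and <| (eventually_all.2 E4).and <|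
      (eventually_all.2 fun i => eventually_all.2 (E5 i)).and <| E6.and <| E7.and <| E8.and <|
      E9.and <| (eventually_all.2 fun i => (eventually_all_finset d.low).2 (E10 i)).and
        (eventually_all.2 fun i => (eventually_all_finset d.low).2 (E11 i))
    obtain ⟨δ, ⟨hδ0, hδ1⟩, h1, h2, h3, h4, h5, h6, h7, h8, h9, h10, h11⟩ := all.exists
    exact ⟨δ, hδ0, hδ1, adm_udm hδ0.le m, h1, h2, h3, h4, h5, h6, h7, h8, h9, h10, h11⟩
  have h1 : d.Good B B' fun _ => 1 := by
    obtain ⟨δ, -, -, h⟩ := hgood 0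
    rwa [udm_zero] at h
  have hspec : Dat.Spec d (lf r) :=
    { hN := hN
      srr := rr.s1
      sq := fun i x => by
        show ev (lf fun y => Real.sqrt (Acoef lam r i y)) x *
          ev (lf fun y => Real.sqrt (Acoef lam r i y)) x = ev (lf (Acoef lam r i)) x
        rw [ev_lf (hsq i) ((hAp i).comp₁ Real.sqrt), ev_lf (hAs i) (hAp i), ← Complex.ofReal_mul,
          Real.mul_self_sqrt (hA0 i x).le]
      inv := fun i x => by
        show ev (lf (Acoef lam r i)) x * ev (lf fun y => (Acoef lam r i y)⁻¹) x = 1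
        rw [ev_lf (hinvs i) ((hAp i).comp₁ fun t : ℝ => t⁻¹), ev_lf (hAs i) (hAp i),
          ← Complex.ofReal_mul, mul_inv_cancel₀ (hA0 i x).ne', Complex.ofReal_one]
      dinv := fun i j x => prod1 (hAs i) (hAp i) (hinvs i) ((hAp i).comp₁ fun t : ℝ => t⁻¹)
        (fun y => mul_inv_cancel₀ (hA0 i y).ne') j x
      irho := fun i x => by
        show 2 * (ev (lf fun y => Real.sqrt (Acoef lam r i y)) x *
          ev (lf fun y => (2 * Real.sqrt (Acoef lam r i y))⁻¹) x) = 1
        rw [ev_lf (hsq i) ((hAp i).comp₁ Real.sqrt),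
          ev_lf (hisq i) ((hAp i).comp₁ fun t : ℝ => (2 * Real.sqrt t)⁻¹)]
        have := (Real.sqrt_pos.2 (hA0 i x)).ne'
        have h2 : 2 * (Real.sqrt (Acoef lam r i x) * (2 * Real.sqrt (Acoef lam r i x))⁻¹) = 1 := by
          field_simp
        exact_mod_cast h2
      hb := fun i j x => ev_mul ((rA j).D i).s1 (ria j).s1 x
      hil := fun x => by
        show ev (lf (Acoef lam r 0)) x * ev (lf fun y => (lam y)⁻¹) x = 1
        rw [ev_lf hils (hlp.comp₁ fun t : ℝ => t⁻¹), ev_lf (hAs 0) (hAp 0), ← Complex.ofReal_mul]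
        simp [Acoef, (hl x).ne']
      a1 := fun x => by
        show ev (lf (Acoef lam r 1)) x = ev (lf (Acoef lam r 0)) x * ev (lf r) x
        rw [ev_lf (hAs 1) (hAp 1), ev_lf (hAs 0) (hAp 0), ev_lf hrs hrp]
        simp [Acoef]
      hir := fun x => by
        show ev (lf r) x * ev (lf fun y => (r y)⁻¹) x = 1
        rw [ev_lf hirs (hrp.comp₁ fun t : ℝ => t⁻¹), ev_lf hrs hrp, ← Complex.ofReal_mul,
          mul_inv_cancel₀ (hr x).ne', Complex.ofReal_one]
      her := fun x => ev_mul rr.s1 (rir.D 0).s1 x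
      hdir := hDir
      tau := fun n => tau_spec rr hdiag (lf_herm r) hr0 hV n }
  have hreal : d.Real' :=
    { ha := fun i => lf_herm _
      hrho := fun i => lf_herm _
      hia := fun i => lf_herm _
      hirho := fun i => lf_herm _
      hb := fun i j => ((lf_herm _).D i).mul (lf_herm _)
      hil := lf_herm _
      her := (lf_herm _).mul ((lf_herm _).D 0)
      hir := lf_herm _
      hdir := (lf_herm _).D 0
      htau := fun i n k => by
        fin_cases i
        · exact tau0_neg (lf_herm r) n k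
        · exact tau1_neg (lf_herm r) n k }
  obtain ⟨R, ε0, hR, hε0, hfp⟩ := d.fixed_point hB hB' hN hBN h1
  refine ⟨ε0, hε0, fun ε hε hεle => ?_⟩
  obtain ⟨hRε, Z, hZlim, hZball, hfix⟩ := hfp ε hε.le hεle
  have hr0' : 0 ≤ R * ε := mul_nonneg hR hε.le
  have hHerm := hreal.limit ε hZlim
  have rap : ∀ {F : St → I → ℂ} {p : ℕ}, Ord (d.Good B B') p F → Rapid (F Z) := by
    rintro F p ⟨K, -, hK⟩
    refine rapid_of_udm fun m => ?_
    obtain ⟨δ, hδ0, hδ1, hg⟩ := hgood m
    exact ⟨δ, _, hδ0, hδ1, (hK _ hg _ hr0' hRε).1 Z (hZball _ hg)⟩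
  have rP := fun i => rap (d.ord_rho hB hB' hN i)
  have rφ := fun i => rap (d.ord_phi hB hB' hN i)
  have hP := fun i => hreal.rho i hHerm
  have hφ := fun i => hreal.phi i hHerm
  have key : ∀ {c : I → ℂ}, Rapid c → Herm c → ∀ j y,
      ((pd j (fun y => (ev c y).re) y : ℝ) : ℂ) = ev (D j c) y := fun {c} hc hh j y => by
    have h : fderiv ℝ (fun y => (ev c y).re) y = Complex.reCLM.comp (fderiv ℝ (ev c) y) :=
      (Complex.reCLM.hasFDerivAt.comp y (hc.diff y).hasFDerivAt).fderiv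
    have h2 := pd_ev hc.s1 (fun j => (hc.D j).s1) j y
    rw [pd] at h2
    rw [pd, h, ← (hh.D j).ev_ofReal y]
    simp [h2]
  refine ⟨fun i y => (ev (d.rho i Z) y).re, fun i y => (ev (d.phi i Z) y).re,
    fun i => Complex.reCLM.contDiff.comp (contDiff_ev (rP i)),
    fun i => (ev_periodic _).comp₁ Complex.re,
    fun i => Complex.reCLM.contDiff.comp (contDiff_ev (rφ i)),
    fun i => (ev_periodic _).comp₁ Complex.re, fun j k y => ?_⟩
  apply Complex.ofReal_injective
  have h := Dat.solves hB hB' hspec h1 hr0' hRε (hZball _ h1) hfix j k y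
  simp only [Complex.ofReal_add, Complex.ofReal_mul, (hP _).ev_ofReal,
    key (rP _) (hP _), key (rφ _) (hφ _), apply_ite (Complex.ofReal : ℝ → ℂ),
    Complex.ofReal_one, Complex.ofReal_zero]
  rw [h]
  split_ifs with hjk
  · exact ev_lf (hAs j) (hAp j) y
  · rfl

end Vale.Agent.P205
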