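import Vale.Agent.P205.Scheme

/-!
# The fixed point, its reality and smoothness
-/

noncomputable section

open scoped ENNReal ComplexConjugate Topology
open Filter

namespace Vale.Agent.P205

lemma Bd.of_tendsto {u : I → ℝ} (hu : Adm u) {c : ℕ → I → ℂ} {l : I → ℂ} {a : ℝ} (ha : 0 ≤ a)
    (hc : ∀ k, Bd u (c k) a) (ht : ∀ n, Tendsto (fun k => c k n) atTop (𝓝 (l n))) : Bd u l a := by
  rw [Bd, Nw, ENNReal.tsum_eq_iSup_sum]
  refine iSup_le fun s => ?_
  have hnn : ∀ (z : I → ℂ) n, 0 ≤ w2 n * u n * ‖z n‖ := fun z n =>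
    mul_nonneg (mul_nonneg (w2_pos n).le (hu.pos n).le) (norm_nonneg _)
  have h1 : ∀ n, ENNReal.ofReal (w2 n * u n) * ‖l n‖ₑ =
      ENNReal.ofReal (w2 n * u n * ‖l n‖) := fun n => by
    rw [ENNReal.ofReal_mul (mul_nonneg (w2_pos n).le (hu.pos n).le), ofReal_norm]
  simp only [h1]
  rw [← ENNReal.ofReal_sum_of_nonneg fun n _ => hnn l n]
  refine ENNReal.ofReal_le_ofReal ?_
  refine le_of_tendsto (tendsto_finsetSum s fun n _ => ((ht n).norm.const_mul (w2 n * u n)))
    (Eventually.of_forall fun k => ?_)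
  exact ((hc k).summable hu).sum_le_tsum s (fun n _ => hnn (c k) n) |>.trans ((hc k).tsum_le hu ha)

namespace Dat

variable (d : Dat) {B B' : ℝ}

/-- iterates -/
def iter (ε : ℝ) : ℕ → St
  | 0 => 0
  | k + 1 => d.Phi ε (iter ε k)

/-- The fixed point. -/
theorem fixed_point (hB : 0 ≤ B) (hB' : 0 ≤ B') (hN : 1 ≤ d.N) (hBN : 2 * B ≤ d.N)
    (h1 : d.Good B B' fun _ => 1) :
    ∃ R ε0 : ℝ, 0 ≤ R ∧ 0 < ε0 ∧ ∀ ε : ℝ, 0 ≤ ε → ε ≤ ε0 → R * ε ≤ 1 ∧ ∃ Z : St,
      (∀ i n, Tendsto (fun k => d.iter ε k i n) atTop (𝓝 (Z i n))) ∧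
      (∀ u, d.Good B B' u → Ball u (R * ε) Z) ∧ d.Phi ε Z = Z := by
  obtain ⟨R, ε0, hR, hε0, hc⟩ := d.phi_contract hB hB' hN hBN
  refine ⟨R, ε0, hR, hε0, fun ε hε hεle => ?_⟩
  obtain ⟨hr1, hc⟩ := hc ε hε hεle
  refine ⟨hr1, ?_⟩
  have hr0 : 0 ≤ R * ε := mul_nonneg hR hε
  set r := R * ε
  set z := d.iter ε with hz
  have hball : ∀ u, d.Good B B' u → ∀ k, Ball u r (z k) := fun u hu k => by
    induction k with
    | zero => exact fun i => Bd.zero u
    | succ k ih => exact (hc u hu).1 _ ih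
  have hinc : ∀ u, d.Good B B' u → ∀ k, Ball u ((3 / 4) ^ k * r) (z (k + 1) - z k) := by
    intro u hu k
    induction k with
    | zero => intro i; simpa [hz, iter] using hball u hu 1 i
    | succ k ih =>
      have := (hc u hu).2 _ _ _ (by positivity) (hball u hu (k + 1)) (hball u hu k) ih
      intro i
      exact (this i).mono (le_of_eq (by ring))
  have htail : ∀ k m, Ball (fun _ => 1) (4 * r * ((3 / 4) ^ k - (3 / 4) ^ (k + m)))
      (z (k + m) - z k) := by
    intro k m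
    induction m with
    | zero => intro i; simpa using Bd.zero (fun _ => (1 : ℝ))
    | succ m ih =>
      intro i
      have h := ((hinc _ h1 (k + m)) i).add (ih i) (by positivity) (mul_nonneg (by positivity)
        (sub_nonneg.2 (pow_le_pow_of_le_one (by norm_num) (by norm_num) (Nat.le_add_right k m))))
      have e : (z (k + (m + 1)) - z k) i = (z (k + m + 1) - z (k + m)) i + (z (k + m) - z k) i := by
        simp only [Pi.sub_apply]; rw [← add_assoc]; abel
      rw [e]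
      refine h.mono (le_of_eq ?_)
      ring
  have hcau : ∀ i n, ∃ l, Tendsto (fun k => z k i n) atTop (𝓝 l) := fun i n => by
    refine cauchySeq_tendsto_of_complete (cauchySeq_of_le_geometric (3 / 4) r (by norm_num) fun k => ?_)
    have := ((hinc _ h1 k) i).term_le adm_one (by positivity) n
    rw [dist_comm, dist_eq_norm]
    calc ‖z (k + 1) i n - z k i n‖ ≤ w2 n * 1 * ‖(z (k + 1) - z k) i n‖ :=
          le_mul_of_one_le_left (norm_nonneg _) (by simpa using one_le_w2 n)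
      _ ≤ (3 / 4) ^ k * r := this
      _ = _ := by ring
  choose Z hZ using hcau
  have hZball : ∀ u, d.Good B B' u → Ball u r Z := fun u hu i =>
    Bd.of_tendsto hu.adm hr0 (fun k => hball u hu k i) (hZ i)
  refine ⟨Z, hZ, hZball, ?_⟩
  have hclose : ∀ k, Ball (fun _ => 1) (4 * r * (3 / 4) ^ k) (Z - z k) := fun k i => by
    refine Bd.of_tendsto adm_one (by positivity) (c := fun m => (z (k + m) - z k) i)
      (fun m => (htail k m i).mono ?_) fun n => ?_
    · have : (0 : ℝ) ≤ 4 * r * (3 / 4) ^ (k + m) := by positivity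
      linarith
    · exact (((hZ i n).comp (tendsto_add_atTop_nat k)).congr fun m => by
        simp [add_comm]).sub_const _
  funext i n
  have hk : ∀ k, ‖d.Phi ε Z i n - Z i n‖ ≤ (3 / 4) ^ k * (7 * r) := fun k => by
    have ha := (hc _ h1).2 Z (z k) _ (by positivity) (hZball _ h1) (hball _ h1 k) (hclose k) i
    have hb := (hclose (k + 1) i)
    have h := (ha.sub hb (by positivity) (by positivity)).term_le adm_one (by positivity) n
    have e : ((d.Phi ε Z - d.Phi ε (z k)) i - (Z - z (k + 1)) i) n =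
        d.Phi ε Z i n - Z i n := by
      simp [hz, iter]
    rw [e] at h
    calc ‖d.Phi ε Z i n - Z i n‖ ≤ w2 n * 1 * ‖d.Phi ε Z i n - Z i n‖ :=
          le_mul_of_one_le_left (norm_nonneg _) (by simpa using one_le_w2 n)
      _ ≤ _ := h
      _ ≤ _ := by
        rw [pow_succ]
        nlinarith [mul_nonneg hr0 (pow_nonneg (show (0 : ℝ) ≤ 3 / 4 by norm_num) k)]
  have hlim : Tendsto (fun k : ℕ => (3 / 4 : ℝ) ^ k * (7 * r)) atTop (𝓝 0) := by
    simpa using (tendsto_pow_atTop_nhds_zero_of_lt_one (by norm_num) (by norm_num)).mul_const (7 * r)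
  have := ge_of_tendsto hlim (Eventually.of_forall hk)
  exact sub_eq_zero.1 (norm_le_zero_iff.1 this)

/-! ### reality -/

/-- the data are real -/
structure Real' : Prop where
  ha : ∀ i, Herm (d.a i)
  hrho : ∀ i, Herm (d.rho0 i)
  hia : ∀ i, Herm (d.ia i)
  hirho : ∀ i, Herm (d.irho i)
  hb : ∀ i j, Herm (d.b i j)
  hil : Herm d.il
  her : Herm d.er
  hir : Herm d.ir
  hdir : Herm d.dir
  htau : ∀ i n k, d.tau i (-n) (-k) = conj (d.tau i n k)

variable {d}

lemma low_neg {n : I} : -n ∈ d.low ↔ n ∈ d.low := by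
  simp only [low, Finset.mem_filter, Fintype.mem_piFinset, Finset.mem_Icc, Pi.neg_apply, sz_neg]
  constructor <;> rintro ⟨h, h'⟩ <;> exact ⟨fun a => by have := h a; omega, h'⟩

lemma herm_sum_low {h : I → ℂ} (hh : Herm h) {τ : I → I → ℂ}
    (hτ : ∀ n k, τ (-n) (-k) = conj (τ n k)) : Herm (∑ n ∈ d.low, h n • τ n) := fun k => by
  simp only [Finset.sum_apply, Pi.smul_apply, smul_eq_mul, map_sum]
  refine Finset.sum_equiv (Equiv.neg I) (fun n => low_neg.symm) fun n _ => ?_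
  simp only [Equiv.neg_apply, map_mul, hh n, Complex.conj_conj]
  have := hτ (-n) k
  rw [neg_neg] at this
  rw [this]

lemma mlap_neg (n : I) : d.mlap (-n) = conj (d.mlap n) := by
  simp only [mlap, sz_neg]
  split_ifs <;> simp [dm_neg]

lemma Real'.phiH (hd : d.Real') (i : Fin 2) {h : I → ℂ} (hh : Herm h) : Herm (d.phiH i h) := by
  refine Herm.add ?_ (herm_sum_low hh (hd.htau i))
  have h00 : Herm (Mu d.m00 h) := hh.mu fun n => by simp [m00, dm_neg, mlap_neg]
  split_ifs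
  · exact hh.mu fun n => by simp [m01, dm_neg, mlap_neg]
  · exact hd.hir.mul h00

lemma Real'.dphiH (hd : d.Real') (i : Fin 2) {h : I → ℂ} (hh : Herm h) : Herm (d.dphiH i h) := by
  refine Herm.add ?_ (herm_sum_low hh fun n k => by simp [P205.D, Mu, dm_neg, hd.htau i n k])
  have h00 : Herm (Mu d.m00 h) := hh.mu fun n => by simp [m00, dm_neg, mlap_neg]
  have hmm : Herm (Mu d.mm h) := hh.mu fun n => by simp [mm, dm_neg, mlap_neg]
  split_ifs
  · exact hmm
  · exact (hd.hdir.mul h00).add (hd.hir.mul hmm)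

lemma herm_two {c : I → ℂ} (hc : Herm c) : Herm ((2 : ℂ) • c) := fun n => by
  simp [hc n, map_ofNat]

lemma herm_real {c : I → ℂ} (ε : ℝ) (hc : Herm c) : Herm ((ε : ℂ) • c) := hc.smul ε

lemma Real'.phi (hd : d.Real') (i : Fin 2) {Z : St} (hZ : ∀ i, Herm (Z i)) : Herm (d.phi i Z) :=
  (((hd.hia i).mul (hZ _)).neg).add (hd.phiH i (hZ 2))

lemma Real'.sig (hd : d.Real') (i : Fin 2) {Z : St} (hZ : ∀ i, Herm (Z i)) : Herm (d.sig i Z) :=
  (hd.hirho i).mul ((hZ _).neg.add (herm_two ((hd.ha i).mul (hd.dphiH i (hZ 2)))).neg)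

lemma Real'.rho (hd : d.Real') (i : Fin 2) {Z : St} (hZ : ∀ i, Herm (Z i)) : Herm (d.rho i Z) :=
  (hd.hrho i).add (hd.sig i hZ)

lemma Real'.cc (hd : d.Real') (i : Fin 2) {Z : St} (hZ : ∀ i, Herm (Z i)) : Herm (d.cc i Z) :=
  (herm_two ((hd.hrho i).mul (hd.sig i hZ))).add ((hd.sig i hZ).mul (hd.sig i hZ))

lemma Real'.Phi (hd : d.Real') (ε : ℝ) {Z : St} (hZ : ∀ i, Herm (Z i)) :
    ∀ i, Herm (d.Phi ε Z i) := by
  have hφ := fun i => hd.phi i hZ
  have hρ := fun i => hd.rho i hZ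
  have hm : ∀ i, Herm (d.mr i Z) := fun i => (hρ i).mul (hρ i)
  have hA : ∀ i j, Herm (d.AA i j Z) := fun i j => Herm.bil (herm_KA j) (hφ i) (hφ i)
  have hQ : ∀ j, Herm (d.NQ j ε Z) := fun j =>
    ((Herm.bil herm_KT (hd.cc j hZ) (hφ j)).add
      ((Herm.bil herm_KT (hm 0) (hA 0 j)).add (Herm.bil herm_KT (hm 1) (hA 1 j)))).add
      (herm_real ε ((Herm.bil (herm_KA j) (hρ 0) (hρ 0)).add (Herm.bil (herm_KA j) (hρ 1) (hρ 1))))
  have hY : ∀ i j k, Herm (d.Y i j k Z) := fun i j k =>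
    ((Herm.bil (herm_KR1 j) (hm i) (hA i k)).add (Herm.bil (herm_KR1 k) (hm i) (hA i j))).add
      ((hm i).mul (Herm.bil (herm_KR2 j k) (hφ i) (hφ i)))
  have hR : ∀ j k, Herm (d.NR j k ε Z) := fun j k => by
    refine (((Herm.add ?_ ((Herm.bil (herm_KR1 j) (hd.cc k hZ) (hφ k)).add
      (Herm.bil (herm_KR1 k) (hd.cc j hZ) (hφ j))))).add ((hY 0 j k).add (hY 1 j k))).add
      (herm_real ε ((Herm.bil (herm_KR2 j k) (hρ 0) (hρ 0)).add
        (Herm.bil (herm_KR2 j k) (hρ 1) (hρ 1))))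
    split_ifs
    · exact (hd.sig j hZ).mul (hd.sig j hZ)
    · exact Herm.zero
  have hs : ∀ j, Herm (d.snl j ε Z) := fun j => (hR j j).add (herm_two ((hd.hb j j).mul (hQ j)))
  intro i
  fin_cases i
  · exact hQ 0
  · exact hQ 1
  · exact ((hd.her.mul ((hZ 2).mu fun n => by simp [m00, dm_neg, mlap_neg])).neg).add
      ((hd.hil.mul ((hR 0 1).add (((hd.hb 0 1).mul (hQ 1)).add ((hd.hb 1 0).mul (hQ 0))))).neg)
  · exact hs 0
  · exact hs 1

lemma Real'.limit (hd : d.Real') (ε : ℝ) {Z : St}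
    (hZ : ∀ i n, Tendsto (fun k => d.iter ε k i n) atTop (𝓝 (Z i n))) : ∀ i, Herm (Z i) := by
  have hk : ∀ k, ∀ i, Herm (d.iter ε k i) := fun k => by
    induction k with
    | zero => exact fun i => Herm.zero
    | succ k ih => exact hd.Phi ε ih
  intro i n
  refine tendsto_nhds_unique (hZ i (-n)) ?_
  have := (Complex.continuous_conj.tendsto _).comp (hZ i n)
  exact this.congr fun k => by simp [hk k i n]

end Dat

/-- weights `(1+δ|n|)^m` -/
def udm (δ : ℝ) (m : ℕ) (n : I) : ℝ := (1 + δ * sz n) ^ m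

lemma adm_udm {δ : ℝ} (hδ : 0 ≤ δ) (m : ℕ) : Adm (udm δ m) := by
  refine ⟨fun n => one_le_pow₀ (by nlinarith [sz_nonneg n]), fun a b => ?_⟩
  rw [udm, udm, udm, ← mul_pow]
  exact pow_le_pow_left₀ (by have := sz_nonneg (a + b); positivity)
    (by nlinarith [sz_add a b, mul_nonneg (mul_nonneg hδ (sz_nonneg a))
          (mul_nonneg hδ (sz_nonneg b))]) m

lemma udm_zero (δ : ℝ) : udm δ 0 = fun _ => 1 := by funext n; simp [udm]

lemma rapid_of_udm {c : I → ℂ}
    (h : ∀ m, ∃ δ a : ℝ, 0 < δ ∧ δ ≤ 1 ∧ Bd (udm δ m) c a) : Rapid c := by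
  intro m
  obtain ⟨δ, a, hδ, hδ1, hb⟩ := h m
  refine Summable.of_nonneg_of_le (fun n => by have := sz_nonneg n; positivity) (fun n => ?_)
    ((hb.summable (adm_udm hδ.le m)).mul_left ((1 / δ) ^ m))
  have h1 : (1 + sz n) ^ m ≤ (1 / δ) ^ m * udm δ m n := by
    rw [udm, ← mul_pow]
    refine pow_le_pow_left₀ (by linarith [sz_nonneg n]) ?_ m
    rw [div_mul_eq_mul_div, le_div_iff₀ hδ]
    nlinarith [sz_nonneg n]
  calc (1 + sz n) ^ m * ‖c n‖ ≤ ((1 / δ) ^ m * udm δ m n) * ‖c n‖ :=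
        mul_le_mul_of_nonneg_right h1 (norm_nonneg _)
    _ = (1 / δ) ^ m * (1 * udm δ m n * ‖c n‖) := by ring
    _ ≤ _ := by
      refine mul_le_mul_of_nonneg_left ?_ (by positivity)
      exact mul_le_mul_of_nonneg_right
        (mul_le_mul_of_nonneg_right (one_le_w2 n) ((adm_udm hδ.le m).pos n).le) (norm_nonneg _)

/-- the base norm of a rapidly decreasing sequence -/
def base (c : I → ℂ) : ℝ := ∑' n, w2 n * ‖c n‖

lemma base_nonneg (c : I → ℂ) : 0 ≤ base c :=
  tsum_nonneg fun n => mul_nonneg (w2_pos n).le (norm_nonneg _)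

lemma eventually_bd {c : I → ℂ} (hc : Rapid c) (m : ℕ) {B : ℝ} (hB : base c < B) :
    ∀ᶠ δ in 𝓝[>] (0 : ℝ), Bd (udm δ m) c B := by
  have hb : Summable fun n => w2 n * (1 + sz n) ^ m * ‖c n‖ := by
    refine (hc (2 + m)).congr fun n => ?_
    rw [w2, pow_add]
  have hmem : ∀ᶠ δ in 𝓝[>] (0 : ℝ), 0 < δ ∧ δ ≤ 1 := by
    filter_upwards [self_mem_nhdsWithin, nhdsWithin_le_nhds (Iic_mem_nhds one_pos)] with δ h1 h2
    exact ⟨h1, h2⟩
  have ht : Tendsto (fun δ => ∑' n, w2 n * udm δ m n * ‖c n‖) (𝓝[>] (0 : ℝ)) (𝓝 (base c)) := by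
    refine tendsto_tsum_of_dominated_convergence hb (fun n => ?_) ?_
    · have : Continuous fun δ : ℝ => w2 n * udm δ m n * ‖c n‖ := by unfold udm; fun_prop
      refine (this.tendsto 0).mono_left nhdsWithin_le_nhds |>.trans ?_
      simp [udm]
    · filter_upwards [hmem] with δ hδ n
      have h0 := (adm_udm hδ.1.le m).pos n
      rw [Real.norm_eq_abs, abs_of_nonneg (mul_nonneg (mul_nonneg (w2_pos n).le h0.le) (norm_nonneg _))]
      refine mul_le_mul_of_nonneg_right (mul_le_mul_of_nonneg_left ?_ (w2_pos n).le) (norm_nonneg _)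
      exact pow_le_pow_left₀ (by have := sz_nonneg n; have := hδ.1; positivity)
        (by nlinarith [sz_nonneg n, hδ.2]) m
  filter_upwards [hmem, ht.eventually (eventually_lt_nhds hB)] with δ hδ hlt
  have hu := adm_udm hδ.1.le m
  have hs : Summable fun n => w2 n * udm δ m n * ‖c n‖ := by
    refine Summable.of_nonneg_of_le
      (fun n => mul_nonneg (mul_nonneg (w2_pos n).le (hu.pos n).le) (norm_nonneg _)) (fun n => ?_) hb
    refine mul_le_mul_of_nonneg_right (mul_le_mul_of_nonneg_left ?_ (w2_pos n).le) (norm_nonneg _)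
    exact pow_le_pow_left₀ (by have := sz_nonneg n; have := hδ.1; positivity)
      (by nlinarith [sz_nonneg n, hδ.2]) m
  refine le_trans (le_of_eq ?_) (ENNReal.ofReal_le_ofReal hlt.le)
  rw [Nw, ENNReal.ofReal_tsum_of_nonneg
    (fun n => mul_nonneg (mul_nonneg (w2_pos n).le (hu.pos n).le) (norm_nonneg _)) hs]
  refine tsum_congr fun n => ?_
  rw [ENNReal.ofReal_mul (mul_nonneg (w2_pos n).le (hu.pos n).le), ofReal_norm]

end Vale.Agent.P205
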