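import Vale.Agent.P205.Fixed

/-!
# The fixed point solves the system
-/

noncomputable section

open scoped ENNReal ComplexConjugate Topology
open Filter

namespace Vale.Agent.P205

lemma D_add (j : Fin 2) (c p : I → ℂ) : D j (c + p) = D j c + D j p := by
  funext n; simp [D, Mu, mul_add]

lemma D_neg (j : Fin 2) (c : I → ℂ) : D j (-c) = -D j c := by
  funext n; simp [D, Mu]

lemma D_smul (j : Fin 2) (z : ℂ) (c : I → ℂ) : D j (z • c) = z • D j c := by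
  funext n; simp [D, Mu, mul_left_comm]

lemma D_sum {ι : Type*} (s : Finset ι) (j : Fin 2) (h : ι → ℂ) (c : ι → I → ℂ) :
    D j (∑ i ∈ s, h i • c i) = ∑ i ∈ s, h i • D j (c i) := by
  funext n; simp [D, Mu, Finset.mul_sum, mul_left_comm]

lemma s1_sum {ι : Type*} (s : Finset ι) {c : ι → I → ℂ} (hc : ∀ i ∈ s, S1 (c i)) :
    S1 (∑ i ∈ s, c i) :=
  Finset.sum_induction c S1 (fun _ _ => S1.add) S1.zero hc

lemma ev_sum {ι : Type*} (s : Finset ι) {c : ι → I → ℂ} (hc : ∀ i ∈ s, S1 (c i)) (x : V) :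
    ev (∑ i ∈ s, c i) x = ∑ i ∈ s, ev (c i) x := by
  classical
  induction s using Finset.induction_on with
  | empty => simp
  | insert i s hi ih =>
    rw [Finset.sum_insert hi, Finset.sum_insert hi,
      ev_add (hc i (Finset.mem_insert_self i s))
        (s1_sum s fun j hj => hc j (Finset.mem_insert_of_mem hj)),
      ih fun j hj => hc j (Finset.mem_insert_of_mem hj)]

lemma ev_sum_smul {ι : Type*} (s : Finset ι) (h : ι → ℂ) {c : ι → I → ℂ}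
    (hc : ∀ i ∈ s, S1 (c i)) (x : V) :
    ev (∑ i ∈ s, h i • c i) x = ∑ i ∈ s, h i * ev (c i) x := by
  rw [ev_sum s fun i hi => (hc i hi).smul _]
  exact Finset.sum_congr rfl fun i _ => ev_smul _ _ _

/-- a finite norm in the base weight -/
def Fin1 (c : I → ℂ) : Prop := ∃ a : ℝ, 0 ≤ a ∧ Bd (fun _ => 1) c a

lemma Fin1.s1 {c : I → ℂ} : Fin1 c → S1 c := fun ⟨_, _, h⟩ => h.s1 adm_one
lemma Fin1.d {c : I → ℂ} (j : Fin 2) : Fin1 c → S1 (D j c) := fun ⟨_, _, h⟩ => h.s1D adm_one j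
lemma Fin1.add {c p : I → ℂ} : Fin1 c → Fin1 p → Fin1 (c + p) :=
  fun ⟨_, ha, h⟩ ⟨_, hb, h'⟩ => ⟨_, add_nonneg ha hb, h.add h' ha hb⟩
lemma Fin1.neg {c : I → ℂ} : Fin1 c → Fin1 (-c) := fun ⟨a, ha, h⟩ => ⟨a, ha, h.neg⟩
lemma Fin1.smul {c : I → ℂ} (z : ℂ) : Fin1 c → Fin1 (z • c) :=
  fun ⟨_, ha, h⟩ => ⟨_, mul_nonneg (norm_nonneg _) ha, h.smul z⟩
lemma Fin1.bil {c p K : _} {C : ℝ} (hC : 0 ≤ C) (hK : KBd K C) :
    Fin1 c → Fin1 p → Fin1 (Bil K c p) :=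
  fun ⟨_, ha, h⟩ ⟨_, hb, h'⟩ => ⟨_, by positivity, h.bil adm_one hC hK h' ha⟩
lemma Fin1.mul {c p : I → ℂ} (hc : Fin1 c) (hp : Fin1 p) : Fin1 (P205.mul c p) :=
  hc.bil zero_le_one kbd_one hp
lemma Fin1.mu {c m : I → ℂ} {C : ℝ} (hC : 0 ≤ C) (hm : ∀ n, ‖m n‖ ≤ C) :
    Fin1 c → Fin1 (Mu m c) :=
  fun ⟨_, ha, h⟩ => ⟨_, mul_nonneg hC ha, h.mu hC hm⟩

lemma Ord.fin1 {G : (I → ℝ) → Prop} {p : ℕ} {F : St → I → ℂ} (h : Ord G p F)
    (h1 : G fun _ => 1) {r : ℝ} (hr : 0 ≤ r) (hr1 : r ≤ 1) {Z : St}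
    (hZ : Ball (fun _ => 1) r Z) : Fin1 (F Z) := by
  obtain ⟨K, hK, hk⟩ := h
  exact ⟨_, by positivity, (hk _ h1 r hr hr1).1 Z hZ⟩

lemma ev_decomp1 {c p : I → ℂ} (hc : Fin1 c) (hp : Fin1 p) (j : Fin 2) (x : V) :
    ev c x * ev (D j p) x = ev (D j (Bil KT c p)) x + ev (Bil (KR1 j) c p) x := by
  have h1 := (hc.bil zero_le_one kbd_T hp).d j
  have h2 := (hc.bil (by norm_num) (kbd_R1 j) hp).s1
  obtain ⟨a, -, ha⟩ := hc
  obtain ⟨b, -, hb⟩ := hp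
  rw [← ev_mul (ha.s1 adm_one) (hb.s1D adm_one j), decomp1 adm_one ha hb j, ev_add h1 h2]

lemma ev_decomp2 {p : I → ℂ} (hp : Fin1 p) (j k : Fin 2) (x : V) :
    ev (D j p) x * ev (D k p) x =
      ev (D j (Bil (KA k) p p)) x + ev (D k (Bil (KA j) p p)) x + ev (Bil (KR2 j k) p p) x := by
  have h1 := (hp.bil (by norm_num) (kbd_A k) hp).d j
  have h2 := (hp.bil (by norm_num) (kbd_A j) hp).d k
  have h3 := (hp.bil (by norm_num) (kbd_R2 j k) hp).s1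
  obtain ⟨b, -, hb⟩ := hp
  rw [← ev_mul (hb.s1D adm_one j) (hb.s1D adm_one k), decomp2 adm_one hb j k,
    ev_add (h1.add h2) h3, ev_add h1 h2]

lemma ev_D_mul {c p : I → ℂ} (hc : Fin1 c) (hp : Fin1 p) (j : Fin 2) (x : V) :
    ev (D j (mul c p)) x = ev (D j c) x * ev p x + ev c x * ev (D j p) x := by
  rw [D_mul hc.s1 hp.s1 j (hc.d j) (hp.d j), ev_add ((hc.d j).mul hp.s1) (hc.s1.mul (hp.d j)),
    ev_mul (hc.d j) hp.s1, ev_mul hc.s1 (hp.d j)]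

namespace Dat

variable {d : Dat} {B B' : ℝ}

/-- the algebraic relations between the data -/
structure Spec (d : Dat) (rr : I → ℂ) : Prop where
  hN : 1 ≤ d.N
  srr : S1 rr
  sq : ∀ i x, ev (d.rho0 i) x * ev (d.rho0 i) x = ev (d.a i) x
  inv : ∀ i x, ev (d.a i) x * ev (d.ia i) x = 1
  dinv : ∀ i j x, ev (D j (d.a i)) x * ev (d.ia i) x + ev (d.a i) x * ev (D j (d.ia i)) x = 0
  irho : ∀ i x, 2 * (ev (d.rho0 i) x * ev (d.irho i) x) = 1
  hb : ∀ i j x, ev (d.b i j) x = ev (D i (d.a j)) x * ev (d.ia j) x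
  hil : ∀ x, ev (d.a 0) x * ev d.il x = 1
  a1 : ∀ x, ev (d.a 1) x = ev (d.a 0) x * ev rr x
  hir : ∀ x, ev rr x * ev d.ir x = 1
  her : ∀ x, ev d.er x = ev rr x * ev d.dir x
  hdir : ∀ j, D j d.ir = d.dir
  tau : ∀ n, D 1 (d.tau 0 n) + mul rr (D 0 (d.tau 1 n)) = Pi.single n 1

lemma mem_low {n : I} : n ∈ d.low ↔ sz n ≤ d.N := by
  simp only [low, Finset.mem_filter, Fintype.mem_piFinset, Finset.mem_Icc, and_iff_right_iff_imp]
  intro h j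
  have h1 := abs_le.1 ((abs_le_sz n j).trans h)
  exact ⟨by exact_mod_cast h1.1, by exact_mod_cast h1.2⟩

lemma split_freq (h : I → ℂ) :
    Mu (fun n => dm 1 n * d.m01 n) h + Mu (fun n => dm 0 n * d.m00 n) h +
      ∑ n ∈ d.low, h n • (Pi.single n 1 : I → ℂ) = h := by
  funext k
  simp only [Pi.add_apply, Finset.sum_apply, Pi.smul_apply, smul_eq_mul, Pi.single_apply,
    mul_ite, mul_one, mul_zero, Finset.sum_ite_eq, mem_low, Mu, m00, m01, mlap]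
  by_cases hk : (d.N : ℝ) < sz k
  · simp only [if_pos hk, if_neg (not_le.2 hk), add_zero]
    have hne : dm 0 k * dm 0 k + dm 1 k * dm 1 k ≠ 0 := by
      intro h0
      have h1 := norm_dm_sq k
      rw [h0, norm_zero, eq_comm, mul_eq_zero] at h1
      have h2 := sq_sum_ge k
      have hs : 0 < sz k := lt_of_le_of_lt (Nat.cast_nonneg d.N) hk
      rcases h1 with h1 | h1
      · exact absurd h1 (by positivity)
      · nlinarith
    linear_combination h k * mul_inv_cancel₀ hne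
  · simp only [if_neg hk, if_pos (not_lt.1 hk)]
    ring

variable {rr : I → ℂ}

lemma fin1_tau (h1 : d.Good B B' fun _ => 1) (hB' : 0 ≤ B') (i : Fin 2) {n : I} (hn : n ∈ d.low) :
    Fin1 (d.tau i n) := ⟨B', hB', h1.htau i n hn⟩

lemma D_phiH (hs : Spec d rr) (h1 : d.Good B B' fun _ => 1) (hB : 0 ≤ B) {h : I → ℂ}
    (hh : Fin1 h) (i : Fin 2) : D i (d.phiH i h) = d.dphiH i h := by
  rw [phiH, dphiH, D_add, D_sum]
  congr 1
  fin_cases i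
  · funext n
    simp [D, Mu, m01, mm, mul_assoc]
  · have hm : Fin1 (Mu d.m00 h) := hh.mu (by positivity) (d.norm_m00 hs.hN)
    have hir : Fin1 d.ir := ⟨B, hB, h1.hir⟩
    have e : D 1 (Mu d.m00 h) = Mu d.mm h := by
      funext n; simp [D, Mu, m00, mm]; ring
    simp only [Fin.mk_one, Fin.isValue, one_ne_zero, if_false]
    rw [D_mul hir.s1 hm.s1 1 (hir.d 1) (hm.d 1), hs.hdir, e]

lemma off_diag (hs : Spec d rr) (h1 : d.Good B B' fun _ => 1) (hB : 0 ≤ B) (hB' : 0 ≤ B')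
    {h : I → ℂ} (hh : Fin1 h) (x : V) :
    ev (D 1 (d.phiH 0 h)) x + ev rr x * ev (D 0 (d.phiH 1 h)) x = ev h x + ev (d.err h) x := by
  have hm0 : Fin1 (Mu d.m00 h) := hh.mu (by positivity) (d.norm_m00 hs.hN)
  have hm1 : Fin1 (Mu d.m01 h) := hh.mu (by positivity) (d.norm_m01 hs.hN)
  have hir : Fin1 d.ir := ⟨B, hB, h1.hir⟩
  have her : Fin1 d.er := ⟨B, hB, h1.her⟩
  have ht := fun i n (hn : n ∈ d.low) => fin1_tau h1 hB' i hn
  have e1 : D 1 (Mu d.m01 h) = Mu (fun n => dm 1 n * d.m01 n) h := by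
    funext n; simp [D, Mu, mul_assoc]
  have e0 : D 0 (Mu d.m00 h) = Mu (fun n => dm 0 n * d.m00 n) h := by
    funext n; simp [D, Mu, mul_assoc]
  have hev := congrArg (fun c => ev c x) (split_freq (d := d) h)
  have s1 := hm1.d 1
  have s0 := hm0.d 0
  rw [e1] at s1
  rw [e0] at s0
  have t0 : ∀ n ∈ d.low, S1 (D 1 (d.tau 0 n)) := fun n hn => (ht 0 n hn).d 1
  have t1 : ∀ n ∈ d.low, S1 (D 0 (d.tau 1 n)) := fun n hn => (ht 1 n hn).d 0
  simp only [ev_add (s1.add s0) (s1_sum _ fun n _ => (S1.single n 1).smul _), ev_add s1 s0,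
    ev_sum_smul d.low h fun n _ => S1.single n 1] at hev
  have hsum : ∑ n ∈ d.low, h n * ev (Pi.single n 1) x =
      ∑ n ∈ d.low, h n * ev (D 1 (d.tau 0 n)) x +
        ev rr x * ∑ n ∈ d.low, h n * ev (D 0 (d.tau 1 n)) x := by
    rw [Finset.mul_sum, ← Finset.sum_add_distrib]
    refine Finset.sum_congr rfl fun n hn => ?_
    rw [← hs.tau n, ev_add (t0 n hn) (hs.srr.mul (t1 n hn)), ev_mul hs.srr (t1 n hn)]
    ring
  have p0 : ev (D 1 (d.phiH 0 h)) x = ev (Mu (fun n => dm 1 n * d.m01 n) h) x +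
      ∑ n ∈ d.low, h n * ev (D 1 (d.tau 0 n)) x := by
    rw [phiH, if_pos rfl, D_add, D_sum, e1,
      ev_add s1 (s1_sum _ fun n hn => (t0 n hn).smul _), ev_sum_smul _ _ t0]
  have p1 : ev (D 0 (d.phiH 1 h)) x = (ev d.dir x * ev (Mu d.m00 h) x +
      ev d.ir x * ev (Mu (fun n => dm 0 n * d.m00 n) h) x) +
      ∑ n ∈ d.low, h n * ev (D 0 (d.tau 1 n)) x := by
    rw [phiH, if_neg one_ne_zero, D_add, D_sum,
      ev_add ((hir.mul hm0).d 0) (s1_sum _ fun n hn => (t1 n hn).smul _), ev_sum_smul _ _ t1,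
      ev_D_mul hir hm0, hs.hdir, e0]
  rw [p0, p1, err, ev_mul her.s1 hm0.s1, hs.her]
  linear_combination hev - hsum + ev (Mu (fun n => dm 0 n * d.m00 n) h) x * hs.hir x

/-- the exact expansion of the nonlinear terms -/
lemma nonlinear (hB : 0 ≤ B) (hB' : 0 ≤ B') (hN : 1 ≤ d.N) (h1 : d.Good B B' fun _ => 1)
    {r : ℝ} (hr : 0 ≤ r) (hr1 : r ≤ 1) {Z : St} (hZ : Ball (fun _ => 1) r Z) (ε : ℝ)
    (j k : Fin 2) (x : V) :
    ev (D j (d.NQ k ε Z)) x + ev (D k (d.NQ j ε Z)) x + ev (d.NR j k ε Z) x =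
      (if j = k then ev (d.sig j Z) x * ev (d.sig j Z) x else 0) +
      (ev (d.cc j Z) x * ev (D k (d.phi j Z)) x + ev (d.cc k Z) x * ev (D j (d.phi k Z)) x) +
      (ev (d.mr 0 Z) x * (ev (D j (d.phi 0 Z)) x * ev (D k (d.phi 0 Z)) x) +
        ev (d.mr 1 Z) x * (ev (D j (d.phi 1 Z)) x * ev (D k (d.phi 1 Z)) x)) +
      (ε : ℂ) * (ev (D j (d.rho 0 Z)) x * ev (D k (d.rho 0 Z)) x +
        ev (D j (d.rho 1 Z)) x * ev (D k (d.rho 1 Z)) x) := by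
  have c := fun i => (d.ord_cc hB hB' hN i).fin1 h1 hr hr1 hZ
  have p := fun i => (d.ord_phi hB hB' hN i).fin1 h1 hr hr1 hZ
  have ρ := fun i => (d.ord_rho hB hB' hN i).fin1 h1 hr hr1 hZ
  have m := fun i => (d.ord_mr hB hB' hN i).fin1 h1 hr hr1 hZ
  have A := fun i l => (d.ord_AA hB hB' hN i l).fin1 h1 hr hr1 hZ
  have σ := fun i => (d.ord_sig hB hB' hN i).fin1 h1 hr hr1 hZ
  have fAρ : ∀ i l, Fin1 (d.Aρ i l Z) := fun i l => (ρ i).bil (by norm_num) (kbd_A l) (ρ i)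
  have Tc : ∀ l, Fin1 (Bil KT (d.cc l Z) (d.phi l Z)) := fun l =>
    (c l).bil zero_le_one kbd_T (p l)
  have Tm : ∀ i l, Fin1 (Bil KT (d.mr i Z) (d.AA i l Z)) := fun i l =>
    (m i).bil zero_le_one kbd_T (A i l)
  have R1c : ∀ i l, Fin1 (Bil (KR1 i) (d.cc l Z) (d.phi l Z)) := fun i l =>
    (c l).bil (by norm_num) (kbd_R1 i) (p l)
  have R1m : ∀ l i q, Fin1 (Bil (KR1 l) (d.mr i Z) (d.AA i q Z)) := fun l i q =>
    (m i).bil (by norm_num) (kbd_R1 l) (A i q)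
  have R2 : ∀ i, Fin1 (d.RR i j k Z) := fun i => (p i).bil (by norm_num) (kbd_R2 j k) (p i)
  have mR2 : ∀ i, Fin1 (mul (d.mr i Z) (d.RR i j k Z)) := fun i => (m i).mul (R2 i)
  have R2ρ : ∀ i, Fin1 (d.Rρ i j k Z) := fun i => (ρ i).bil (by norm_num) (kbd_R2 j k) (ρ i)
  have hQ : ∀ i l, ev (D i (d.NQ l ε Z)) x = ev (D i (Bil KT (d.cc l Z) (d.phi l Z))) x +
      (ev (D i (Bil KT (d.mr 0 Z) (d.AA 0 l Z))) x + ev (D i (Bil KT (d.mr 1 Z) (d.AA 1 l Z))) x) +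
      (ε : ℂ) * (ev (D i (d.Aρ 0 l Z)) x + ev (D i (d.Aρ 1 l Z)) x) := fun i l => by
    have a1 := (Tc l).d i
    have a2 := (Tm 0 l).d i
    have a3 := (Tm 1 l).d i
    have a4 := (fAρ 0 l).d i
    have a5 := (fAρ 1 l).d i
    rw [NQ]
    simp only [D_add, D_smul]
    rw [ev_add (a1.add (a2.add a3)) ((a4.add a5).smul _), ev_add a1 (a2.add a3), ev_add a2 a3,
      ev_smul, ev_add a4 a5]
  have hY : ∀ i, ev (d.Y i j k Z) x = ev (Bil (KR1 j) (d.mr i Z) (d.AA i k Z)) x +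
      ev (Bil (KR1 k) (d.mr i Z) (d.AA i j Z)) x + ev (d.mr i Z) x * ev (d.RR i j k Z) x :=
    fun i => by
    rw [Y, ev_add ((R1m j i k).add (R1m k i j)).s1 (mR2 i).s1,
      ev_add (R1m j i k).s1 (R1m k i j).s1, ev_mul (m i).s1 (R2 i).s1]
  have hR : ev (d.NR j k ε Z) x = (if j = k then ev (d.sig j Z) x * ev (d.sig j Z) x else 0) +
      (ev (Bil (KR1 j) (d.cc k Z) (d.phi k Z)) x + ev (Bil (KR1 k) (d.cc j Z) (d.phi j Z)) x) +
      (ev (d.Y 0 j k Z) x + ev (d.Y 1 j k Z) x) +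
      (ε : ℂ) * (ev (d.Rρ 0 j k Z) x + ev (d.Rρ 1 j k Z) x) := by
    have b2 := (R1c j k).add (R1c k j)
    have bY : ∀ i, Fin1 (d.Y i j k Z) := fun i => ((R1m j i k).add (R1m k i j)).add (mR2 i)
    have b4 := ((R2ρ 0).add (R2ρ 1)).smul (ε : ℂ)
    rw [NR]
    split_ifs
    · have b1 := (σ j).mul (σ j)
      rw [ev_add ((b1.add b2).add ((bY 0).add (bY 1))).s1 b4.s1,
        ev_add (b1.add b2).s1 ((bY 0).add (bY 1)).s1, ev_add b1.s1 b2.s1,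
        ev_mul (σ j).s1 (σ j).s1, ev_add (R1c j k).s1 (R1c k j).s1, ev_add (bY 0).s1 (bY 1).s1,
        ev_smul, ev_add (R2ρ 0).s1 (R2ρ 1).s1]
    · rw [zero_add, zero_add, ev_add (b2.add ((bY 0).add (bY 1))).s1 b4.s1,
        ev_add b2.s1 ((bY 0).add (bY 1)).s1, ev_add (R1c j k).s1 (R1c k j).s1,
        ev_add (bY 0).s1 (bY 1).s1, ev_smul, ev_add (R2ρ 0).s1 (R2ρ 1).s1]
  rw [hQ, hQ, hR, hY, hY, ev_decomp1 (c j) (p j) k x, ev_decomp1 (c k) (p k) j x,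
    ev_decomp2 (p 0) j k x, ev_decomp2 (p 1) j k x, ev_decomp2 (ρ 0) j k x,
    ev_decomp2 (ρ 1) j k x]
  simp only [AA, RR, Aρ, Rρ]
  have q : ∀ i l w, ev (d.mr i Z) x * ev (D l (Bil (KA w) (d.phi i Z) (d.phi i Z))) x =
      ev (D l (Bil KT (d.mr i Z) (Bil (KA w) (d.phi i Z) (d.phi i Z)))) x +
      ev (Bil (KR1 l) (d.mr i Z) (Bil (KA w) (d.phi i Z) (d.phi i Z))) x :=
    fun i l w => ev_decomp1 (m i) (A i w) l x
  linear_combination - (q 0 j k) - q 0 k j - q 1 j k - q 1 k j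

lemma ev_mr (hB : 0 ≤ B) (hB' : 0 ≤ B') (hs : Spec d rr) (h1 : d.Good B B' fun _ => 1)
    {r : ℝ} (hr : 0 ≤ r) (hr1 : r ≤ 1) {Z : St} (hZ : Ball (fun _ => 1) r Z) (i : Fin 2) (x : V) :
    ev (d.rho i Z) x * ev (d.rho i Z) x = ev (d.a i) x + ev (d.cc i Z) x ∧
    ev (d.mr i Z) x = ev (d.rho i Z) x * ev (d.rho i Z) x ∧
    ev (d.cc i Z) x = 2 * (ev (d.rho0 i) x * ev (d.sig i Z) x) +
      ev (d.sig i Z) x * ev (d.sig i Z) x := by
  have hσ := (d.ord_sig hB hB' hs.hN i).fin1 h1 hr hr1 hZ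
  have hρ0 : Fin1 (d.rho0 i) := ⟨B, hB, h1.hrho i⟩
  have hρ := (d.ord_rho hB hB' hs.hN i).fin1 h1 hr hr1 hZ
  have e : ev (d.cc i Z) x = 2 * (ev (d.rho0 i) x * ev (d.sig i Z) x) +
      ev (d.sig i Z) x * ev (d.sig i Z) x := by
    rw [cc, ev_add ((hρ0.mul hσ).smul 2).s1 (hσ.mul hσ).s1, ev_smul, ev_mul hρ0.s1 hσ.s1,
      ev_mul hσ.s1 hσ.s1]
  refine ⟨?_, by rw [mr, ev_mul hρ.s1 hρ.s1], e⟩
  rw [e, rho, ev_add hρ0.s1 hσ.s1]
  linear_combination hs.sq i x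

/-- the system solved by a fixed point -/
theorem solves (hB : 0 ≤ B) (hB' : 0 ≤ B') (hs : Spec d rr) (h1 : d.Good B B' fun _ => 1)
    {r : ℝ} (hr : 0 ≤ r) (hr1 : r ≤ 1) {Z : St} (hZ : Ball (fun _ => 1) r Z) {ε : ℝ}
    (hfix : d.Phi ε Z = Z) (j k : Fin 2) (x : V) :
    ev (d.rho 0 Z) x * ev (d.rho 0 Z) x *
        (((if 0 = j then 1 else 0) + ev (D j (d.phi 0 Z)) x) *
          ((if 0 = k then 1 else 0) + ev (D k (d.phi 0 Z)) x)) +
      ev (d.rho 1 Z) x * ev (d.rho 1 Z) x *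
        (((if 1 = j then 1 else 0) + ev (D j (d.phi 1 Z)) x) *
          ((if 1 = k then 1 else 0) + ev (D k (d.phi 1 Z)) x)) +
      (ε : ℂ) * (ev (D j (d.rho 0 Z)) x * ev (D k (d.rho 0 Z)) x +
        ev (D j (d.rho 1 Z)) x * ev (D k (d.rho 1 Z)) x) =
      if j = k then ev (d.a j) x else 0 := by
  have hN := hs.hN
  have hFZ : ∀ i, Fin1 (Z i) := fun i => ⟨r, hr, hZ i⟩
  have q0 : d.NQ 0 ε Z = Z 0 := congrFun hfix 0
  have q1 : d.NQ 1 ε Z = Z 1 := congrFun hfix 1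
  have q2 : -d.err (Z 2) + d.hnl ε Z = Z 2 := congrFun hfix 2
  have q3 : d.snl 0 ε Z = Z 3 := congrFun hfix 3
  have q4 : d.snl 1 ε Z = Z 4 := congrFun hfix 4
  have hia : ∀ i, Fin1 (d.ia i) := fun i => ⟨B, hB, h1.hia i⟩
  have hb : ∀ i l, Fin1 (d.b i l) := fun i l => ⟨B, hB, h1.hb i l⟩
  have ha : ∀ i, Fin1 (d.a i) := fun i => ⟨B, hB, h1.ha i⟩
  have hirho : ∀ i, Fin1 (d.irho i) := fun i => ⟨B, hB, h1.hirho i⟩
  have hil : Fin1 d.il := ⟨B, hB, h1.hil⟩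
  have her : Fin1 d.er := ⟨B, hB, h1.her⟩
  have hφ := fun i => (d.ord_phi hB hB' hN i).fin1 h1 hr hr1 hZ
  have hdH := fun i => (d.ord_dphiH hB hB' hN i).fin1 h1 hr hr1 hZ
  have hH : ∀ i, Fin1 (d.phiH i (Z 2)) := fun i => by
    have e : d.phiH i (Z 2) = d.phi i Z + mul (d.ia i) (Z (qz i)) := by simp [phi]
    rw [e]; exact (hφ i).add ((hia i).mul (hFZ _))
  -- derivative of the phase
  have hDφ : ∀ i l, ev (d.a i) x * ev (D l (d.phi i Z)) x =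
      -ev (D l (Z (qz i))) x + ev (d.b l i) x * ev (Z (qz i)) x +
      ev (d.a i) x * ev (D l (d.phiH i (Z 2))) x := fun i l => by
    rw [phi, D_add, D_neg, ev_add (((hia i).mul (hFZ _)).d l).neg ((hH i).d l), ev_neg,
      ev_D_mul (hia i) (hFZ _), hs.hb]
    linear_combination (-ev (Z (qz i)) x) * hs.dinv i l x
      - ev (D l (Z (qz i))) x * hs.inv i x
  have hqz0 : qz 0 = 0 := rfl
  have hqz1 : qz 1 = 1 := rfl
  -- diagonal
  have hdiag : ∀ i, 2 * (ev (d.rho0 i) x * ev (d.sig i Z) x) =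
      -ev (Z (sz' i)) x - 2 * (ev (d.a i) x * ev (D i (d.phiH i (Z 2))) x) := fun i => by
    rw [sig, ev_mul (hirho i).s1 ((hFZ _).neg.add (((ha i).mul (hdH i)).smul 2).neg).s1,
      ev_add (hFZ _).neg.s1 (((ha i).mul (hdH i)).smul 2).neg.s1, ev_neg, ev_neg, ev_smul,
      ev_mul (ha i).s1 (hdH i).s1, ← D_phiH hs h1 hB (hFZ 2) i]
    linear_combination (-ev (Z (sz' i)) x - 2 * (ev (d.a i) x * ev (D i (d.phiH i (Z 2))) x))
      * hs.irho i x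
  have hR : ∀ a b, Fin1 (d.NR a b ε Z) := fun a b => by
    obtain ⟨K, hK, hk⟩ := d.p2_NR hB hB' hN a b
    rcases le_or_gt 0 ε with hε | hε
    · exact ⟨_, by positivity, (hk _ h1 r hr hr1 ε hε).1 Z hZ⟩
    · have h' := (hk _ h1 r hr hr1 0 le_rfl).1 Z hZ
      have ρ := fun i => (d.ord_rho hB hB' hN i).fin1 h1 hr hr1 hZ
      have e : d.NR a b ε Z = d.NR a b 0 Z + (ε : ℂ) • (d.Rρ 0 a b Z + d.Rρ 1 a b Z) := by
        simp [NR]
      rw [e]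
      exact Fin1.add ⟨_, by positivity, h'⟩
        ((((ρ 0).bil (by norm_num) (kbd_R2 a b) (ρ 0)).add
          ((ρ 1).bil (by norm_num) (kbd_R2 a b) (ρ 1))).smul _)
  have hS : ∀ i : Fin 2, ev (Z (sz' i)) x =
      ev (d.NR i i ε Z) x + 2 * (ev (d.b i i) x * ev (Z (qz i)) x) := fun i => by
    fin_cases i
    · show ev (Z 3) x = _
      rw [← q3, snl, q0, ev_add (hR 0 0).s1 (((hb 0 0).mul (hFZ 0)).smul 2).s1, ev_smul,
        ev_mul (hb 0 0).s1 (hFZ 0).s1]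
      rfl
    · show ev (Z 4) x = _
      rw [← q4, snl, q1, ev_add (hR 1 1).s1 (((hb 1 1).mul (hFZ 1)).smul 2).s1, ev_smul,
        ev_mul (hb 1 1).s1 (hFZ 1).s1]
      rfl
  -- off-diagonal
  have hoff : ev (d.a 0) x * ev (D 1 (d.phiH 0 (Z 2))) x +
      ev (d.a 1) x * ev (D 0 (d.phiH 1 (Z 2))) x =
      -(ev (d.NR 0 1 ε Z) x + (ev (d.b 0 1) x * ev (Z 1) x + ev (d.b 1 0) x * ev (Z 0) x)) := by
    have herr : Fin1 (d.err (Z 2)) := her.mul ((hFZ 2).mu (by positivity) (d.norm_m00 hN))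
    have hin := (hR 0 1).add (((hb 0 1).mul (hFZ 1)).add ((hb 1 0).mul (hFZ 0)))
    have e := congrArg (fun c => ev c x) q2
    simp only [hnl, q0, q1, ev_add herr.neg.s1 (hil.mul hin).neg.s1, ev_neg, ev_mul hil.s1 hin.s1,
      ev_add (hR 0 1).s1 (((hb 0 1).mul (hFZ 1)).add ((hb 1 0).mul (hFZ 0))).s1,
      ev_add ((hb 0 1).mul (hFZ 1)).s1 ((hb 1 0).mul (hFZ 0)).s1,
      ev_mul (hb 0 1).s1 (hFZ 1).s1, ev_mul (hb 1 0).s1 (hFZ 0).s1] at e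
    have o := off_diag hs h1 hB hB' (hFZ 2) x
    rw [hs.a1]
    linear_combination ev (d.a 0) x * o - ev (d.a 0) x * e
      - (ev (d.NR 0 1 ε Z) x + (ev (d.b 0 1) x * ev (Z 1) x + ev (d.b 1 0) x * ev (Z 0) x))
        * hs.hil x
  obtain ⟨m0, m0', c0⟩ := ev_mr hB hB' hs h1 hr hr1 hZ 0 x
  obtain ⟨m1, m1', c1⟩ := ev_mr hB hB' hs h1 hr hr1 hZ 1 x
  have hnl0 := nonlinear hB hB' hN h1 hr hr1 hZ ε j k x
  fin_cases j <;> fin_cases k
  · simp only [Fin.zero_eta, Fin.mk_one, Fin.isValue, if_true, one_ne_zero, zero_ne_one,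
      if_false] at hnl0 ⊢
    have h0 := hS 0
    have h2 := hDφ 0 0
    have h3 := hdiag 0
    simp only [hqz0] at h0 h2
    rw [q0] at hnl0
    rw [m0', m1'] at hnl0
    linear_combination -hnl0 + m0 + c0 + h3 - h0 + 2 * h2
      + 2 * ev (D 0 (d.phi 0 Z)) x * m0
  · simp only [Fin.zero_eta, Fin.mk_one, Fin.isValue, if_true, one_ne_zero, zero_ne_one,
      if_false] at hnl0 ⊢
    have h2 := hDφ 0 1
    have h3 := hDφ 1 0
    simp only [hqz0, hqz1] at h2 h3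
    rw [q0, q1, m0', m1'] at hnl0
    linear_combination -hnl0 + h2 + h3 + hoff
      + ev (D 1 (d.phi 0 Z)) x * m0 + ev (D 0 (d.phi 1 Z)) x * m1
  · simp only [Fin.zero_eta, Fin.mk_one, Fin.isValue, if_true, one_ne_zero, zero_ne_one,
      if_false] at hnl0 ⊢
    have h2 := hDφ 0 1
    have h3 := hDφ 1 0
    simp only [hqz0, hqz1] at h2 h3
    have hnl1 := nonlinear hB hB' hN h1 hr hr1 hZ ε 0 1 x
    simp only [zero_ne_one, if_false] at hnl1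
    rw [q0, q1, m0', m1'] at hnl1
    linear_combination -hnl1 + h2 + h3 + hoff
      + ev (D 1 (d.phi 0 Z)) x * m0 + ev (D 0 (d.phi 1 Z)) x * m1
  · simp only [Fin.zero_eta, Fin.mk_one, Fin.isValue, if_true, one_ne_zero, zero_ne_one,
      if_false] at hnl0 ⊢
    have h0 := hS 1
    have h2 := hDφ 1 1
    have h3 := hdiag 1
    simp only [hqz1] at h0 h2
    rw [q1] at hnl0
    rw [m0', m1'] at hnl0
    linear_combination -hnl0 + m1 + c1 + h3 - h0 + 2 * h2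
      + 2 * ev (D 1 (d.phi 1 Z)) x * m1

end Dat

end Vale.Agent.P205
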