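import Vale.Agent.P205.Bil

/-!
# Smooth periodic functions versus rapidly decreasing sequences; Parseval
-/

noncomputable section

open scoped ENNReal ComplexConjugate ContDiff
open MeasureTheory Filter Topology

namespace Vale.Agent.P205

/-- The measure on `ℝ / ℤ` (same normalisation as in `Mathlib.Analysis.Fourier.AddCircleMulti`). -/
local instance : MeasureSpace UnitAddCircle := ⟨AddCircle.haarAddCircle⟩

local instance : Measure.IsAddHaarMeasure (volume : Measure UnitAddCircle) :=
  inferInstanceAs (Measure.IsAddHaarMeasure AddCircle.haarAddCircle)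

local instance : IsProbabilityMeasure (volume : Measure UnitAddCircle) :=
  inferInstanceAs (IsProbabilityMeasure AddCircle.haarAddCircle)

open UnitAddTorus

abbrev TT := UnitAddTorus (Fin 2)

/-- the projection `ℝ² → ℝ²/ℤ²` -/
def proj (x : V) : TT := Pi.map (fun _ => (QuotientAddGroup.mk : ℝ → UnitAddCircle)) x

lemma proj_apply (x : V) (i : Fin 2) : proj x i = (x i : UnitAddCircle) := rfl

lemma proj_openQuotient : IsOpenQuotientMap proj :=
  IsOpenQuotientMap.piMap fun _ => QuotientAddGroup.isOpenQuotientMap_mk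

lemma mFourier_proj (n : I) (x : V) : mFourier n (proj x) = e n x := by
  simp only [mFourier, ContinuousMap.coe_mk, proj_apply, Fin.prod_univ_two, fourier_coe_apply, e,
    ← Complex.exp_add]
  congr 1
  push_cast
  ring

lemma periodic2_int {α : Type*} {f : V → α} (hf : Periodic2 f) (x : V) (j : Fin 2) (k : ℤ) :
    f (x + (k : ℝ) • ev1 j) = f x := by
  induction k using Int.induction_on with
  | zero => simp
  | succ k ih =>
    have : x + (((k : ℤ) + 1 : ℤ) : ℝ) • ev1 j = (x + ((k : ℤ) : ℝ) • ev1 j) + ev1 j := by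
      push_cast; module
    rw [this, hf, ih]
  | pred k ih =>
    have : x + ((-(k : ℤ) - 1 : ℤ) : ℝ) • ev1 j + ev1 j = x + ((-(k : ℤ) : ℤ) : ℝ) • ev1 j := by
      push_cast; module
    rw [← hf (x + ((-(k : ℤ) - 1 : ℤ) : ℝ) • ev1 j) j, this, ih]

lemma periodic2_lattice {α : Type*} {f : V → α} (hf : Periodic2 f) (x : V) (k : I) :
    f (x + fun i => (k i : ℝ)) = f x := by
  have : (x + fun i => (k i : ℝ)) = x + (k 0 : ℝ) • ev1 0 + (k 1 : ℝ) • ev1 1 := by
    conv_lhs => rw [vec_decomp (fun i => (k i : ℝ))]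
    abel
  rw [this, periodic2_int hf, periodic2_int hf]

lemma proj_eq_proj {x y : V} (h : proj x = proj y) : ∃ k : I, y = x + fun i => (k i : ℝ) := by
  have h' : ∀ i, ∃ k : ℤ, (k : ℝ) = y i - x i := fun i => by
    have := congrFun h i
    rw [proj_apply, proj_apply, eq_comm, ← sub_eq_zero, ← AddCircle.coe_sub,
      AddCircle.coe_eq_zero_iff] at this
    obtain ⟨k, hk⟩ := this
    exact ⟨k, by rw [zsmul_eq_mul, mul_one] at hk; exact hk⟩
  choose k hk using h'
  exact ⟨k, funext fun i => by simp [hk i]⟩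

/-- lift of a periodic function to the torus -/
def lft (f : V → ℂ) (t : TT) : ℂ := f (Function.surjInv proj_openQuotient.surjective t)

lemma lft_proj {f : V → ℂ} (hf : Periodic2 f) (x : V) : lft f (proj x) = f x := by
  obtain ⟨k, hk⟩ := proj_eq_proj
    (Function.surjInv_eq proj_openQuotient.surjective (proj x)).symm
  rw [lft, hk, periodic2_lattice hf]

lemma continuous_lft {f : V → ℂ} (hf : Periodic2 f) (hc : Continuous f) : Continuous (lft f) :=
  proj_openQuotient.continuous_comp_iff.1 (by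
    have : lft f ∘ proj = f := funext (lft_proj hf)
    rw [this]; exact hc)

/-- the lift as a continuous map -/
def lftC {f : V → ℂ} (hf : Periodic2 f) (hc : Continuous f) : C(TT, ℂ) :=
  ⟨lft f, continuous_lft hf hc⟩

lemma periodic_bdd {f : V → ℂ} (hf : Periodic2 f) (hc : Continuous f) :
    ∃ M : ℝ, 0 ≤ M ∧ ∀ x, ‖f x‖ ≤ M := by
  refine ⟨‖lftC hf hc‖, norm_nonneg _, fun x => ?_⟩
  have := (lftC hf hc).norm_coe_le_norm (proj x)
  rwa [show (lftC hf hc) (proj x) = f x from lft_proj hf x] at this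

lemma periodic_max {f : V → ℝ} (hf : Periodic2 f) (hc : Continuous f) : ∃ x, ∀ y, f y ≤ f x := by
  have hcont : Continuous fun t : TT => f (Function.surjInv proj_openQuotient.surjective t) := by
    refine proj_openQuotient.continuous_comp_iff.1 ?_
    have : (fun t : TT => f (Function.surjInv proj_openQuotient.surjective t)) ∘ proj = f := by
      funext x
      obtain ⟨k, hk⟩ := proj_eq_proj
        (Function.surjInv_eq proj_openQuotient.surjective (proj x)).symm
      simp only [Function.comp]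
      rw [hk, periodic2_lattice hf]
    rw [this]; exact hc
  obtain ⟨t, -, ht⟩ := isCompact_univ.exists_isMaxOn Set.univ_nonempty hcont.continuousOn
  refine ⟨Function.surjInv proj_openQuotient.surjective t, fun y => ?_⟩
  have h2 := ht (Set.mem_univ (proj y))
  simp only [Set.mem_setOf_eq] at h2
  obtain ⟨k, hk⟩ := proj_eq_proj
    (Function.surjInv_eq proj_openQuotient.surjective (proj y)).symm
  rw [hk, periodic2_lattice hf] at h2
  exact h2

/-- the function with coefficients `c`, on the torus -/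
def evT (c : I → ℂ) : C(TT, ℂ) := ∑' n, c n • mFourier n

lemma hasSum_evT {c : I → ℂ} (hc : S1 c) : HasSum (fun n => c n • mFourier n) (evT c) := by
  refine (Summable.of_norm ?_).hasSum
  simpa only [norm_smul, mFourier_norm, mul_one] using show Summable fun n => ‖c n‖ from hc

lemma evT_proj {c : I → ℂ} (hc : S1 c) (x : V) : evT c (proj x) = ev c x := by
  have h := (ContinuousMap.evalCLM ℂ (proj x)).hasSum (hasSum_evT hc)
  simp only [map_smul] at h
  rw [ev]
  refine (h.tsum_eq.symm.trans (tsum_congr fun n => ?_))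
  simp [mFourier_proj]

lemma mFourierCoeff_evT {c : I → ℂ} (hc : S1 c) (m : I) : mFourierCoeff (evT c) m = c m := by
  classical
  have h := (ContinuousMap.toLp (E := ℂ) 2 (volume : Measure TT) ℂ).hasSum (hasSum_evT hc)
  simp only [map_smul] at h
  have h2 := (innerSL ℂ (mFourierLp (d := Fin 2) 2 m)).hasSum h
  simp only [map_smul, innerSL_apply_apply, smul_eq_mul] at h2
  have h3 : ∀ n, c n * inner ℂ (mFourierLp (d := Fin 2) 2 m) (mFourierLp 2 n)
      = if n = m then c m else 0 := fun n => by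
    rw [orthonormal_iff_ite.1 orthonormal_mFourier]
    rcases eq_or_ne n m with rfl | hne
    · simp
    · simp [hne, Ne.symm hne]
  simp only [h3] at h2
  have h4 := h2.unique (hasSum_ite_eq m (c m))
  rw [← mFourierCoeff_toLp, ← mFourierBasis_repr, mFourierBasis.repr_apply_apply,
    coe_mFourierBasis]
  exact h4

lemma ev_inj {c d : I → ℂ} (hc : S1 c) (hd : S1 d) (h : ∀ x, ev c x = ev d x) : c = d := by
  have : evT c = evT d := by
    ext t
    obtain ⟨x, rfl⟩ := proj_openQuotient.surjective t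
    rw [evT_proj hc, evT_proj hd, h]
  funext m
  rw [← mFourierCoeff_evT hc m, ← mFourierCoeff_evT hd m, this]

lemma parseval {c : I → ℂ} (hc : S1 c) :
    HasSum (fun n => ‖c n‖ ^ 2) (∫ t, ‖evT c t‖ ^ 2) := by
  have h := hasSum_sq_mFourierCoeff (ContinuousMap.toLp (E := ℂ) 2 (volume : Measure TT) ℂ (evT c))
  simp only [mFourierCoeff_toLp, mFourierCoeff_evT hc] at h
  have h2 : ∫ t, ‖(ContinuousMap.toLp (E := ℂ) 2 (volume : Measure TT) ℂ (evT c)) t‖ ^ 2
      = ∫ t, ‖evT c t‖ ^ 2 :=
    integral_congr_ae (by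
      filter_upwards [ContinuousMap.coeFn_toLp (E := ℂ) (p := 2) (𝕜 := ℂ)
        (volume : Measure TT) (evT c)] with t ht
      rw [ht])
  rwa [h2] at h

/-- multiplication by a function bounded by `k` is bounded by `k` in `ℓ²` -/
lemma mul_l2_le {μ c : I → ℂ} (hμ : S1 μ) (hc : S1 c) {k : ℝ} (hk : ∀ x, ‖ev μ x‖ ≤ k) :
    ∑' n, ‖mul μ c n‖ ^ 2 ≤ k ^ 2 * ∑' n, ‖c n‖ ^ 2 := by
  rw [(parseval (hμ.mul hc)).tsum_eq, (parseval hc).tsum_eq, ← integral_const_mul]
  refine integral_mono ?_ ?_ fun t => ?_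
  · exact (Continuous.integrable_of_hasCompactSupport (by fun_prop)
      (HasCompactSupport.of_compactSpace _))
  · exact (Continuous.integrable_of_hasCompactSupport (by fun_prop)
      (HasCompactSupport.of_compactSpace _))
  obtain ⟨x, rfl⟩ := proj_openQuotient.surjective t
  simp only [evT_proj (hμ.mul hc), evT_proj hc, ev_mul hμ hc, norm_mul, mul_pow]
  gcongr
  exact hk x

/-! ### rapid decay -/

/-- rapidly decreasing sequences -/
def Rapid (c : I → ℂ) : Prop := ∀ m : ℕ, Summable fun n => (1 + sz n) ^ m * ‖c n‖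

lemma Rapid.s1 {c : I → ℂ} (h : Rapid c) : S1 c := by simpa [S1] using h 0

lemma summable_int_sq : Summable fun k : ℤ => 1 / (1 + |(k : ℝ)|) ^ 2 := by
  have h : Summable fun k : ℤ => 1 / |(k : ℝ)| ^ (2 : ℕ) := by
    simpa [sq_abs] using (Real.summable_one_div_int_pow (p := 2)).2 (by norm_num)
  refine Summable.of_norm_bounded (g := fun k : ℤ => 1 / |(k : ℝ)| ^ (2 : ℕ) +
    (if k = 0 then 1 else 0)) (h.add (summable_of_ne_finset_zero (s := {0}) fun b hb => ?_))
    fun k => ?_
  · simp at hb; simp [hb]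
  rcases eq_or_ne k 0 with rfl | hk
  · simp
  · have : (0 : ℝ) < |(k : ℝ)| := by positivity
    rw [Real.norm_eq_abs, abs_of_nonneg (by positivity), if_neg hk, add_zero]
    gcongr
    linarith

lemma summable_sz_pow : Summable fun n : I => 1 / (1 + sz n) ^ 4 := by
  have h : Summable fun z : ℤ × ℤ => (1 / (1 + |(z.1 : ℝ)|) ^ 2) * (1 / (1 + |(z.2 : ℝ)|) ^ 2) :=
    summable_int_sq.mul_of_nonneg summable_int_sq (fun _ => by positivity) (fun _ => by positivity)
  have h' := (Equiv.summable_iff (piFinTwoEquiv fun _ => ℤ)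
    (f := fun z : ℤ × ℤ => (1 / (1 + |(z.1 : ℝ)|) ^ 2) * (1 / (1 + |(z.2 : ℝ)|) ^ 2))).2 h
  refine Summable.of_nonneg_of_le (fun n => div_nonneg zero_le_one
    (pow_nonneg (by linarith [sz_nonneg n]) _)) (fun n => ?_) h'
  simp only [Function.comp_apply, piFinTwoEquiv_apply]
  rw [div_mul_div_comm, one_mul, ← mul_pow]
  gcongr
  rw [show (1 + sz n) ^ 4 = ((1 + sz n) * (1 + sz n)) ^ 2 by ring]
  have h0 := abs_nonneg (n 0 : ℝ)
  have h1 := abs_nonneg (n 1 : ℝ)
  have hd : sz n = |(n 0 : ℝ)| + |(n 1 : ℝ)| := rfl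
  exact pow_le_pow_left₀ (by positivity) (mul_le_mul (by linarith) (by linarith) (by linarith)
    (by linarith)) 2

lemma rapid_of_bound {c : I → ℂ} (h : ∀ m : ℕ, ∃ C, ∀ n, (1 + sz n) ^ m * ‖c n‖ ≤ C) :
    Rapid c := by
  intro m
  obtain ⟨C, hC⟩ := h (m + 4)
  refine Summable.of_nonneg_of_le (fun n => ?_) (fun n => ?_) (summable_sz_pow.mul_left C)
  · have := sz_nonneg n; positivity
  · have hp : (0 : ℝ) < (1 + sz n) ^ 4 := by have := sz_nonneg n; positivity
    rw [mul_one_div, le_div_iff₀ hp]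
    calc _ = (1 + sz n) ^ (m + 4) * ‖c n‖ := by ring
      _ ≤ C := hC n

lemma Rapid.bound {c : I → ℂ} (h : Rapid c) (m : ℕ) : ∃ C, ∀ n, (1 + sz n) ^ m * ‖c n‖ ≤ C :=
  ⟨_, fun n => (h m).le_tsum n fun k _ => by have := sz_nonneg k; positivity⟩

lemma Rapid.mu {c m : I → ℂ} (hc : Rapid c) {C : ℝ} {p : ℕ}
    (hm : ∀ n, ‖m n‖ ≤ C * (1 + sz n) ^ p) : Rapid (Mu m c) := by
  intro k
  refine Summable.of_nonneg_of_le (fun n => by have := sz_nonneg n; positivity) (fun n => ?_)
    ((hc (k + p)).mul_left C)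
  rw [Mu, norm_mul]
  calc (1 + sz n) ^ k * (‖m n‖ * ‖c n‖)
      ≤ (1 + sz n) ^ k * ((C * (1 + sz n) ^ p) * ‖c n‖) := by
        have := sz_nonneg n
        gcongr
        exact hm n
    _ = _ := by ring

lemma Rapid.D {c : I → ℂ} (hc : Rapid c) (j : Fin 2) : Rapid (P205.D j c) := by
  refine hc.mu (C := 2 * Real.pi) (p := 1) fun n => ?_
  refine (norm_dm_le j n).trans ?_
  rw [pow_one]
  gcongr
  linarith [sz_nonneg n]

lemma Rapid.add {c d : I → ℂ} (hc : Rapid c) (hd : Rapid d) : Rapid (c + d) := fun m => by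
  refine Summable.of_nonneg_of_le (fun n => by have := sz_nonneg n; positivity) (fun n => ?_)
    ((hc m).add (hd m))
  rw [← mul_add]
  exact mul_le_mul_of_nonneg_left (norm_add_le _ _) (by have := sz_nonneg n; positivity)

lemma Rapid.smul {c : I → ℂ} (z : ℂ) (hc : Rapid c) : Rapid (z • c) := fun m => by
  simpa [norm_smul, mul_left_comm] using (hc m).mul_left ‖z‖

lemma Rapid.neg {c : I → ℂ} (hc : Rapid c) : Rapid (-c) := fun m => by simpa using hc m

lemma Rapid.sub {c d : I → ℂ} (hc : Rapid c) (hd : Rapid d) : Rapid (c - d) := by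
  simpa [sub_eq_add_neg] using hc.add hd.neg

lemma Rapid.single (m : I) (z : ℂ) : Rapid (Pi.single m z) := fun k => by
  refine summable_of_ne_finset_zero (s := {m}) fun b hb => ?_
  simp at hb
  simp [hb]

lemma Rapid.zero : Rapid (0 : I → ℂ) := fun m => by simp [summable_zero]

lemma Rapid.mul {c p : I → ℂ} (hc : Rapid c) (hp : Rapid p) : Rapid (P205.mul c p) := by
  intro m
  let cw : I → ℂ := fun l => (((1 + sz l) ^ m * ‖c l‖ : ℝ) : ℂ)
  let pw : I → ℂ := fun l => (((1 + sz l) ^ m * ‖p l‖ : ℝ) : ℂ)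
  have nn : ∀ l : I, 0 ≤ (1 + sz l) ^ m := fun l => by have := sz_nonneg l; positivity
  have ncw : ∀ l, ‖cw l‖ = (1 + sz l) ^ m * ‖c l‖ := fun l => by
    simp only [cw, Complex.norm_real, Real.norm_eq_abs,
      abs_of_nonneg (mul_nonneg (nn l) (norm_nonneg _))]
  have npw : ∀ l, ‖pw l‖ = (1 + sz l) ^ m * ‖p l‖ := fun l => by
    simp only [pw, Complex.norm_real, Real.norm_eq_abs,
      abs_of_nonneg (mul_nonneg (nn l) (norm_nonneg _))]
  have hcw : S1 cw := by show Summable _; simpa only [ncw] using hc m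
  have hpw : S1 pw := by show Summable _; simpa only [npw] using hp m
  refine Summable.of_nonneg_of_le (fun n => mul_nonneg (nn n) (norm_nonneg _)) (fun n => ?_)
    (hcw.mul hpw).norm
  have hsum : Summable fun l => ‖c l * p (n - l)‖ := by
    simpa using (summable_bil_bdd hc.s1 hp.s1 1 n).norm
  have hsw : Summable fun l => ((1 + sz l) ^ m * ‖c l‖) * ((1 + sz (n - l)) ^ m * ‖p (n - l)‖) := by
    have := (summable_bil_bdd hcw hpw 1 n).norm
    simpa [ncw, npw] using this
  have e1 : P205.mul cw pw n =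
      ((∑' l, ((1 + sz l) ^ m * ‖c l‖) * ((1 + sz (n - l)) ^ m * ‖p (n - l)‖) : ℝ) : ℂ) := by
    rw [mul_apply, Complex.ofReal_tsum]
    simp [cw, pw]
  rw [e1, Complex.norm_real, Real.norm_eq_abs]
  refine le_trans ?_ (le_abs_self _)
  rw [mul_apply]
  refine (mul_le_mul_of_nonneg_left (norm_tsum_le_tsum_norm hsum) (nn n)).trans ?_
  rw [← tsum_mul_left]
  refine Summable.tsum_le_tsum (fun l => ?_) (hsum.mul_left _) hsw
  rw [norm_mul]
  have hsub : (1 + sz n) ^ m ≤ (1 + sz l) ^ m * (1 + sz (n - l)) ^ m := by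
    rw [← mul_pow]
    apply pow_le_pow_left₀ (by linarith [sz_nonneg n])
    have := sz_add l (n - l)
    rw [add_sub_cancel] at this
    nlinarith [sz_nonneg l, sz_nonneg (n - l)]
  calc (1 + sz n) ^ m * (‖c l‖ * ‖p (n - l)‖)
      ≤ ((1 + sz l) ^ m * (1 + sz (n - l)) ^ m) * (‖c l‖ * ‖p (n - l)‖) := by gcongr
    _ = _ := by ring

lemma contDiff_ev {c : I → ℂ} (hc : Rapid c) : ContDiff ℝ ∞ (ev c) := by
  rw [contDiff_infty]
  intro k
  induction k generalizing c with
  | zero => exact contDiff_zero.2 (continuous_ev hc.s1)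
  | succ k ih =>
    rw [Nat.cast_succ, contDiff_succ_iff_fderiv]
    refine ⟨fun x => (hasFDerivAt_ev hc.s1 (fun j => (hc.D j).s1) x).differentiableAt, by simp, ?_⟩
    have : fderiv ℝ (ev c) = fun x => (pj 0).smulRight (ev (P205.D 0 c) x) +
        (pj 1).smulRight (ev (P205.D 1 c) x) :=
      funext fun x => (hasFDerivAt_ev hc.s1 (fun j => (hc.D j).s1) x).fderiv
    rw [this]
    exact (contDiff_const.smulRight (ih (hc.D 0))).add (contDiff_const.smulRight (ih (hc.D 1)))

lemma periodic_fderiv {f : V → ℂ} (hf : Periodic2 f) (j : Fin 2) :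
    Periodic2 (pd j f) := fun x i => by
  have h : (fun y => f (y + ev1 i)) = f := funext fun y => hf y i
  rw [pd, pd, ← fderiv_comp_add_right (ev1 i) (f := f), h]

lemma contDiff_pd {f : V → ℂ} (hf : ContDiff ℝ ∞ f) (j : Fin 2) : ContDiff ℝ ∞ (pd j f) :=
  ((hf.fderiv_right (by norm_cast)).clm_apply contDiff_const)

/-- Fourier coefficients of a periodic function -/
def coef (f : V → ℂ) (n : I) : ℂ := mFourierCoeff (lft f) n

lemma proj_add (x y : V) : proj (x + y) = proj x + proj y := by
  funext i; simp [proj_apply]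

lemma coef_pd {f : V → ℂ} (hf : Periodic2 f) (hs : ContDiff ℝ ∞ f) (j : Fin 2) (n : I) :
    coef (pd j f) n = dm j n * coef f n := by
  have hp := periodic_fderiv hf j
  have hpc := (contDiff_pd hs j).continuous
  obtain ⟨M, hM0, hM⟩ := periodic_bdd hp hpc
  let G : ℝ → TT → ℂ := fun s t => mFourier (-n) t * lft f (t + proj (s • ev1 j))
  let G' : ℝ → TT → ℂ := fun s t => mFourier (-n) t * lft (pd j f) (t + proj (s • ev1 j))
  have hG : ∀ s, Continuous (G s) := fun s => by
    have := continuous_lft hf hs.continuous; fun_prop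
  have hG' : ∀ s, Continuous (G' s) := fun s => by
    have := continuous_lft hp hpc; fun_prop
  have hint : ∀ {g : TT → ℂ}, Continuous g → Integrable g (volume : Measure TT) := fun hg =>
    hg.integrable_of_hasCompactSupport (HasCompactSupport.of_compactSpace _)
  have key := (hasDerivAt_integral_of_dominated_loc_of_deriv_le
    (μ := (volume : Measure TT)) (F := G) (x₀ := (0 : ℝ)) (bound := fun _ => M) (F' := G')
    (Filter.univ_mem : (Set.univ : Set ℝ) ∈ 𝓝 0)
    (Eventually.of_forall fun s => (hG s).aestronglyMeasurable) (hint (hG 0))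
    (hG' 0).aestronglyMeasurable ?_ (integrable_const M) ?_).2
  rotate_left
  · refine ae_of_all _ fun t s _ => ?_
    obtain ⟨x, rfl⟩ := proj_openQuotient.surjective t
    simp only [G', norm_mul, mFourier_proj, norm_e, one_mul, ← proj_add, lft_proj hp]
    exact hM _
  · refine ae_of_all _ fun t s _ => ?_
    obtain ⟨x, rfl⟩ := proj_openQuotient.surjective t
    simp only [G, G', ← proj_add, lft_proj hp, lft_proj hf]
    have h1 : HasDerivAt (fun r : ℝ => x + r • ev1 j) (ev1 j) s := by
      simpa using ((hasDerivAt_id s).smul_const (ev1 j)).const_add x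
    exact (((hs.differentiable (by simp)).differentiableAt.hasFDerivAt.comp_hasDerivAt s h1)
      ).const_mul _
  have hval : ∀ s : ℝ, ∫ t, G s t = e n (s • ev1 j) * coef f n := fun s => by
    have := integral_add_right_eq_self (μ := (volume : Measure TT))
      (fun t => mFourier (-n) (t - proj (s • ev1 j)) * lft f t) (proj (s • ev1 j))
    simp only [add_sub_cancel_right] at this
    rw [show G s = fun t => mFourier (-n) t * lft f (t + proj (s • ev1 j)) from rfl, this, coef,
      mFourierCoeff, ← integral_const_mul]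
    refine integral_congr_ae (ae_of_all _ fun t => ?_)
    obtain ⟨x, rfl⟩ := proj_openQuotient.surjective t
    have hx : proj x - proj (s • ev1 j) = proj (x - s • ev1 j) := by
      rw [sub_eq_iff_eq_add, ← proj_add, sub_add_cancel]
    simp only [hx, smul_eq_mul, mFourier_proj]
    have : e (-n) (x - s • ev1 j) = e n (s • ev1 j) * e (-n) x := by
      rw [e, e, e, ← Complex.exp_add]
      congr 1
      simp
      ring
    rw [this]; ring
  simp only [hval] at key
  have h2 : HasDerivAt (fun s : ℝ => e n (s • ev1 j) * coef f n) (dm j n * coef f n) 0 := by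
    have h1 : HasDerivAt (fun r : ℝ => r • ev1 j) (ev1 j) 0 := by
      simpa using (hasDerivAt_id (0 : ℝ)).smul_const (ev1 j)
    have h3 := ((hasFDerivAt_e n ((0 : ℝ) • ev1 j)).comp_hasDerivAt (0 : ℝ) h1).mul_const
      (coef f n)
    refine h3.congr_deriv ?_
    fin_cases j <;> simp [pj, ev1, e]
  have h4 := key.unique h2
  rw [coef, mFourierCoeff, ← h4]
  refine integral_congr_ae (ae_of_all _ fun t => ?_)
  obtain ⟨x, rfl⟩ := proj_openQuotient.surjective t
  simp [G', ← proj_add]

lemma norm_coef_le {f : V → ℂ} (hf : Periodic2 f) {M : ℝ} (hM : ∀ x, ‖f x‖ ≤ M) (n : I) :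
    ‖coef f n‖ ≤ M := by
  rw [coef, mFourierCoeff]
  refine (norm_integral_le_of_norm_le_const (C := M) (ae_of_all _ fun t => ?_)).trans (by simp)
  obtain ⟨x, rfl⟩ := proj_openQuotient.surjective t
  simp [lft_proj hf, mFourier_proj, norm_e, hM]

lemma coef_rapid {f : V → ℂ} (hf : Periodic2 f) (hs : ContDiff ℝ ∞ f) : Rapid (coef f) := by
  refine rapid_of_bound fun m => ?_
  induction m generalizing f with
  | zero =>
    obtain ⟨M, -, hM⟩ := periodic_bdd hf hs.continuous
    exact ⟨M, fun n => by simpa using norm_coef_le hf hM n⟩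
  | succ m ih =>
    obtain ⟨C, hC⟩ := ih hf hs
    obtain ⟨C0, hC0⟩ := ih (periodic_fderiv hf 0) (contDiff_pd hs 0)
    obtain ⟨C1, hC1⟩ := ih (periodic_fderiv hf 1) (contDiff_pd hs 1)
    refine ⟨C + C0 + C1, fun n => ?_⟩
    have h0 := hC0 n
    have h1 := hC1 n
    rw [coef_pd hf hs, norm_mul, norm_dm] at h0 h1
    have hA : 0 ≤ (1 + sz n) ^ m * ‖coef f n‖ := by have := sz_nonneg n; positivity
    have hp : ∀ j : Fin 2, |(n j : ℝ)| ≤ 2 * Real.pi * |(n j : ℝ)| := fun j =>
      le_mul_of_one_le_left (abs_nonneg _) (by linarith [Real.pi_gt_three])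
    calc (1 + sz n) ^ (m + 1) * ‖coef f n‖
        = (1 + sz n) ^ m * ‖coef f n‖ + |(n 0 : ℝ)| * ((1 + sz n) ^ m * ‖coef f n‖)
          + |(n 1 : ℝ)| * ((1 + sz n) ^ m * ‖coef f n‖) := by rw [pow_succ, sz]; ring
      _ ≤ C + C0 + C1 := by
        gcongr
        · exact hC n
        · refine le_trans (mul_le_mul_of_nonneg_right (hp 0) hA) (le_trans (le_of_eq ?_) h0); ring
        · refine le_trans (mul_le_mul_of_nonneg_right (hp 1) hA) (le_trans (le_of_eq ?_) h1); ring

lemma ev_coef {f : V → ℂ} (hf : Periodic2 f) (hs : ContDiff ℝ ∞ f) (x : V) :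
    ev (coef f) x = f x := by
  have h : Summable (mFourierCoeff (lftC hf hs.continuous)) :=
    Summable.of_norm (coef_rapid hf hs).s1
  have h2 := hasSum_mFourier_series_apply_of_summable h (proj x)
  have h3 : (lftC hf hs.continuous) (proj x) = f x := lft_proj hf x
  rw [h3] at h2
  rw [← h2.tsum_eq, ev]
  refine tsum_congr fun n => ?_
  rw [mFourier_proj]
  rfl

lemma coef_ev {c : I → ℂ} (hc : Rapid c) : coef (ev c) = c :=
  ev_inj (coef_rapid (ev_periodic c) (contDiff_ev hc)).s1 hc.s1
    (ev_coef (ev_periodic c) (contDiff_ev hc))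

lemma coef_herm (f : V → ℂ) (hreal : ∀ x, conj (f x) = f x) : Herm (coef f) := fun n => by
  rw [coef, coef, mFourierCoeff, mFourierCoeff, ← integral_conj]
  refine integral_congr_ae (ae_of_all _ fun t => ?_)
  simp only [neg_neg, smul_eq_mul, map_mul, ← mFourier_neg]
  rw [lft, hreal]

end Vale.Agent.P205
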