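import Vale.Agent.P205.Classes
import Vale.Agent.P205.Torus

/-!
# The iteration scheme for `Σ ρᵢ² (dxᵢ+dφᵢ)² + ε dρᵢ² = a₀ dx₀² + a₁ dx₁²`
-/

noncomputable section

namespace Vale.Agent.P205

/-- coefficient data -/
structure Dat where
  a : Fin 2 → I → ℂ
  rho0 : Fin 2 → I → ℂ
  ia : Fin 2 → I → ℂ
  irho : Fin 2 → I → ℂ
  b : Fin 2 → Fin 2 → I → ℂ
  il : I → ℂ
  er : I → ℂ
  ir : I → ℂ
  dir : I → ℂ
  N : ℕ
  tau : Fin 2 → I → I → ℂ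

namespace Dat

variable (d : Dat)

/-- high frequency inverse Laplacian -/
def mlap (n : I) : ℂ := if (d.N : ℝ) < sz n then (dm 0 n * dm 0 n + dm 1 n * dm 1 n)⁻¹ else 0
def m00 (n : I) : ℂ := dm 0 n * d.mlap n
def m01 (n : I) : ℂ := dm 1 n * d.mlap n
def mm (n : I) : ℂ := dm 0 n * dm 1 n * d.mlap n

/-- low frequencies -/
def low : Finset I :=
  (Fintype.piFinset fun _ => Finset.Icc (-(d.N : ℤ)) d.N).filter fun n => sz n ≤ d.N

/-- right inverse applied to `h` -/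
def phiH (i : Fin 2) (h : I → ℂ) : I → ℂ :=
  (if i = 0 then Mu d.m01 h else mul d.ir (Mu d.m00 h)) + ∑ n ∈ d.low, h n • d.tau i n

/-- its `i`-th derivative -/
def dphiH (i : Fin 2) (h : I → ℂ) : I → ℂ :=
  (if i = 0 then Mu d.mm h else mul d.dir (Mu d.m00 h) + mul d.ir (Mu d.mm h)) +
    ∑ n ∈ d.low, h n • D i (d.tau i n)

/-- error operator -/
def err (h : I → ℂ) : I → ℂ := mul d.er (Mu d.m00 h)

def qz (i : Fin 2) : Fin 5 := ⟨i.1, by omega⟩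
def sz' (i : Fin 2) : Fin 5 := ⟨3 + i.1, by omega⟩

/-- phase perturbation -/
def phi (i : Fin 2) (Z : St) : I → ℂ := -mul (d.ia i) (Z (qz i)) + d.phiH i (Z 2)

/-- amplitude perturbation -/
def sig (i : Fin 2) (Z : St) : I → ℂ :=
  mul (d.irho i) (-(Z (sz' i)) + -((2 : ℂ) • mul (d.a i) (d.dphiH i (Z 2))))

/-- amplitude -/
def rho (i : Fin 2) (Z : St) : I → ℂ := d.rho0 i + d.sig i Z

def cc (i : Fin 2) (Z : St) : I → ℂ :=
  (2 : ℂ) • mul (d.rho0 i) (d.sig i Z) + mul (d.sig i Z) (d.sig i Z)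

def mr (i : Fin 2) (Z : St) : I → ℂ := mul (d.rho i Z) (d.rho i Z)

def AA (i j : Fin 2) (Z : St) : I → ℂ := Bil (KA j) (d.phi i Z) (d.phi i Z)
def RR (i j k : Fin 2) (Z : St) : I → ℂ := Bil (KR2 j k) (d.phi i Z) (d.phi i Z)
def Aρ (i j : Fin 2) (Z : St) : I → ℂ := Bil (KA j) (d.rho i Z) (d.rho i Z)
def Rρ (i j k : Fin 2) (Z : St) : I → ℂ := Bil (KR2 j k) (d.rho i Z) (d.rho i Z)

/-- gradient part of the nonlinearity -/
def NQ (j : Fin 2) (ε : ℝ) (Z : St) : I → ℂ :=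
  (Bil KT (d.cc j Z) (d.phi j Z) +
      (Bil KT (d.mr 0 Z) (d.AA 0 j Z) + Bil KT (d.mr 1 Z) (d.AA 1 j Z))) +
    (ε : ℂ) • (d.Aρ 0 j Z + d.Aρ 1 j Z)

/-- order zero part contributed by one factor -/
def Y (i j k : Fin 2) (Z : St) : I → ℂ :=
  (Bil (KR1 j) (d.mr i Z) (d.AA i k Z) + Bil (KR1 k) (d.mr i Z) (d.AA i j Z)) +
    mul (d.mr i Z) (d.RR i j k Z)

/-- order zero part of the nonlinearity -/
def NR (j k : Fin 2) (ε : ℝ) (Z : St) : I → ℂ :=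
  (((if j = k then mul (d.sig j Z) (d.sig j Z) else 0) +
      (Bil (KR1 j) (d.cc k Z) (d.phi k Z) + Bil (KR1 k) (d.cc j Z) (d.phi j Z))) +
      (d.Y 0 j k Z + d.Y 1 j k Z)) +
    (ε : ℂ) • (d.Rρ 0 j k Z + d.Rρ 1 j k Z)

/-- small part of the new `h` -/
def hnl (ε : ℝ) (Z : St) : I → ℂ :=
  -(mul d.il (d.NR 0 1 ε Z + (mul (d.b 0 1) (d.NQ 1 ε Z) + mul (d.b 1 0) (d.NQ 0 ε Z))))

/-- small part of the new `S` -/
def snl (j : Fin 2) (ε : ℝ) (Z : St) : I → ℂ :=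
  d.NR j j ε Z + (2 : ℂ) • mul (d.b j j) (d.NQ j ε Z)

/-- the map to be iterated -/
def Phi (ε : ℝ) (Z : St) : St :=
  ![d.NQ 0 ε Z, d.NQ 1 ε Z, -d.err (Z 2) + d.hnl ε Z, d.snl 0 ε Z, d.snl 1 ε Z]

/-- admissible weights for the data -/
structure Good (B B' : ℝ) (u : I → ℝ) : Prop where
  adm : Adm u
  ha : ∀ i, Bd u (d.a i) B
  hrho : ∀ i, Bd u (d.rho0 i) B
  hia : ∀ i, Bd u (d.ia i) B
  hirho : ∀ i, Bd u (d.irho i) B
  hb : ∀ i j, Bd u (d.b i j) B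
  hil : Bd u d.il B
  her : Bd u d.er B
  hir : Bd u d.ir B
  hdir : Bd u d.dir B
  htau : ∀ i, ∀ n ∈ d.low, Bd u (d.tau i n) B'
  hdtau : ∀ i, ∀ n ∈ d.low, Bd u (D i (d.tau i n)) B'

lemma norm_dm_sq (n : I) : ‖dm 0 n * dm 0 n + dm 1 n * dm 1 n‖ =
    4 * Real.pi ^ 2 * ((n 0 : ℝ) ^ 2 + (n 1 : ℝ) ^ 2) := by
  have e : dm 0 n * dm 0 n + dm 1 n * dm 1 n =
      ((-(4 * Real.pi ^ 2 * ((n 0 : ℝ) ^ 2 + (n 1 : ℝ) ^ 2)) : ℝ) : ℂ) := by
    simp only [dm]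
    push_cast
    linear_combination (4 * (Real.pi : ℂ) ^ 2 * ((n 0 : ℂ) ^ 2 + (n 1 : ℂ) ^ 2)) * Complex.I_sq
  rw [e, Complex.norm_real, Real.norm_eq_abs, abs_neg, abs_of_nonneg (by positivity)]

lemma sq_sum_ge (n : I) : sz n ^ 2 ≤ 2 * ((n 0 : ℝ) ^ 2 + (n 1 : ℝ) ^ 2) := by
  simp only [sz]
  nlinarith [sq_nonneg (|(n 0 : ℝ)| - |(n 1 : ℝ)|), sq_abs (n 0 : ℝ), sq_abs (n 1 : ℝ)]

lemma norm_dm_mlap (hN : 1 ≤ d.N) (j : Fin 2) (n : I) :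
    ‖dm j n * d.mlap n‖ ≤ 1 / (d.N : ℝ) := by
  unfold mlap
  split_ifs with h
  · have hN' : (1 : ℝ) ≤ d.N := by exact_mod_cast hN
    have hs : 0 < sz n := by linarith
    have hq := sq_sum_ge n
    have hpos : 0 < (n 0 : ℝ) ^ 2 + (n 1 : ℝ) ^ 2 := by nlinarith
    rw [norm_mul, norm_inv, norm_dm_sq, norm_dm, ← div_eq_mul_inv,
      div_le_div_iff₀ (by positivity) (by linarith), one_mul]
    calc 2 * Real.pi * |(n j : ℝ)| * d.N ≤ 2 * Real.pi * sz n * sz n :=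
          mul_le_mul (mul_le_mul_of_nonneg_left (abs_le_sz n j) (by positivity)) h.le
            (by positivity) (by have := sz_nonneg n; positivity)
      _ = 2 * Real.pi * sz n ^ 2 := by ring
      _ ≤ 2 * Real.pi * (2 * ((n 0 : ℝ) ^ 2 + (n 1 : ℝ) ^ 2)) :=
          mul_le_mul_of_nonneg_left hq (by positivity)
      _ ≤ _ := by
        nlinarith [mul_le_mul_of_nonneg_right
          (show 4 * Real.pi ≤ 4 * Real.pi ^ 2 by nlinarith [Real.pi_gt_three]) hpos.le]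
  · simp

lemma norm_m00 (hN : 1 ≤ d.N) (n : I) : ‖d.m00 n‖ ≤ 1 / (d.N : ℝ) := d.norm_dm_mlap hN 0 n
lemma norm_m01 (hN : 1 ≤ d.N) (n : I) : ‖d.m01 n‖ ≤ 1 / (d.N : ℝ) := d.norm_dm_mlap hN 1 n

lemma norm_mm (n : I) : ‖d.mm n‖ ≤ 1 := by
  unfold mm mlap
  split_ifs with h
  · have hq := sq_sum_ge n
    have hs : 0 < sz n := lt_of_le_of_lt (Nat.cast_nonneg d.N) h
    have hpos : 0 < (n 0 : ℝ) ^ 2 + (n 1 : ℝ) ^ 2 := by nlinarith
    rw [norm_mul, norm_mul, norm_inv, norm_dm_sq, norm_dm, norm_dm, ← div_eq_mul_inv,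
      div_le_one (by positivity)]
    nlinarith [mul_nonneg (sq_nonneg Real.pi) (sq_nonneg (|(n 0 : ℝ)| - |(n 1 : ℝ)|)),
      sq_abs (n 0 : ℝ), sq_abs (n 1 : ℝ), mul_nonneg (sq_nonneg Real.pi) (abs_nonneg (n 0 : ℝ)),
      mul_nonneg (mul_nonneg (sq_nonneg Real.pi) (abs_nonneg (n 0 : ℝ))) (abs_nonneg (n 1 : ℝ))]
  · simp

section Orders

variable {B B' : ℝ}

lemma adm' : ∀ u, d.Good B B' u → Adm u := fun _ h => h.adm

lemma ord_h : Ord (d.Good B B') 1 (fun Z => Z 2) := Ord.proj 2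

lemma ord_phi (hB : 0 ≤ B) (hB' : 0 ≤ B') (hN : 1 ≤ d.N) (i : Fin 2) :
    Ord (d.Good B B') 1 (d.phi i) := by
  have hG := d.adm' (B := B) (B' := B')
  refine ((Ord.cmul hG (Ord.proj _) hB fun u h => h.hia i).neg).add ?_
  refine Ord.add ?_ (Ord.sum _ fun n hn => Ord.eval_smul hG 2 n hB' fun u h => h.htau i n hn)
  have h00 : Ord (d.Good B B') 1 (fun Z => Mu d.m00 (Z 2)) :=
    d.ord_h.mu (by positivity) (d.norm_m00 hN)
  fin_cases i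
  · simpa using (d.ord_h (B := B) (B' := B')).mu (by positivity) (d.norm_m01 hN)
  · simpa using Ord.cmul hG h00 hB fun u h => h.hir

lemma ord_dphiH (hB : 0 ≤ B) (hB' : 0 ≤ B') (hN : 1 ≤ d.N) (i : Fin 2) :
    Ord (d.Good B B') 1 (fun Z => d.dphiH i (Z 2)) := by
  have hG := d.adm' (B := B) (B' := B')
  refine Ord.add ?_ (Ord.sum _ fun n hn => Ord.eval_smul hG 2 n hB' fun u h => h.hdtau i n hn)
  have h00 : Ord (d.Good B B') 1 (fun Z => Mu d.m00 (Z 2)) :=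
    d.ord_h.mu (by positivity) (d.norm_m00 hN)
  have hmm : Ord (d.Good B B') 1 (fun Z => Mu d.mm (Z 2)) := d.ord_h.mu zero_le_one d.norm_mm
  fin_cases i
  · simpa using hmm
  · simpa using (Ord.cmul hG h00 hB fun u h => h.hdir).add (Ord.cmul hG hmm hB fun u h => h.hir)

lemma ord_sig (hB : 0 ≤ B) (hB' : 0 ≤ B') (hN : 1 ≤ d.N) (i : Fin 2) :
    Ord (d.Good B B') 1 (d.sig i) :=
  Ord.cmul d.adm' ((Ord.proj _).neg.add
    ((Ord.cmul d.adm' (d.ord_dphiH hB hB' hN i) hB fun _ h => h.ha i).smul 2).neg) hB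
    fun _ h => h.hirho i

lemma ord_rho (hB : 0 ≤ B) (hB' : 0 ≤ B') (hN : 1 ≤ d.N) (i : Fin 2) :
    Ord (d.Good B B') 0 (d.rho i) :=
  (Ord.const hB fun _ h => h.hrho i).add ((d.ord_sig hB hB' hN i).lower (Nat.zero_le 1))

lemma ord_cc (hB : 0 ≤ B) (hB' : 0 ≤ B') (hN : 1 ≤ d.N) (i : Fin 2) :
    Ord (d.Good B B') 1 (d.cc i) :=
  (((Ord.cmul d.adm' (d.ord_sig hB hB' hN i) hB fun _ h => h.hrho i)).smul 2).add
    (((d.ord_sig hB hB' hN i).mul d.adm' (d.ord_sig hB hB' hN i)).lower (by norm_num))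

lemma ord_mr (hB : 0 ≤ B) (hB' : 0 ≤ B') (hN : 1 ≤ d.N) (i : Fin 2) :
    Ord (d.Good B B') 0 (d.mr i) :=
  (d.ord_rho hB hB' hN i).mul d.adm' (d.ord_rho hB hB' hN i)

lemma ord_AA (hB : 0 ≤ B) (hB' : 0 ≤ B') (hN : 1 ≤ d.N) (i j : Fin 2) :
    Ord (d.Good B B') 2 (d.AA i j) :=
  (d.ord_phi hB hB' hN i).bil d.adm' (d.ord_phi hB hB' hN i) (by norm_num) (kbd_A j)

lemma p2_NQ (hB : 0 ≤ B) (hB' : 0 ≤ B') (hN : 1 ≤ d.N) (j : Fin 2) :
    P2 (d.Good B B') (d.NQ j) := by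
  have hG := d.adm' (B := B) (B' := B')
  refine P2.add (P2.of_ord ?_) (P2.eps ?_)
  · refine ((d.ord_cc hB hB' hN j).bil hG (d.ord_phi hB hB' hN j) zero_le_one kbd_T).add ?_
    exact ((d.ord_mr hB hB' hN 0).bil hG (d.ord_AA hB hB' hN 0 j) zero_le_one kbd_T).add
      ((d.ord_mr hB hB' hN 1).bil hG (d.ord_AA hB hB' hN 1 j) zero_le_one kbd_T)
  · exact ((d.ord_rho hB hB' hN 0).bil hG (d.ord_rho hB hB' hN 0) (by norm_num) (kbd_A j)).add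
      ((d.ord_rho hB hB' hN 1).bil hG (d.ord_rho hB hB' hN 1) (by norm_num) (kbd_A j))

lemma ord_Y (hB : 0 ≤ B) (hB' : 0 ≤ B') (hN : 1 ≤ d.N) (i j k : Fin 2) :
    Ord (d.Good B B') 2 (d.Y i j k) := by
  have hG := d.adm' (B := B) (B' := B')
  have hm := d.ord_mr hB hB' hN i
  refine ((hm.bil hG (d.ord_AA hB hB' hN i k) (by norm_num) (kbd_R1 j)).add
    (hm.bil hG (d.ord_AA hB hB' hN i j) (by norm_num) (kbd_R1 k))).add ?_
  exact hm.mul hG ((d.ord_phi hB hB' hN i).bil hG (d.ord_phi hB hB' hN i) (by norm_num) (kbd_R2 j k))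

lemma p2_NR (hB : 0 ≤ B) (hB' : 0 ≤ B') (hN : 1 ≤ d.N) (j k : Fin 2) :
    P2 (d.Good B B') (d.NR j k) := by
  have hG := d.adm' (B := B) (B' := B')
  refine P2.add (P2.of_ord ?_) (P2.eps ?_)
  · refine (Ord.add ?_ ?_).add ((d.ord_Y hB hB' hN 0 j k).add (d.ord_Y hB hB' hN 1 j k))
    · split_ifs
      · exact (d.ord_sig hB hB' hN j).mul hG (d.ord_sig hB hB' hN j)
      · exact Ord.zero 2
    · exact ((d.ord_cc hB hB' hN k).bil hG (d.ord_phi hB hB' hN k) (by norm_num) (kbd_R1 j)).add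
        ((d.ord_cc hB hB' hN j).bil hG (d.ord_phi hB hB' hN j) (by norm_num) (kbd_R1 k))
  · exact ((d.ord_rho hB hB' hN 0).bil hG (d.ord_rho hB hB' hN 0) (by norm_num) (kbd_R2 j k)).add
      ((d.ord_rho hB hB' hN 1).bil hG (d.ord_rho hB hB' hN 1) (by norm_num) (kbd_R2 j k))

lemma p2_hnl (hB : 0 ≤ B) (hB' : 0 ≤ B') (hN : 1 ≤ d.N) : P2 (d.Good B B') d.hnl :=
  (P2.cmul d.adm' ((d.p2_NR hB hB' hN 0 1).add
    ((P2.cmul d.adm' (d.p2_NQ hB hB' hN 1) hB fun _ h => h.hb 0 1).add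
      (P2.cmul d.adm' (d.p2_NQ hB hB' hN 0) hB fun _ h => h.hb 1 0))) hB fun _ h => h.hil).neg

lemma p2_snl (hB : 0 ≤ B) (hB' : 0 ≤ B') (hN : 1 ≤ d.N) (j : Fin 2) :
    P2 (d.Good B B') (d.snl j) :=
  (d.p2_NR hB hB' hN j j).add
    ((P2.cmul d.adm' (d.p2_NQ hB hB' hN j) hB fun _ h => h.hb j j).smul 2)

lemma err_ok (hB : 0 ≤ B) (hN : 1 ≤ d.N) (hBN : 2 * B ≤ d.N) {u : I → ℝ} (hu : d.Good B B' u)
    {r : ℝ} (hr : 0 ≤ r) : Ok u r (r / 2) (1 / 2) (fun Z => -d.err (Z 2)) := by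
  refine Ok.neg ?_
  have h1 : Ok u r r 1 (fun Z => Z 2) :=
    ⟨fun Z hZ => hZ 2, fun Z Z' t _ _ _ hdd => by simpa using hdd 2⟩
  have h2 := h1.mu (C := 1 / (d.N : ℝ)) (by positivity) (d.norm_m00 hN)
  have h3 : Ok u r B 0 (fun _ => d.er) :=
    ⟨fun Z _ => hu.her, fun Z Z' t _ _ _ _ => by simpa using Bd.zero u⟩
  have h4 := h3.bil hu.adm h2 hB le_rfl (by positivity) (by positivity) zero_le_one kbd_one
  have hN' : (1 : ℝ) ≤ d.N := by exact_mod_cast hN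
  have hk : B * (1 / (d.N : ℝ)) ≤ 1 / 2 := by
    rw [mul_one_div, div_le_iff₀ (by linarith)]; linarith
  refine h4.mono ?_ ?_
  · calc 1 * B * (1 / (d.N : ℝ) * r) = B * (1 / (d.N : ℝ)) * r := by ring
      _ ≤ 1 / 2 * r := mul_le_mul_of_nonneg_right hk hr
      _ = _ := by ring
  · simpa using hk

/-- the map is a contraction of a small ball, uniformly in the weight -/
theorem phi_contract (hB : 0 ≤ B) (hB' : 0 ≤ B') (hN : 1 ≤ d.N) (hBN : 2 * B ≤ d.N) :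
    ∃ R ε0 : ℝ, 0 ≤ R ∧ 0 < ε0 ∧ ∀ ε : ℝ, 0 ≤ ε → ε ≤ ε0 → R * ε ≤ 1 ∧ ∀ u, d.Good B B' u →
      (∀ Z, Ball u (R * ε) Z → Ball u (R * ε) (d.Phi ε Z)) ∧
      ∀ Z Z' t, 0 ≤ t → Ball u (R * ε) Z → Ball u (R * ε) Z' → Ball u t (Z - Z') →
        Ball u (3 / 4 * t) (d.Phi ε Z - d.Phi ε Z') := by
  obtain ⟨K1, hK1, h1⟩ := d.p2_NQ hB hB' hN 0
  obtain ⟨K2, hK2, h2⟩ := d.p2_NQ hB hB' hN 1
  obtain ⟨K3, hK3, h3⟩ := d.p2_hnl hB hB' hN
  obtain ⟨K4, hK4, h4⟩ := d.p2_snl hB hB' hN 0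
  obtain ⟨K5, hK5, h5⟩ := d.p2_snl hB hB' hN 1
  set K := K1 + K2 + K3 + K4 + K5 + 1 with hKdef
  have hK : 1 ≤ K := by linarith
  refine ⟨4 * K, 1 / (16 * K ^ 2 + 4 * K * (4 * K + 1)), by positivity, by positivity,
    fun ε hε hε0 => ?_⟩
  rw [le_div_iff₀ (by positivity)] at hε0
  have hA : ε * (16 * K ^ 2) ≤ 1 := by nlinarith [mul_nonneg hε (by positivity : 0 ≤ 4 * K * (4 * K + 1))]
  have hC : ε * (4 * K * (4 * K + 1)) ≤ 1 := by nlinarith [mul_nonneg hε (sq_nonneg K)]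
  set r := 4 * K * ε with hr
  have hr0 : 0 ≤ r := by positivity
  have hr1 : r ≤ 1 := by nlinarith [mul_nonneg hε (sq_nonneg K)]
  refine ⟨hr1, fun u hu => ?_⟩
  have hstep : ∀ {F : ℝ → St → I → ℂ} {K' : ℝ}, 0 ≤ K' → K' ≤ K →
      Ok u r (K' * (r ^ 2 + ε)) (K' * (r + ε)) (F ε) → Ok u r (r / 2) (1 / 4) (F ε) := by
    intro F K' hK'0 hK' h
    refine h.mono ?_ ?_
    · calc K' * (r ^ 2 + ε) ≤ K * (r ^ 2 + ε) := mul_le_mul_of_nonneg_right hK' (by positivity)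
        _ ≤ K * (2 * ε) := by
          refine mul_le_mul_of_nonneg_left ?_ (by linarith)
          rw [hr]
          nlinarith [mul_le_mul_of_nonneg_right hA hε]
        _ = r / 2 := by rw [hr]; ring
    · calc K' * (r + ε) ≤ K * (r + ε) := mul_le_mul_of_nonneg_right hK' (by positivity)
        _ ≤ 1 / 4 := by rw [hr]; nlinarith
  have o1 := hstep hK1 (by linarith) (h1 u hu r hr0 hr1 ε hε)
  have o2 := hstep hK2 (by linarith) (h2 u hu r hr0 hr1 ε hε)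
  have o3 := (d.err_ok hB hN hBN hu hr0).add (hstep hK3 (by linarith) (h3 u hu r hr0 hr1 ε hε))
    (by positivity) (by positivity) (by positivity) (by positivity)
  have o4 := hstep hK4 (by linarith) (h4 u hu r hr0 hr1 ε hε)
  have o5 := hstep hK5 (by linarith) (h5 u hu r hr0 hr1 ε hε)
  have e1 : r / 2 + r / 2 = r := by ring
  have e2 : (1 : ℝ) / 2 + 1 / 4 = 3 / 4 := by norm_num
  rw [e1, e2] at o3
  have hall : ∀ i, Ok u r r (3 / 4) (fun Z => d.Phi ε Z i) := by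
    intro i
    fin_cases i
    · exact o1.mono (by linarith) (by norm_num)
    · exact o2.mono (by linarith) (by norm_num)
    · exact o3
    · exact o4.mono (by linarith) (by norm_num)
    · exact o5.mono (by linarith) (by norm_num)
  exact ⟨fun Z hZ i => (hall i).1 Z hZ, fun Z Z' t ht hZ hZ' hdd i =>
    (hall i).2 Z Z' t ht hZ hZ' hdd⟩

end Orders

end Dat

end Vale.Agent.P205
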