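import Mathlib

/-!
# Fourier sequences on the two-torus

Doubly indexed coefficient sequences `c : I → ℂ`, their evaluation `ev c`, bilinear
Fourier operators and weighted `ℓ¹` norms.
-/

noncomputable section

open scoped ENNReal ComplexConjugate
open Filter Topology

namespace Vale.Agent.P205

abbrev V := Fin 2 → ℝ
abbrev I := Fin 2 → ℤ

/-- size of an index -/
def sz (n : I) : ℝ := |(n 0 : ℝ)| + |(n 1 : ℝ)|

lemma sz_nonneg (n : I) : 0 ≤ sz n := add_nonneg (abs_nonneg _) (abs_nonneg _)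

lemma sz_add (n m : I) : sz (n + m) ≤ sz n + sz m := by
  simp only [sz, Pi.add_apply, Int.cast_add]
  have h0 := abs_add_le (n 0 : ℝ) (m 0)
  have h1 := abs_add_le (n 1 : ℝ) (m 1)
  linarith

@[simp] lemma sz_neg (n : I) : sz (-n) = sz n := by simp [sz]

lemma abs_le_sz (n : I) (j : Fin 2) : |(n j : ℝ)| ≤ sz n := by
  fin_cases j <;> simp [sz]

lemma one_le_sz_of_ne (n : I) (h : n ≠ 0) : 1 ≤ sz n := by
  by_contra hc
  push Not at hc
  apply h
  funext j
  have h1 : |(n j : ℝ)| < 1 := lt_of_le_of_lt (abs_le_sz n j) hc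
  have h2 : |n j| < 1 := by exact_mod_cast h1
  simpa using Int.abs_lt_one_iff.1 h2

/-- the exponential `x ↦ exp (2πi ⟨n,x⟩)` -/
def e (n : I) (x : V) : ℂ :=
  Complex.exp (((2 * Real.pi * ((n 0 : ℝ) * x 0 + (n 1 : ℝ) * x 1) : ℝ) : ℂ) * Complex.I)

lemma norm_e (n : I) (x : V) : ‖e n x‖ = 1 := Complex.norm_exp_ofReal_mul_I _

lemma e_add (n m : I) (x : V) : e (n + m) x = e n x * e m x := by
  rw [e, e, e, ← Complex.exp_add]
  congr 1
  simp only [Pi.add_apply, Int.cast_add]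
  push_cast
  ring

lemma e_neg (n : I) (x : V) : e (-n) x = conj (e n x) := by
  rw [e, e, ← Complex.exp_conj]
  congr 1
  simp [Pi.neg_apply, map_ofNat]
  ring

@[simp] lemma e_zero (x : V) : e 0 x = 1 := by simp [e]

/-- unit vectors -/
def ev1 (j : Fin 2) : V := Pi.single j 1

lemma vec_decomp (v : V) : v = v 0 • ev1 0 + v 1 • ev1 1 := by
  funext j
  fin_cases j <;> simp [ev1]

/-- periodic functions -/
def Periodic2 {α : Type*} (f : V → α) : Prop := ∀ (x : V) (j : Fin 2), f (x + ev1 j) = f x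

lemma e_periodic (n : I) : Periodic2 (e n) := by
  intro x j
  rw [e, e, Complex.exp_eq_exp_iff_exists_int]
  refine ⟨n j, ?_⟩
  fin_cases j <;> simp [ev1] <;> push_cast <;> ring

/-- absolutely summable sequences -/
def S1 (c : I → ℂ) : Prop := Summable fun n => ‖c n‖

/-- evaluation -/
def ev (c : I → ℂ) (x : V) : ℂ := ∑' n, c n * e n x

lemma S1.summable_mul_e {c : I → ℂ} (h : S1 c) (x : V) : Summable fun n => c n * e n x :=
  Summable.of_norm (by simpa [norm_e] using show Summable fun n => ‖c n‖ from h)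

lemma S1.norm {c : I → ℂ} (h : S1 c) : Summable fun n => ‖c n‖ := h

lemma S1.zero : S1 (0 : I → ℂ) := by simp [S1, summable_zero]

lemma S1.add {c d : I → ℂ} (hc : S1 c) (hd : S1 d) : S1 (c + d) :=
  Summable.of_nonneg_of_le (fun _ => norm_nonneg _) (fun _ => norm_add_le _ _)
    (Summable.add hc hd)

lemma S1.smul {c : I → ℂ} (z : ℂ) (hc : S1 c) : S1 (z • c) := by
  simpa [S1, norm_smul] using Summable.mul_left ‖z‖ hc

lemma S1.neg {c : I → ℂ} (hc : S1 c) : S1 (-c) := by simpa [S1] using hc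

lemma S1.sub {c d : I → ℂ} (hc : S1 c) (hd : S1 d) : S1 (c - d) := by
  simpa [sub_eq_add_neg] using hc.add hd.neg

lemma ev_add {c d : I → ℂ} (hc : S1 c) (hd : S1 d) (x : V) :
    ev (c + d) x = ev c x + ev d x := by
  rw [ev, ev, ev, ← Summable.tsum_add (hc.summable_mul_e x) (hd.summable_mul_e x)]
  simp [add_mul]

lemma ev_smul (z : ℂ) (c : I → ℂ) (x : V) : ev (z • c) x = z * ev c x := by
  rw [ev, ev, ← tsum_mul_left]
  simp [mul_assoc]

lemma ev_neg (c : I → ℂ) (x : V) : ev (-c) x = -ev c x := by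
  rw [ev, ev, ← tsum_neg]
  simp

lemma ev_sub {c d : I → ℂ} (hc : S1 c) (hd : S1 d) (x : V) :
    ev (c - d) x = ev c x - ev d x := by
  rw [sub_eq_add_neg, ev_add hc hd.neg, ev_neg, sub_eq_add_neg]

@[simp] lemma ev_zero (x : V) : ev 0 x = 0 := by simp [ev]

lemma ev_periodic (c : I → ℂ) : Periodic2 (ev c) := fun x j => by
  simp [ev, e_periodic _ x j]

lemma norm_ev_le {c : I → ℂ} (hc : S1 c) (x : V) : ‖ev c x‖ ≤ ∑' n, ‖c n‖ := by
  refine (norm_tsum_le_tsum_norm (by simpa [norm_e] using show Summable fun n => ‖c n‖ from hc)).trans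
    (le_of_eq ?_)
  simp [norm_e]

lemma ev_single (m : I) (z : ℂ) (x : V) : ev (Pi.single m z) x = z * e m x := by
  rw [ev, tsum_eq_single m]
  · simp
  · intro b hb; simp [hb]

lemma S1.single (m : I) (z : ℂ) : S1 (Pi.single m z) := by
  refine summable_of_ne_finset_zero (s := {m}) ?_
  intro b hb
  simp at hb
  simp [hb]

/-- Hermitian sequences (those of real functions) -/
def Herm (c : I → ℂ) : Prop := ∀ n, c (-n) = conj (c n)

lemma Herm.ev_real {c : I → ℂ} (h : Herm c) (x : V) : conj (ev c x) = ev c x := by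
  rw [ev, Complex.conj_tsum, ← (Equiv.neg I).tsum_eq]
  refine tsum_congr fun n => ?_
  simp only [Equiv.neg_apply, map_mul, h n, Complex.conj_conj, e_neg]

lemma Herm.ev_im {c : I → ℂ} (h : Herm c) (x : V) : (ev c x).im = 0 :=
  Complex.conj_eq_iff_im.1 (h.ev_real x)

lemma Herm.add {c d : I → ℂ} (hc : Herm c) (hd : Herm d) : Herm (c + d) := fun n => by
  simp [hc n, hd n]

lemma Herm.neg {c : I → ℂ} (hc : Herm c) : Herm (-c) := fun n => by simp [hc n]

lemma Herm.sub {c d : I → ℂ} (hc : Herm c) (hd : Herm d) : Herm (c - d) := fun n => by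
  simp [hc n, hd n]

lemma Herm.smul {c : I → ℂ} (z : ℝ) (hc : Herm c) : Herm ((z : ℂ) • c) := fun n => by
  simp [hc n]

lemma Herm.zero : Herm (0 : I → ℂ) := fun n => by simp

/-- derivative multiplier -/
def dm (j : Fin 2) (n : I) : ℂ := ((2 * Real.pi * (n j : ℝ) : ℝ) : ℂ) * Complex.I

lemma norm_dm (j : Fin 2) (n : I) : ‖dm j n‖ = 2 * Real.pi * |(n j : ℝ)| := by
  rw [dm, norm_mul, Complex.norm_I, mul_one, Complex.norm_real, Real.norm_eq_abs, abs_mul,
    abs_of_pos Real.two_pi_pos]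

/-- Fourier multiplier -/
def Mu (m : I → ℂ) (c : I → ℂ) : I → ℂ := fun n => m n * c n

/-- derivative -/
def D (j : Fin 2) (c : I → ℂ) : I → ℂ := Mu (dm j) c

lemma Herm.mu {m c : I → ℂ} (hm : ∀ n, m (-n) = conj (m n)) (hc : Herm c) : Herm (Mu m c) :=
  fun n => by simp [Mu, hm n, hc n]

lemma dm_neg (j : Fin 2) (n : I) : dm j (-n) = conj (dm j n) := by simp [dm, map_ofNat]

lemma Herm.D {c : I → ℂ} (j : Fin 2) (hc : Herm c) : Herm (D j c) := hc.mu (dm_neg j)

/-- directional derivative -/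
def pd {F : Type*} [NormedAddCommGroup F] [NormedSpace ℝ F] (j : Fin 2) (f : V → F) (x : V) : F :=
  fderiv ℝ f x (ev1 j)

/-- linear functional `v ↦ v j` -/
def pj (j : Fin 2) : V →L[ℝ] ℝ := ContinuousLinearMap.proj j

lemma hasFDerivAt_e (n : I) (x : V) :
    HasFDerivAt (e n) ((pj 0).smulRight (dm 0 n * e n x) + (pj 1).smulRight (dm 1 n * e n x)) x := by
  have h0 : HasFDerivAt (fun y : V => y 0) (pj 0) x := (pj 0).hasFDerivAt
  have h1 : HasFDerivAt (fun y : V => y 1) (pj 1) x := (pj 1).hasFDerivAt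
  have h2 := ((h0.const_mul (n 0 : ℝ)).fun_add (h1.const_mul (n 1 : ℝ))).const_mul (2 * Real.pi)
  have h3 := ((Complex.ofRealCLM.hasFDerivAt.comp x h2).mul_const Complex.I).cexp
  refine HasFDerivAt.congr_fderiv h3 (ContinuousLinearMap.ext fun v => ?_)
  simp [pj, dm, e]
  ring

/-- derivative of one term -/
def termD (c : I → ℂ) (n : I) (x : V) : V →L[ℝ] ℂ :=
  c n • ((pj 0).smulRight (dm 0 n * e n x) + (pj 1).smulRight (dm 1 n * e n x))

lemma norm_termD_le (c : I → ℂ) (n : I) (x : V) :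
    ‖termD c n x‖ ≤ ‖D 0 c n‖ + ‖D 1 c n‖ := by
  refine ContinuousLinearMap.opNorm_le_bound _ (by positivity) fun v => ?_
  have hv : ∀ j, |v j| ≤ ‖v‖ := fun j => norm_le_pi_norm v j
  simp only [termD, pj, smul_apply, add_apply,
    ContinuousLinearMap.smulRight_apply, ContinuousLinearMap.proj_apply, smul_eq_mul,
    Complex.real_smul]
  refine (le_of_eq (norm_mul _ _)).trans ?_
  refine (mul_le_mul_of_nonneg_left (norm_add_le _ _) (norm_nonneg _)).trans ?_
  simp only [norm_mul, Complex.norm_real, Real.norm_eq_abs, norm_e, mul_one, D, Mu]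
  nlinarith [mul_le_mul_of_nonneg_right (hv 0) (mul_nonneg (norm_nonneg (dm 0 n)) (norm_nonneg (c n))),
    mul_le_mul_of_nonneg_right (hv 1) (mul_nonneg (norm_nonneg (dm 1 n)) (norm_nonneg (c n)))]

lemma hasFDerivAt_ev {c : I → ℂ} (hc : S1 c) (hd : ∀ j, S1 (D j c)) (x : V) :
    HasFDerivAt (ev c) ((pj 0).smulRight (ev (D 0 c) x) + (pj 1).smulRight (ev (D 1 c) x)) x := by
  have hu : Summable fun n => ‖D 0 c n‖ + ‖D 1 c n‖ := Summable.add (hd 0) (hd 1)
  have h := hasFDerivAt_tsum (𝕜 := ℝ) (f := fun n y => c n * e n y) (f' := termD c) hu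
    (fun n y => (hasFDerivAt_e n y).const_mul (c n)) (norm_termD_le c) (hc.summable_mul_e x) x
  refine HasFDerivAt.congr_fderiv h (ContinuousLinearMap.ext fun v => ?_)
  have hs : Summable fun n => termD c n x := Summable.of_norm_bounded hu fun n => norm_termD_le c n x
  rw [← ContinuousLinearMap.apply_apply (𝕜 := ℝ) v (∑' n, termD c n x),
    (ContinuousLinearMap.apply ℝ ℂ v).map_tsum hs]
  have h0 := ((hd 0).summable_mul_e x).mul_left ((v 0 : ℝ) : ℂ)
  have h1 := ((hd 1).summable_mul_e x).mul_left ((v 1 : ℝ) : ℂ)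
  simp only [add_apply, ContinuousLinearMap.smulRight_apply, pj,
    ContinuousLinearMap.proj_apply, ev, Complex.real_smul, ← tsum_mul_left]
  rw [← Summable.tsum_add h0 h1]
  refine tsum_congr fun n => ?_
  simp [termD, pj, D, Mu]
  ring

lemma fderiv_ev {c : I → ℂ} (hc : S1 c) (hd : ∀ j, S1 (D j c)) (x v : V) :
    fderiv ℝ (ev c) x v = (v 0 : ℂ) * ev (D 0 c) x + (v 1 : ℂ) * ev (D 1 c) x := by
  rw [(hasFDerivAt_ev hc hd x).fderiv]
  simp [pj]

lemma pd_ev {c : I → ℂ} (hc : S1 c) (hd : ∀ j, S1 (D j c)) (j : Fin 2) (x : V) :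
    pd j (ev c) x = ev (D j c) x := by
  rw [pd, fderiv_ev hc hd]
  fin_cases j <;> simp [ev1]

lemma continuous_ev {c : I → ℂ} (hc : S1 c) : Continuous (ev c) := by
  refine continuous_tsum (fun n => ?_) hc fun n x => by simp [norm_e]
  unfold e
  fun_prop

end Vale.Agent.P205
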